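import Vale.Agent.P074.PL

namespace Vale.Agent.P074

open MeasureTheory Set Filter
open scoped ENNReal NNReal RealInnerProductSpace

variable {d : ℕ}

lemma pl_euclidean {f g h : EuclideanSpace ℝ (Fin d) → ℝ≥0∞} (hf : Measurable f)
    (hg : Measurable g) (hh : Measurable h)
    (hfg : ∀ x y, f x * g y ≤ h ((1 / 2 : ℝ) • (x + y)) ^ 2) :
    (∫⁻ x, f x) * (∫⁻ x, g x) ≤ (∫⁻ x, h x) ^ 2 := by
  have hm := PiLp.volume_preserving_toLp (Fin d)
  rw [← hm.lintegral_comp hf, ← hm.lintegral_comp hg, ← hm.lintegral_comp hh]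
  refine prekopa_leindler d (hf.comp hm.measurable) (hg.comp hm.measurable)
    (hh.comp hm.measurable) (fun x y => ?_)
  simpa using hfg (WithLp.toLp 2 x) (WithLp.toLp 2 y)

/-- Volume as a real number. -/
noncomputable def vol (P : Set (EuclideanSpace ℝ (Fin d))) : ℝ := (volume P).toReal
/-- First moment. -/
noncomputable def bary (P : Set (EuclideanSpace ℝ (Fin d))) : EuclideanSpace ℝ (Fin d) :=
  ∫ x in P, x
/-- Second moment. -/
noncomputable def quad (P : Set (EuclideanSpace ℝ (Fin d))) : ℝ := ∫ x in P, ‖x‖ ^ 2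

variable {K : Set (EuclideanSpace ℝ (Fin d))}

lemma integrableOn_of_subset {F : Type*} [NormedAddCommGroup F] (hK : IsCompact K)
    {P : Set (EuclideanSpace ℝ (Fin d))} (hP : P ⊆ K) {g : EuclideanSpace ℝ (Fin d) → F}
    (hg : Continuous g) : IntegrableOn g P :=
  (hg.continuousOn.integrableOn_compact hK).mono_set hP

lemma volume_lt_top_of_subset (hK : IsCompact K) {P : Set (EuclideanSpace ℝ (Fin d))}
    (hP : P ⊆ K) : volume P < ⊤ :=
  lt_of_le_of_lt (measure_mono hP) hK.measure_lt_top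

lemma setIntegral_weight (hK : IsCompact K) {P : Set (EuclideanSpace ℝ (Fin d))} (hP : P ⊆ K)
    (a s : ℝ) (b : EuclideanSpace ℝ (Fin d)) :
    ∫ x in P, (a - ‖x - b‖ ^ 2 / s)
      = a * vol P - (quad P - 2 * ⟪b, bary P⟫ + ‖b‖ ^ 2 * vol P) / s := by
  have i1 := integrableOn_of_subset hK hP (show Continuous fun x => ‖x‖ ^ 2 by fun_prop)
  have i2 := integrableOn_of_subset hK hP (continuous_id (X := EuclideanSpace ℝ (Fin d)))
  have i3 : IntegrableOn (fun _ : EuclideanSpace ℝ (Fin d) => a - ‖b‖ ^ 2 / s) P :=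
    integrableOn_of_subset hK hP continuous_const
  have e : (fun x : EuclideanSpace ℝ (Fin d) => a - ‖x - b‖ ^ 2 / s)
      = fun x => (a - ‖b‖ ^ 2 / s) - (1 / s) * ‖x‖ ^ 2 + (2 / s) * ⟪b, x⟫ := by
    funext x; rw [norm_sub_sq_real, real_inner_comm]; ring
  have j1 : IntegrableOn (fun x : EuclideanSpace ℝ (Fin d) => (1 / s) * ‖x‖ ^ 2) P := i1.const_mul _
  have j2 : IntegrableOn (fun x : EuclideanSpace ℝ (Fin d) => (2 / s) * ⟪b, x⟫) P :=
    (i2.const_inner b).const_mul _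
  have j3 : IntegrableOn
      (fun x : EuclideanSpace ℝ (Fin d) => (a - ‖b‖ ^ 2 / s) - (1 / s) * ‖x‖ ^ 2) P := i3.sub j1
  rw [e, integral_add j3 j2, integral_sub i3 j1, integral_const_mul, integral_const_mul,
    setIntegral_const, smul_eq_mul, measureReal_def]
  have hin : ∫ x in P, ⟪b, x⟫ = ⟪b, bary P⟫ := integral_inner i2 b
  rw [hin]
  simp only [vol, quad]
  ring

lemma ofReal_setIntegral_le (hK : IsCompact K) {P : Set (EuclideanSpace ℝ (Fin d))} (hP : P ⊆ K)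
    (hPm : MeasurableSet P) {w : EuclideanSpace ℝ (Fin d) → ℝ} (hw : Continuous w) :
    ENNReal.ofReal (∫ x in P, w x) ≤ ∫⁻ x, P.indicator (fun x => ENNReal.ofReal (w x)) x := by
  rw [lintegral_indicator hPm]
  have hi : IntegrableOn (fun x => max (w x) 0) P := integrableOn_of_subset hK hP (by fun_prop)
  calc ENNReal.ofReal (∫ x in P, w x) ≤ ENNReal.ofReal (∫ x in P, max (w x) 0) :=
        ENNReal.ofReal_le_ofReal
          (integral_mono (integrableOn_of_subset hK hP hw) hi (fun x => le_max_left _ _))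
    _ = ∫⁻ x in P, ENNReal.ofReal (max (w x) 0) :=
        ofReal_integral_eq_lintegral_ofReal hi (Eventually.of_forall fun x => le_max_right _ _)
    _ = _ := lintegral_congr fun x => by simp [ENNReal.ofReal, Real.toNNReal]

lemma midpoint_weight (R c ε : ℝ) (a1 : 0 < 1 - ε) (a2 : 0 < 1 + ε)
    (b x y : EuclideanSpace ℝ (Fin d)) :
    ((R ^ 2 + c - ‖x - b‖ ^ 2 / (1 - ε)) + (R ^ 2 - c - ‖y - -b‖ ^ 2 / (1 + ε))) / 2
      ≤ R ^ 2 - ‖(1 / 2 : ℝ) • (x + y)‖ ^ 2 := by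
  have t : ‖x + y‖ ≤ ‖x - b‖ + ‖y - -b‖ := by
    calc ‖x + y‖ = ‖(x - b) + (y - -b)‖ := by congr 1; abel
      _ ≤ _ := norm_add_le _ _
  have t2 : ‖(1 / 2 : ℝ) • (x + y)‖ ^ 2 = ‖x + y‖ ^ 2 / 4 := by
    rw [norm_smul, Real.norm_of_nonneg (by norm_num)]; ring
  generalize ‖x - b‖ = p at t ⊢
  generalize ‖y - -b‖ = q at t ⊢
  have t3 : (p + q) ^ 2 / 2 ≤ p ^ 2 / (1 - ε) + q ^ 2 / (1 + ε) := by
    rw [div_add_div _ _ a1.ne' a2.ne', div_le_div_iff₀ two_pos (mul_pos a1 a2)]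
    nlinarith [sq_nonneg ((1 + ε) * p - (1 - ε) * q)]
  have t4 := pow_le_pow_left₀ (norm_nonneg _) t 2
  rw [t2]
  linarith

lemma weight_le (hK : IsCompact K) (R : ℝ) (hR : ∀ x ∈ K, ‖x‖ ≤ R)
    {Pp Pm P0 : Set (EuclideanSpace ℝ (Fin d))} (hp : Pp ⊆ K) (hm : Pm ⊆ K) (h0 : P0 ⊆ K)
    (mp : MeasurableSet Pp) (mm : MeasurableSet Pm) (m0 : MeasurableSet P0)
    (hmid : ∀ x ∈ Pp, ∀ y ∈ Pm, (1 / 2 : ℝ) • (x + y) ∈ P0)
    (c ε : ℝ) (a1 : 0 < 1 - ε) (a2 : 0 < 1 + ε) (b : EuclideanSpace ℝ (Fin d))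
    (heq : ∫ x in Pp, (R ^ 2 + c - ‖x - b‖ ^ 2 / (1 - ε))
      = ∫ x in Pm, (R ^ 2 - c - ‖x - -b‖ ^ 2 / (1 + ε))) :
    ∫ x in Pp, (R ^ 2 + c - ‖x - b‖ ^ 2 / (1 - ε)) ≤ ∫ x in P0, (R ^ 2 - ‖x‖ ^ 2) := by
  have hnn : ∀ x ∈ P0, 0 ≤ R ^ 2 - ‖x‖ ^ 2 := fun x hx =>
    sub_nonneg.2 (pow_le_pow_left₀ (norm_nonneg x) (hR x (h0 hx)) 2)
  have c1 : Continuous fun x : EuclideanSpace ℝ (Fin d) => R ^ 2 + c - ‖x - b‖ ^ 2 / (1 - ε) := by
    fun_prop
  have c2 : Continuous fun x : EuclideanSpace ℝ (Fin d) => R ^ 2 - c - ‖x - -b‖ ^ 2 / (1 + ε) := by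
    fun_prop
  have c0 : Continuous fun x : EuclideanSpace ℝ (Fin d) => R ^ 2 - ‖x‖ ^ 2 := by fun_prop
  have hW0nn : 0 ≤ ∫ x in P0, (R ^ 2 - ‖x‖ ^ 2) := setIntegral_nonneg m0 hnn
  rcases lt_or_ge (∫ x in Pp, (R ^ 2 + c - ‖x - b‖ ^ 2 / (1 - ε))) 0 with hneg | hpos
  · linarith
  have lp := ofReal_setIntegral_le hK hp mp c1
  have lm := ofReal_setIntegral_le hK hm mm c2
  rw [← heq] at lm
  have hpl := pl_euclidean (d := d)
    (c1.measurable.ennreal_ofReal.indicator mp) (c2.measurable.ennreal_ofReal.indicator mm)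
    (c0.measurable.ennreal_ofReal.indicator m0) (fun x y => ?_)
  · have e0 : ∫⁻ x, P0.indicator (fun x => ENNReal.ofReal (R ^ 2 - ‖x‖ ^ 2)) x
        = ENNReal.ofReal (∫ x in P0, (R ^ 2 - ‖x‖ ^ 2)) := by
      rw [lintegral_indicator m0, ofReal_integral_eq_lintegral_ofReal
        (integrableOn_of_subset hK h0 c0) ((ae_restrict_mem m0).mono fun x hx => hnn x hx)]
    have h := (mul_le_mul' lp lm).trans hpl
    rw [e0, ← sq, ← ENNReal.ofReal_pow hpos, ← ENNReal.ofReal_pow hW0nn,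
      ENNReal.ofReal_le_ofReal_iff (sq_nonneg _)] at h
    exact (pow_le_pow_iff_left₀ hpos hW0nn two_ne_zero).1 h
  · by_cases hx : x ∈ Pp
    swap; · simp [Set.indicator_of_notMem hx]
    by_cases hy : y ∈ Pm
    swap; · simp [Set.indicator_of_notMem hy]
    rw [Set.indicator_of_mem hx, Set.indicator_of_mem hy, Set.indicator_of_mem (hmid x hx y hy)]
    have hzK := hnn _ (hmid x hx y hy)
    have hw := midpoint_weight R c ε a1 a2 b x y
    rcases lt_or_ge (R ^ 2 + c - ‖x - b‖ ^ 2 / (1 - ε)) 0 with h1 | h1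
    · rw [ENNReal.ofReal_of_nonpos h1.le, zero_mul]; exact zero_le
    rcases lt_or_ge (R ^ 2 - c - ‖y - -b‖ ^ 2 / (1 + ε)) 0 with h2 | h2
    · rw [ENNReal.ofReal_of_nonpos h2.le, mul_zero]; exact zero_le
    rw [← ENNReal.ofReal_mul h1, ← ENNReal.ofReal_pow hzK]
    refine ENNReal.ofReal_le_ofReal ?_
    generalize (R ^ 2 + c - ‖x - b‖ ^ 2 / (1 - ε)) = u at hw h1 ⊢
    generalize (R ^ 2 - c - ‖y - -b‖ ^ 2 / (1 + ε)) = v at hw h2 ⊢
    generalize (R ^ 2 - ‖(1 / 2 : ℝ) • (x + y)‖ ^ 2) = w at hw hzK ⊢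
    nlinarith [sq_nonneg (u - v)]

lemma cell_algebra (R Vp Vm Qp Qm N ip im nb ε c W : ℝ) (hS : 0 < Vp + Vm)
    (hε : ε = (Vp - Vm) / (Vp + Vm)) (a1 : 1 - ε ≠ 0) (a2 : 1 + ε ≠ 0)
    (hc : c * (Vp + Vm) = -(R ^ 2) * (Vp - Vm) + (Qp - 2 * ip + nb * Vp) / (1 - ε)
      - (Qm + 2 * im + nb * Vm) / (1 + ε))
    (hi : ip - im = N / (Vp + Vm)) (hn : nb * (Vp + Vm) = N / (Vp + Vm))
    (hW : (R ^ 2 + c) * Vp - (Qp - 2 * ip + nb * Vp) / (1 - ε)
        + ((R ^ 2 - c) * Vm - (Qm + 2 * im + nb * Vm) / (1 + ε)) ≤ W) :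
    N / (Vp + Vm) + R ^ 2 * (Vp + Vm) - (Qp + Qm)
      ≤ W + R ^ 2 * (Vp - Vm) ^ 2 / (Vp + Vm) := by
  generalize hA : Qp - 2 * ip + nb * Vp = Ap at hc hW
  generalize hB : Qm + 2 * im + nb * Vm = Am at hc hW
  have e1 : c * (Vp - Vm) = ε * (-(R ^ 2) * (Vp - Vm) + Ap / (1 - ε) - Am / (1 + ε)) := by
    rw [← hc, hε]; field_simp
  have e2 : Ap / (1 - ε) * (1 - ε) = Ap := div_mul_cancel₀ _ a1
  have e3 : Am / (1 + ε) * (1 + ε) = Am := div_mul_cancel₀ _ a2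
  have e4 : Ap + Am = Qp + Qm - N / (Vp + Vm) := by
    rw [← hA, ← hB]; linear_combination (-2 : ℝ) * hi + hn
  have e5 : R ^ 2 * (Vp - Vm) ^ 2 / (Vp + Vm) = R ^ 2 * ε * (Vp - Vm) := by rw [hε]; ring
  rw [e5]
  linarith

/-- The key inequality for three sets with `P0` containing all midpoints. -/
theorem cell_ineq (hK : IsCompact K) (R : ℝ) (hR : ∀ x ∈ K, ‖x‖ ≤ R)
    {Pp Pm P0 : Set (EuclideanSpace ℝ (Fin d))} (hp : Pp ⊆ K) (hm : Pm ⊆ K) (h0 : P0 ⊆ K)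
    (mp : MeasurableSet Pp) (mm : MeasurableSet Pm) (m0 : MeasurableSet P0)
    (hmid : ∀ x ∈ Pp, ∀ y ∈ Pm, (1 / 2 : ℝ) • (x + y) ∈ P0)
    (Vp : 0 < vol Pp) (Vm : 0 < vol Pm) :
    ‖bary Pp - bary Pm‖ ^ 2 / (vol Pp + vol Pm) + R ^ 2 * (vol Pp + vol Pm - 2 * vol P0)
        - (quad Pp + quad Pm - 2 * quad P0)
      ≤ R ^ 2 * (vol Pp - vol Pm) ^ 2 / (vol Pp + vol Pm) := by
  have hS0 : 0 < vol Pp + vol Pm := add_pos Vp Vm
  obtain ⟨ε, hε⟩ : ∃ ε, ε = (vol Pp - vol Pm) / (vol Pp + vol Pm) := ⟨_, rfl⟩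
  have hε1 : 1 - ε = 2 * vol Pm / (vol Pp + vol Pm) := by
    rw [hε, eq_div_iff hS0.ne', sub_mul, div_mul_cancel₀ _ hS0.ne']; ring
  have hε2 : 1 + ε = 2 * vol Pp / (vol Pp + vol Pm) := by
    rw [hε, eq_div_iff hS0.ne', add_mul, div_mul_cancel₀ _ hS0.ne']; ring
  have a1 : 0 < 1 - ε := by rw [hε1]; positivity
  have a2 : 0 < 1 + ε := by rw [hε2]; positivity
  obtain ⟨b, hb⟩ : ∃ b, b = (1 / (vol Pp + vol Pm)) • (bary Pp - bary Pm) := ⟨_, rfl⟩
  obtain ⟨c, hc⟩ : ∃ c, c * (vol Pp + vol Pm) = -(R ^ 2) * (vol Pp - vol Pm)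
      + (quad Pp - 2 * ⟪b, bary Pp⟫ + ‖b‖ ^ 2 * vol Pp) / (1 - ε)
      - (quad Pm + 2 * ⟪b, bary Pm⟫ + ‖b‖ ^ 2 * vol Pm) / (1 + ε) :=
    ⟨_ / (vol Pp + vol Pm), div_mul_cancel₀ _ hS0.ne'⟩
  have eWp := setIntegral_weight hK hp (R ^ 2 + c) (1 - ε) b
  have eWm := setIntegral_weight hK hm (R ^ 2 - c) (1 + ε) (-b)
  rw [inner_neg_left, norm_neg] at eWm
  have eW0 : ∫ x in P0, (R ^ 2 - ‖x‖ ^ 2) = R ^ 2 * vol P0 - quad P0 := by
    have := setIntegral_weight hK h0 (R ^ 2) 1 0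
    simpa using this
  have hkey := weight_le hK R hR hp hm h0 mp mm m0 hmid c ε a1 a2 b
    (by rw [eWp, eWm]; simp only [mul_neg, sub_neg_eq_add]; linarith)
  rw [eWp, eW0] at hkey
  have hN : ⟪b, bary Pp⟫ - ⟪b, bary Pm⟫ = ‖bary Pp - bary Pm‖ ^ 2 / (vol Pp + vol Pm) := by
    rw [← inner_sub_right, hb, real_inner_smul_left, real_inner_self_eq_norm_sq]; ring
  have hn : ‖b‖ ^ 2 * (vol Pp + vol Pm) = ‖bary Pp - bary Pm‖ ^ 2 / (vol Pp + vol Pm) := by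
    rw [hb, norm_smul, Real.norm_of_nonneg (by positivity)]; field_simp
  have := cell_algebra R (vol Pp) (vol Pm) (quad Pp) (quad Pm) _ _ _ _ ε c
    (2 * (R ^ 2 * vol P0 - quad P0)) hS0 hε a1.ne' a2.ne' hc hN hn (by linarith)
  linarith

/-- The affine function attached to the label `k`. -/
noncomputable def aff {ι : Type*} (y : ι → EuclideanSpace ℝ (Fin d)) (ψ : ι → ℝ) (k : ι)
    (x : EuclideanSpace ℝ (Fin d)) : ℝ := ⟪x, y k⟫ - ψ k

/-- The Laguerre cell of the label `k`. -/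
def cell {ι : Type*} (K : Set (EuclideanSpace ℝ (Fin d))) (y : ι → EuclideanSpace ℝ (Fin d))
    (ψ : ι → ℝ) (k : ι) : Set (EuclideanSpace ℝ (Fin d)) :=
  {x | x ∈ K ∧ ∀ l, aff y ψ l x ≤ aff y ψ k x}

variable {ι : Type*} {y : ι → EuclideanSpace ℝ (Fin d)} {ψ : ι → ℝ}

lemma continuous_aff (k : ι) : Continuous (aff y ψ k) := by unfold aff; fun_prop

lemma cell_subset (k : ι) : cell K y ψ k ⊆ K := fun _ hx => hx.1

lemma isClosed_cell (hK : IsCompact K) (k : ι) : IsClosed (cell K y ψ k) := by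
  have : cell K y ψ k = K ∩ ⋂ l, {x | aff y ψ l x ≤ aff y ψ k x} := by ext x; simp [cell]
  rw [this]
  exact hK.isClosed.inter (isClosed_iInter fun l => isClosed_le (continuous_aff l) (continuous_aff k))

lemma measurableSet_cell (hK : IsCompact K) (k : ι) : MeasurableSet (cell K y ψ k) :=
  (isClosed_cell hK k).measurableSet

lemma iUnion_cell [Fintype ι] [Nonempty ι] : ⋃ k, cell K y ψ k = K := by
  refine Set.Subset.antisymm (Set.iUnion_subset fun k => cell_subset k) fun x hx => ?_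
  obtain ⟨k, -, hk⟩ := Finset.exists_max_image Finset.univ (fun l => aff y ψ l x)
    Finset.univ_nonempty
  exact Set.mem_iUnion.2 ⟨k, hx, fun l => hk l (Finset.mem_univ l)⟩

lemma volume_hyperplane (w : EuclideanSpace ℝ (Fin d)) (hw : w ≠ 0) (c : ℝ) :
    volume {x : EuclideanSpace ℝ (Fin d) | ⟪x, w⟫ = c} = 0 := by
  rcases Set.eq_empty_or_nonempty {x : EuclideanSpace ℝ (Fin d) | ⟪x, w⟫ = c} with h | ⟨x0, hx0⟩
  · simp [h]
  set L := (innerSL ℝ w).toLinearMap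
  have hne : LinearMap.ker L ≠ ⊤ := by
    intro h
    have : w ∈ LinearMap.ker L := h ▸ Submodule.mem_top
    simp [L, LinearMap.mem_ker] at this
    exact hw this
  have e : {x : EuclideanSpace ℝ (Fin d) | ⟪x, w⟫ = c}
      = (fun x => x + -x0) ⁻¹' (LinearMap.ker L : Set (EuclideanSpace ℝ (Fin d))) := by
    have hx0' : ⟪w, x0⟫ = c := by rw [real_inner_comm]; exact hx0
    ext x
    simp only [Set.mem_setOf_eq, Set.mem_preimage, SetLike.mem_coe, LinearMap.mem_ker, L,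
      ContinuousLinearMap.coe_coe, innerSL_apply_apply, inner_add_right, inner_neg_right, hx0']
    rw [real_inner_comm w x]
    constructor <;> intro h <;> linarith
  rw [e, measure_preimage_add_right]
  exact Measure.addHaar_submodule volume _ hne

lemma aedisjoint_cell (hy : Function.Injective y) {k l : ι} (hkl : k ≠ l) :
    AEDisjoint volume (cell K y ψ k) (cell K y ψ l) := by
  refine measure_mono_null (fun x hx => ?_)
    (volume_hyperplane (y k - y l) (sub_ne_zero.2 (hy.ne hkl)) (ψ k - ψ l))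
  have h1 := hx.1.2 l
  have h2 := hx.2.2 k
  simp only [aff] at h1 h2
  simp only [Set.mem_setOf_eq, inner_sub_right]
  linarith

lemma sum_cells [Fintype ι] [Nonempty ι] {F : Type*} [NormedAddCommGroup F] [NormedSpace ℝ F]
    (hK : IsCompact K) (hy : Function.Injective y) {g : EuclideanSpace ℝ (Fin d) → F}
    (hg : Continuous g) : ∑ k, ∫ x in cell K y ψ k, g x = ∫ x in K, g x := by
  conv_rhs => rw [← iUnion_cell (K := K) (y := y) (ψ := ψ)]
  rw [integral_iUnion_ae (fun k => (measurableSet_cell hK k).nullMeasurableSet)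
    (fun k l hkl => aedisjoint_cell hy hkl) (by rw [iUnion_cell]; exact hg.continuousOn.integrableOn_compact hK),
    tsum_fintype]

lemma sum_vol [Fintype ι] [Nonempty ι] (hK : IsCompact K) (hy : Function.Injective y) :
    ∑ k, vol (cell K y ψ k) = vol K := by
  have := sum_cells (ψ := ψ) hK hy (g := fun _ => (1:ℝ)) continuous_const
  simpa [vol, setIntegral_const, measureReal_def] using this

/-- The moments are Lipschitz in the masses, in weighted norms. -/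
theorem bary_lipschitz [Fintype ι] [Nonempty ι] (hK : IsCompact K) (hKc : Convex ℝ K) (R : ℝ)
    (hR : ∀ x ∈ K, ‖x‖ ≤ R) (hy : Function.Injective y) (ψ' : ι → ℝ)
    (h : ∀ k, 0 < vol (cell K y ψ k)) (h' : ∀ k, 0 < vol (cell K y ψ' k)) :
    ∑ k, ‖bary (cell K y ψ k) - bary (cell K y ψ' k)‖ ^ 2 / (vol (cell K y ψ k) + vol (cell K y ψ' k))
      ≤ R ^ 2 * ∑ k, (vol (cell K y ψ k) - vol (cell K y ψ' k)) ^ 2
        / (vol (cell K y ψ k) + vol (cell K y ψ' k)) := by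
  set ψ₀ : ι → ℝ := fun k => (ψ k + ψ' k) / 2 with hψ₀
  have hh := Finset.sum_le_sum (s := Finset.univ) (fun k _ => cell_ineq hK R hR
    (cell_subset k) (cell_subset k) (cell_subset (ψ := ψ₀) k) (measurableSet_cell hK k)
    (measurableSet_cell hK k) (measurableSet_cell hK k)
    (fun x hx z hz => ⟨by
      rw [smul_add]; exact hKc hx.1 hz.1 (by norm_num) (by norm_num) (by norm_num), fun l => by
      have e : ∀ j, aff y ψ₀ j ((1 / 2 : ℝ) • (x + z)) = (aff y ψ j x + aff y ψ' j z) / 2 := by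
        intro j; simp [aff, hψ₀, inner_add_left, real_inner_smul_left]; ring
      rw [e, e]
      linarith [hx.2 l, hz.2 l]⟩) (h k) (h' k))
  have hq : ∀ χ : ι → ℝ, ∑ k, quad (cell K y χ k) = quad K := fun χ =>
    sum_cells hK hy (by fun_prop)
  simp only [Finset.sum_sub_distrib, Finset.sum_add_distrib, ← Finset.mul_sum, sum_vol hK hy,
    hq] at hh
  rw [Finset.mul_sum]
  simp only [mul_div_assoc] at hh ⊢
  linarith

end Vale.Agent.P074
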