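import Vale.Agent.P074.Cell

namespace Vale.Agent.P074

open MeasureTheory Set Filter
open scoped ENNReal NNReal RealInnerProductSpace Topology

variable {d : ℕ}

lemma exists_injective_perturbation [NeZero d] {n : ℕ} (c c' : Fin n → EuclideanSpace ℝ (Fin d))
    (θ : ℝ) (hθ : 0 < θ) :
    ∃ a b : Fin n → EuclideanSpace ℝ (Fin d), Function.Injective a ∧ Function.Injective b ∧
      (∀ k, ‖a k - c k‖ ≤ θ) ∧ ∀ k, ‖b k - c' k‖ ≤ θ := by
  classical
  set u : EuclideanSpace ℝ (Fin d) := EuclideanSpace.single 0 1 with hu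
  have hun : ‖u‖ = 1 := by simp [hu]
  set P : (Fin n → EuclideanSpace ℝ (Fin d)) → ℝ → Fin n → EuclideanSpace ℝ (Fin d) :=
    fun z η k => z k + (η * ((k : ℕ) + 1)) • u with hP
  set Bad : (Fin n → EuclideanSpace ℝ (Fin d)) → Set ℝ := fun z =>
    ⋃ k, ⋃ l, {η : ℝ | k ≠ l ∧ P z η k = P z η l} with hBad
  have hfin : ∀ z, (Bad z).Finite := by
    intro z
    refine Set.finite_iUnion fun k => Set.finite_iUnion fun l => Set.Subsingleton.finite ?_
    intro s hs t ht
    have e : ∀ q, P z q k = P z q l → (z k - z l) + (q * (((k : ℕ) : ℝ) - (l : ℕ))) • u = 0 := by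
      intro q hq
      have : P z q k - P z q l = 0 := sub_eq_zero.2 hq
      rw [← this]; simp only [hP]; rw [mul_sub, sub_smul, mul_add, mul_add, add_smul, add_smul]; abel
    have e3 : ((s - t) * (((k : ℕ) : ℝ) - (l : ℕ))) • u = 0 := by
      rw [sub_mul, sub_smul]
      calc _ = ((z k - z l) + (s * (((k : ℕ) : ℝ) - (l : ℕ))) • u)
            - ((z k - z l) + (t * (((k : ℕ) : ℝ) - (l : ℕ))) • u) := by abel
        _ = 0 := by rw [e s hs.2, e t ht.2, sub_zero]
    have hne : (((k : ℕ) : ℝ) - (l : ℕ)) ≠ 0 := by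
      rw [sub_ne_zero]; exact_mod_cast Fin.val_injective.ne hs.1
    rcases smul_eq_zero.1 e3 with h | h
    · rcases mul_eq_zero.1 h with h | h
      · exact sub_eq_zero.1 h
      · exact absurd h hne
    · rw [h] at hun; simp at hun
  obtain ⟨η, hη, hηB⟩ := ((Set.Ioo_infinite (show (0:ℝ) < θ / (n + 1) by positivity)).diff
    ((hfin c).union (hfin c'))).nonempty
  simp only [Set.mem_union, not_or] at hηB
  have hinj : ∀ z, η ∉ Bad z → Function.Injective (P z η) := by
    intro z hz k l hkl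
    by_contra hne
    exact hz (Set.mem_iUnion.2 ⟨k, Set.mem_iUnion.2 ⟨l, hne, hkl⟩⟩)
  have hnorm : ∀ z k, ‖P z η k - z k‖ ≤ θ := by
    intro z k
    simp only [hP, add_sub_cancel_left, norm_smul, hun, mul_one, Real.norm_eq_abs]
    rw [abs_of_nonneg (mul_nonneg hη.1.le (by positivity))]
    have hk : ((k : ℕ) : ℝ) + 1 ≤ (n : ℝ) + 1 := by
      have : ((k : ℕ) : ℝ) ≤ (n : ℝ) := by exact_mod_cast k.isLt.le
      linarith
    calc η * (((k : ℕ) : ℝ) + 1) ≤ θ / (n + 1) * ((n : ℝ) + 1) :=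
          mul_le_mul hη.2.le hk (by positivity) (div_nonneg hθ.le (by positivity))
      _ = θ := div_mul_cancel₀ _ (by positivity)
  exact ⟨P c η, P c' η, hinj c hηB.1, hinj c' hηB.2, hnorm c, hnorm c'⟩

/-- Discretization of a coupling of two compactly supported measures. -/
theorem exists_discretization [NeZero d] (π : Measure (EuclideanSpace ℝ (Fin d) × EuclideanSpace ℝ (Fin d)))
    [IsProbabilityMeasure π] {Y : Set (EuclideanSpace ℝ (Fin d))} (hY : IsCompact Y)
    (hπ : π (Y ×ˢ Y)ᶜ = 0) {D : ℝ} (hYD : ∀ y ∈ Y, ‖y‖ + 1 ≤ D) (Λ : ℝ) (hΛ : 0 < Λ)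
    {ε : ℝ} (hε : 0 < ε) (hε1 : ε ≤ 1) :
    ∃ (n : ℕ) (a b : Fin n → EuclideanSpace ℝ (Fin d)) (m : Fin n → ℝ)
      (g : EuclideanSpace ℝ (Fin d) × EuclideanSpace ℝ (Fin d) → Fin n),
      0 < n ∧ Function.Injective a ∧ Function.Injective b ∧ (∀ k, ‖a k‖ ≤ D) ∧ (∀ k, ‖b k‖ ≤ D) ∧
      (∀ k, 0 < m k) ∧ ∑ k, m k = Λ ∧ Measurable g ∧
      (∀ f : Fin n → ℝ, ∑ k, m k * f k = Λ * ∫ p, f (g p) ∂π) ∧
      (∀ᵐ p ∂π, ‖a (g p) - p.1‖ ≤ ε) ∧ ∀ᵐ p ∂π, ‖b (g p) - p.2‖ ≤ ε := by
  classical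
  have hne : (Y ×ˢ Y).Nonempty := by
    by_contra h
    rw [Set.not_nonempty_iff_eq_empty.1 h, Set.compl_empty, measure_univ] at hπ
    exact one_ne_zero hπ
  obtain ⟨p0, hp0⟩ := hne
  obtain ⟨t, htY, htfin, htcov⟩ := (hY.prod hY).finite_cover_balls (e := ε / 2) (by positivity)
  obtain ⟨N, e, heY, hecov⟩ : ∃ (N : ℕ) (e : ℕ → EuclideanSpace ℝ (Fin d) × EuclideanSpace ℝ (Fin d)),
      (∀ i, e i ∈ Y ×ˢ Y) ∧ ∀ p ∈ Y ×ˢ Y, ∃ i ≤ N, dist (e i) p ≤ ε / 2 := by
    refine ⟨htfin.toFinset.toList.length, fun i => htfin.toFinset.toList.getD i p0, fun i => ?_,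
      fun p hp => ?_⟩
    · beta_reduce
      rcases lt_or_ge i htfin.toFinset.toList.length with h | h
      · rw [List.getD_eq_getElem _ _ h]
        exact htY ((htfin.mem_toFinset).1 (Finset.mem_toList.1 (List.getElem_mem h)))
      · rw [List.getD_eq_default _ _ h]; exact hp0
    · obtain ⟨c, hc, hd⟩ := Set.mem_iUnion₂.1 (htcov hp)
      obtain ⟨i, hi, rfl⟩ := List.getElem_of_mem (Finset.mem_toList.2 ((htfin.mem_toFinset).2 hc))
      refine ⟨i, hi.le, ?_⟩
      beta_reduce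
      rw [List.getD_eq_getElem _ _ hi, dist_comm]
      exact (Metric.mem_ball.1 hd).le
  set ind := SimpleFunc.nearestPtInd e N with hind
  set g₁ : EuclideanSpace ℝ (Fin d) × EuclideanSpace ℝ (Fin d) → Fin (N + 1) :=
    fun p => ⟨ind p, Nat.lt_succ_of_le (SimpleFunc.nearestPtInd_le e N p)⟩ with hg₁
  have hg₁m : Measurable g₁ := by
    have : g₁ = (fun i : ℕ => if h : i < N + 1 then (⟨i, h⟩ : Fin (N + 1)) else 0) ∘ ind := by
      funext p
      exact (dif_pos (Nat.lt_succ_of_le (SimpleFunc.nearestPtInd_le e N p))).symm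
    rw [this]
    exact (Measurable.of_discrete).comp ind.measurable
  have hclose : ∀ᵐ p ∂π, dist (e (g₁ p)) p ≤ ε / 2 := by
    have hae : ∀ᵐ p ∂π, p ∈ Y ×ˢ Y := by rwa [ae_iff]
    filter_upwards [hae] with p hp
    obtain ⟨i, hi, hd⟩ := hecov p hp
    have h1 : edist (e (g₁ p)) p ≤ edist (e i) p := SimpleFunc.edist_nearestPt_le e p hi
    rw [edist_dist, edist_dist, ENNReal.ofReal_le_ofReal_iff dist_nonneg] at h1
    linarith
  set S := Finset.univ.filter fun i : Fin (N + 1) => π (g₁ ⁻¹' {i}) ≠ 0 with hS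
  have hSae : ∀ᵐ p ∂π, g₁ p ∈ S := by
    rw [ae_iff]
    have : {p | g₁ p ∉ S} ⊆ ⋃ i ∈ (Finset.univ.filter fun i : Fin (N + 1) => π (g₁ ⁻¹' {i}) = 0),
        g₁ ⁻¹' {i} := by
      intro p hp
      refine Set.mem_biUnion (x := g₁ p) ?_ rfl
      simpa [hS] using hp
    refine measure_mono_null this ((measure_biUnion_null_iff (Finset.countable_toSet _)).2 ?_)
    intro i hi; simpa using hi
  have hSne : 0 < S.card := by
    obtain ⟨p, hp⟩ := hSae.exists
    exact Finset.card_pos.2 ⟨_, hp⟩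
  set n := S.card
  set q : Fin n → Fin (N + 1) := fun k => (S.equivFin.symm k : Fin (N + 1))
  set g := fun p => if h : g₁ p ∈ S then S.equivFin ⟨g₁ p, h⟩ else ⟨0, hSne⟩ with hg
  have hgm : Measurable g := by
    have : g = (fun i : Fin (N + 1) => if h : i ∈ S then S.equivFin ⟨i, h⟩ else ⟨0, hSne⟩) ∘ g₁ := rfl
    rw [this]
    exact (measurable_of_finite _).comp hg₁m
  have hqg : ∀ᵐ p ∂π, q (g p) = g₁ p := by
    filter_upwards [hSae] with p hp
    simp [q, hg, dif_pos hp]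
  have hpre : ∀ k, π (g ⁻¹' {k}) ≠ 0 := by
    intro k
    have hk : q k ∈ S := (S.equivFin.symm k).2
    have e1 : g ⁻¹' {k} =ᵐ[π] g₁ ⁻¹' {q k} := by
      filter_upwards [hqg, hSae] with p hp hpS
      refine propext ⟨fun h => ?_, fun h => ?_⟩
      · change g₁ p = q k
        rw [← hp, show g p = k from h]
      · change g p = k
        have h' : g₁ p = q k := h
        simp only [hg, dif_pos hpS]
        rw [Equiv.apply_eq_iff_eq_symm_apply]
        exact Subtype.ext h'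
    rw [measure_congr e1]
    exact (Finset.mem_filter.1 hk).2
  obtain ⟨a, b, ha, hb, hac, hbc⟩ := exists_injective_perturbation
    (fun k => (e (q k)).1) (fun k => (e (q k)).2) (ε / 2) (by positivity)
  haveI : IsProbabilityMeasure (π.map g) := Measure.isProbabilityMeasure_map hgm.aemeasurable
  refine ⟨n, a, b, fun k => Λ * (π (g ⁻¹' {k})).toReal, g, hSne, ha, hb, fun k => ?_, fun k => ?_,
    fun k => mul_pos hΛ (ENNReal.toReal_pos (hpre k) (measure_ne_top _ _)), ?_, hgm, fun f => ?_,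
    ?_, ?_⟩
  · have h1 := norm_le_norm_add_norm_sub' (a k) ((e (q k)).1)
    linarith [hac k, hYD _ (heY (q k)).1]
  · have h1 := norm_le_norm_add_norm_sub' (b k) ((e (q k)).2)
    linarith [hbc k, hYD _ (heY (q k)).2]
  · rw [← Finset.mul_sum, ← ENNReal.toReal_sum fun k _ => measure_ne_top _ _,
      sum_measure_preimage_singleton _ fun k _ => hgm (measurableSet_singleton k)]
    simp
  · rw [← integral_map hgm.aemeasurable (measurable_of_finite f).aestronglyMeasurable,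
      integral_fintype (Integrable.of_finite), Finset.mul_sum]
    refine Finset.sum_congr rfl fun k _ => ?_
    rw [measureReal_def, Measure.map_apply hgm (measurableSet_singleton k), smul_eq_mul]
    ring
  · filter_upwards [hclose, hqg] with p hp hpq
    rw [← hpq, Prod.dist_eq, max_le_iff] at hp
    rw [dist_eq_norm, dist_eq_norm] at hp
    refine (norm_sub_le_norm_sub_add_norm_sub _ ((e (q (g p))).1) _).trans ?_
    linarith [hp.1, hac (g p)]
  · filter_upwards [hclose, hqg] with p hp hpq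
    rw [← hpq, Prod.dist_eq, max_le_iff] at hp
    rw [dist_eq_norm, dist_eq_norm] at hp
    refine (norm_sub_le_norm_sub_add_norm_sub _ ((e (q (g p))).2) _).trans ?_
    linarith [hp.2, hbc (g p)]

end Vale.Agent.P074
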