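import Vale.Agent.P074.Cell

namespace Vale.Agent.P074

open MeasureTheory Set Filter
open scoped ENNReal NNReal RealInnerProductSpace Topology

variable {d : ℕ} {ι : Type*} [Fintype ι] [Nonempty ι]
variable {K : Set (EuclideanSpace ℝ (Fin d))} {y : ι → EuclideanSpace ℝ (Fin d)}
variable {ψ : ι → ℝ} {m : ι → ℝ}

/-- The max-affine potential. -/
noncomputable def pot' (y : ι → EuclideanSpace ℝ (Fin d)) (ψ : ι → ℝ)
    (x : EuclideanSpace ℝ (Fin d)) : ℝ :=
  Finset.univ.sup' Finset.univ_nonempty (fun k => aff y ψ k x)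

lemma aff_le_pot (k : ι) (x : EuclideanSpace ℝ (Fin d)) : aff y ψ k x ≤ pot' y ψ x :=
  Finset.le_sup' (fun k => aff y ψ k x) (Finset.mem_univ k)

lemma pot_le {x : EuclideanSpace ℝ (Fin d)} {c : ℝ} (h : ∀ k, aff y ψ k x ≤ c) :
    pot' y ψ x ≤ c := Finset.sup'_le _ _ (fun k _ => h k)

lemma exists_pot_eq (y : ι → EuclideanSpace ℝ (Fin d)) (ψ : ι → ℝ)
    (x : EuclideanSpace ℝ (Fin d)) : ∃ k, pot' y ψ x = aff y ψ k x := by
  obtain ⟨k, -, hk⟩ := Finset.exists_mem_eq_sup' Finset.univ_nonempty (fun k => aff y ψ k x)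
  exact ⟨k, hk⟩

lemma pot_eq_of_mem {k : ι} {x : EuclideanSpace ℝ (Fin d)} (hx : x ∈ cell K y ψ k) :
    pot' y ψ x = aff y ψ k x :=
  le_antisymm (pot_le hx.2) (aff_le_pot k x)

lemma mem_cell_of_pot_eq {k : ι} {x : EuclideanSpace ℝ (Fin d)} (hxK : x ∈ K)
    (h : pot' y ψ x = aff y ψ k x) : x ∈ cell K y ψ k :=
  ⟨hxK, fun l => h ▸ aff_le_pot l x⟩

lemma continuous_pot : Continuous (pot' y ψ) :=
  Continuous.finset_sup'_apply _ (fun k _ => continuous_aff k)

/-- The dual functional. -/
noncomputable def dual (K : Set (EuclideanSpace ℝ (Fin d))) (y : ι → EuclideanSpace ℝ (Fin d))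
    (m ψ : ι → ℝ) : ℝ := (∫ x in K, pot' y ψ x) + ∑ k, m k * ψ k

/-- `ψ` minimizes the dual functional. -/
def IsMin (K : Set (EuclideanSpace ℝ (Fin d))) (y : ι → EuclideanSpace ℝ (Fin d))
    (m ψ : ι → ℝ) : Prop := ∀ z, dual K y m ψ ≤ dual K y m z

lemma dual_mass (K : Set (EuclideanSpace ℝ (Fin d))) (y : ι → EuclideanSpace ℝ (Fin d))
    (m m' ψ : ι → ℝ) : dual K y m' ψ = dual K y m ψ + ∑ k, (m' k - m k) * ψ k := by
  simp [dual, sub_mul, Finset.sum_sub_distrib]

lemma pot_shift (c : ℝ) (x : EuclideanSpace ℝ (Fin d)) :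
    pot' y (fun k => ψ k + c) x = pot' y ψ x - c := by
  refine le_antisymm (pot_le fun k => ?_) ?_
  · have := aff_le_pot (y := y) (ψ := ψ) k x
    simp only [aff] at this ⊢
    linarith
  · obtain ⟨k, hk⟩ := exists_pot_eq y ψ x
    have := aff_le_pot (y := y) (ψ := fun k => ψ k + c) k x
    rw [hk]
    simp only [aff] at this ⊢
    linarith

lemma dual_shift (hK : IsCompact K) (hm : ∑ k, m k = vol K) (c : ℝ) :
    dual K y m (fun k => ψ k + c) = dual K y m ψ := by
  simp only [dual, pot_shift, mul_add, Finset.sum_add_distrib, ← Finset.sum_mul, hm]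
  rw [integral_sub (continuous_pot.continuousOn.integrableOn_compact hK)
    (continuous_const.continuousOn.integrableOn_compact hK), setIntegral_const, smul_eq_mul,
    measureReal_def]
  simp only [vol]
  ring

lemma pot_lipschitz (z z' : ι → ℝ) (x : EuclideanSpace ℝ (Fin d)) :
    pot' y z x ≤ pot' y z' x + dist z z' := by
  refine pot_le fun k => ?_
  have h1 := aff_le_pot (y := y) (ψ := z') k x
  have h2 : z' k - z k ≤ dist z z' := by
    have h3 := dist_le_pi_dist z z' k
    rw [Real.dist_eq] at h3
    linarith [neg_le_abs (z k - z' k)]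
  simp only [aff] at h1 ⊢
  linarith

lemma continuous_dual (hK : IsCompact K) : Continuous fun z => dual K y m z := by
  have h : Continuous fun z : ι → ℝ => ∫ x in K, pot' y z x := by
    refine (LipschitzWith.of_le_add_mul (Real.toNNReal (vol K)) fun z z' => ?_).continuous
    rw [Real.coe_toNNReal (vol K) ENNReal.toReal_nonneg]
    have hi : ∀ w : ι → ℝ, IntegrableOn (pot' y w) K := fun w =>
      continuous_pot.continuousOn.integrableOn_compact hK
    calc ∫ x in K, pot' y z x ≤ ∫ x in K, (pot' y z' x + dist z z') :=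
          integral_mono (hi z) ((hi z').add (continuous_const.continuousOn.integrableOn_compact hK))
            (fun x => pot_lipschitz z z' x)
      _ = _ := by
          rw [integral_add (hi z') (continuous_const.continuousOn.integrableOn_compact hK),
            setIntegral_const, smul_eq_mul, measureReal_def]; rfl
  unfold dual
  fun_prop

/-- A priori bound on normalized potentials. -/
lemma dual_coercive (hK : IsCompact K) (R D : ℝ) (hR : ∀ x ∈ K, ‖x‖ ≤ R) (hD : ∀ k, ‖y k‖ ≤ D)
    (hm : ∀ k, 0 ≤ m k) {z : ι → ℝ} (hz : ∀ k, 0 ≤ z k) {j : ι} (hj : z j = 0) (k : ι) :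
    m k * z k - vol K * (R * D) ≤ dual K y m z := by
  have h1 : ∫ _x in K, -(R * D) ≤ ∫ x in K, pot' y z x := by
    refine setIntegral_mono_on (continuous_const.continuousOn.integrableOn_compact hK)
      (continuous_pot.continuousOn.integrableOn_compact hK) hK.isClosed.measurableSet fun x hx => ?_
    refine le_trans ?_ (aff_le_pot j x)
    have h2 := abs_real_inner_le_norm x (y j)
    have h3 : ‖x‖ * ‖y j‖ ≤ R * D :=
      mul_le_mul (hR x hx) (hD j) (norm_nonneg _) ((norm_nonneg x).trans (hR x hx))
    simp only [aff, hj, sub_zero]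
    linarith [neg_le_abs ⟪x, y j⟫, neg_abs_le ⟪x, y j⟫]
  rw [setIntegral_const, smul_eq_mul, measureReal_def] at h1
  have h4 : m k * z k ≤ ∑ l, m l * z l :=
    Finset.single_le_sum (f := fun l => m l * z l) (fun l _ => mul_nonneg (hm l) (hz l))
      (Finset.mem_univ k)
  unfold dual
  simp only [vol]
  linarith

/-- Existence of a normalized minimizer, with a bound. -/
lemma exists_min (hK : IsCompact K) (R D : ℝ) (hR : ∀ x ∈ K, ‖x‖ ≤ R) (hD : ∀ k, ‖y k‖ ≤ D)
    (δ : ℝ) (hδ : 0 < δ) (hm : ∀ k, δ ≤ m k) (hms : ∑ k, m k = vol K) :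
    ∃ ψ : ι → ℝ, IsMin K y m ψ ∧
      ∀ k, ψ k ∈ Set.Icc 0 (max 0 ((dual K y m (fun _ => 0) + vol K * (R * D)) / δ)) := by
  set J0 := dual K y m (fun _ => 0)
  set B := max 0 ((J0 + vol K * (R * D)) / δ) with hB
  have hB0 : 0 ≤ B := le_max_left _ _
  obtain ⟨ψ, hψ, hmin⟩ := (isCompact_univ_pi fun _ : ι => isCompact_Icc (a := (0:ℝ)) (b := B))
    |>.exists_isMinOn ⟨fun _ => 0, fun k _ => ⟨le_rfl, hB0⟩⟩ (continuous_dual (m := m) (y := y) hK).continuousOn
  refine ⟨ψ, fun z => ?_, fun k => hψ k (Set.mem_univ k)⟩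
  obtain ⟨j, -, hj⟩ := Finset.exists_min_image Finset.univ z Finset.univ_nonempty
  set w : ι → ℝ := fun k => z k + -z j with hw
  have hwz : dual K y m w = dual K y m z := dual_shift hK hms _
  rw [← hwz]
  by_cases hin : ∀ k, w k ≤ B
  · exact hmin (fun k _ => ⟨by simp only [hw]; linarith [hj k (Finset.mem_univ k)], hin k⟩)
  · push Not at hin
    obtain ⟨k, hk⟩ := hin
    have h1 := dual_coercive (z := w) hK R D hR hD (fun l => hδ.le.trans (hm l))
      (fun l => by simp only [hw]; linarith [hj l (Finset.mem_univ l)]) (j := j) (by simp [hw]) k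
    have h0 : dual K y m ψ ≤ J0 := hmin (fun k _ => ⟨le_rfl, hB0⟩)
    have hwk : 0 ≤ w k := hB0.trans hk.le
    have h2 : δ * w k ≤ m k * w k := mul_le_mul_of_nonneg_right (hm k) hwk
    have h3 : J0 + vol K * (R * D) ≤ δ * B := by
      have : (J0 + vol K * (R * D)) / δ ≤ B := le_max_right _ _
      rw [div_le_iff₀ hδ] at this
      linarith
    have h4 : δ * B < δ * w k := mul_lt_mul_of_pos_left hk hδ
    linarith

/-- The masses of the cells of a minimizer. -/
lemma vol_cell_eq (hK : IsCompact K) (hy : Function.Injective y) (hms : ∑ k, m k = vol K)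
    (hψ : IsMin K y m ψ) (k : ι) : vol (cell K y ψ k) = m k := by
  classical
  have key : ∀ k, m k ≤ vol (cell K y ψ k) := by
    intro k
    set s : ℕ → ℝ := fun n => 1 / (n + 1) with hs
    have hs0 : ∀ n, 0 < s n := fun n => by simp only [hs]; positivity
    set Cs : ℕ → Set (EuclideanSpace ℝ (Fin d)) :=
      fun n => {x | x ∈ K ∧ ∀ l, aff y ψ l x ≤ aff y ψ k x + s n} with hCs
    have hCm : ∀ n, MeasurableSet (Cs n) := fun n => by
      have : Cs n = K ∩ ⋂ l, {x | aff y ψ l x ≤ aff y ψ k x + s n} := by ext x; simp [hCs]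
      rw [this]
      exact hK.isClosed.measurableSet.inter (MeasurableSet.iInter fun l =>
        (isClosed_le (continuous_aff l) ((continuous_aff k).add continuous_const)).measurableSet)
    have hle : ∀ n, m k ≤ vol (Cs n) := by
      intro n
      set z : ι → ℝ := fun l => ψ l - (if l = k then s n else 0) with hz
      have h1 := hψ z
      have hsum : ∑ l, m l * z l = (∑ l, m l * ψ l) - m k * s n := by
        simp [hz, mul_sub, Finset.sum_sub_distrib]
      have hpt : ∀ x ∈ K, pot' y z x ≤ pot' y ψ x + (Cs n).indicator (fun _ => s n) x := by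
        intro x hx
        refine pot_le fun l => ?_
        have hl := aff_le_pot (y := y) (ψ := ψ) l x
        by_cases hxc : x ∈ Cs n
        · rw [Set.indicator_of_mem hxc]
          simp only [aff, hz] at hl ⊢
          split_ifs <;> linarith [hs0 n]
        · rw [Set.indicator_of_notMem hxc, add_zero]
          by_cases hlk : l = k
          · have : ∃ l', aff y ψ k x + s n < aff y ψ l' x := by
              by_contra hc; push Not at hc; exact hxc ⟨hx, hc⟩
            obtain ⟨l', hl'⟩ := this
            have := aff_le_pot (y := y) (ψ := ψ) l' x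
            subst hlk
            simp only [aff, hz, if_true] at hl' this ⊢
            linarith
          · simp only [aff, hz, if_neg hlk, sub_zero] at hl ⊢
            exact hl
      have i1 : IntegrableOn (pot' y ψ) K := continuous_pot.continuousOn.integrableOn_compact hK
      have i2 : IntegrableOn ((Cs n).indicator (fun _ => s n)) K :=
        IntegrableOn.indicator (continuous_const.continuousOn.integrableOn_compact hK) (hCm n)
      have h2 : ∫ x in K, pot' y z x ≤ (∫ x in K, pot' y ψ x) + s n * vol (Cs n) := by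
        refine le_trans (setIntegral_mono_on (continuous_pot.continuousOn.integrableOn_compact hK)
          (i1.add i2) hK.isClosed.measurableSet hpt) (le_of_eq ?_)
        simp only [Pi.add_apply]
        rw [integral_add i1 i2, setIntegral_indicator (hCm n),
          Set.inter_eq_right.2 (fun x hx => hx.1), setIntegral_const, smul_eq_mul, measureReal_def]
        simp only [vol]; ring
      unfold dual at h1
      rw [hsum] at h1
      refine le_of_mul_le_mul_left ?_ (hs0 n)
      linarith
    have hlim : Tendsto (fun n => vol (Cs n)) atTop (𝓝 (vol (cell K y ψ k))) := by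
      have hi : ⋂ n, Cs n = cell K y ψ k := by
        ext x
        simp only [Set.mem_iInter]
        refine ⟨fun h => ⟨(h 0).1, fun l => le_of_forall_pos_le_add fun e he => ?_⟩,
          fun h n => ⟨h.1, fun l => by linarith [h.2 l, hs0 n]⟩⟩
        obtain ⟨n, hn⟩ := exists_nat_one_div_lt he
        linarith [(h n).2 l, show s n < e from hn]
      rw [← hi]
      refine (ENNReal.tendsto_toReal ?_).comp (tendsto_measure_iInter_atTop
        (fun n => (hCm n).nullMeasurableSet) ?_ ⟨0, (volume_lt_top_of_subset hK fun x hx => hx.1).ne⟩)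
      · exact (volume_lt_top_of_subset hK (hi ▸ cell_subset k)).ne
      · intro a b hab x hx
        refine ⟨hx.1, fun l => (hx.2 l).trans ?_⟩
        have : s b ≤ s a := by
          simp only [hs]
          exact one_div_le_one_div_of_le (by positivity) (by exact_mod_cast Nat.succ_le_succ hab)
        linarith
    exact ge_of_tendsto' hlim hle
  have h1 : ∑ l, vol (cell K y ψ l) = ∑ l, m l := by rw [hms, sum_vol hK hy]
  exact ((Finset.sum_eq_sum_iff_of_le (fun l _ => key l)).1 h1.symm k (Finset.mem_univ k)).symm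

/-- The value of the dual at a minimizer. -/
lemma dual_eq_sum (hK : IsCompact K) (hy : Function.Injective y) (hms : ∑ k, m k = vol K)
    (hψ : IsMin K y m ψ) : dual K y m ψ = ∑ k, ⟪y k, bary (cell K y ψ k)⟫ := by
  have h : ∀ k, ∫ x in cell K y ψ k, pot' y ψ x = ⟪y k, bary (cell K y ψ k)⟫ - m k * ψ k := by
    intro k
    have i2 := integrableOn_of_subset hK (cell_subset (y := y) (ψ := ψ) k)
      (continuous_id (X := EuclideanSpace ℝ (Fin d)))
    rw [setIntegral_congr_fun (measurableSet_cell hK k) (fun x hx => pot_eq_of_mem hx)]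
    simp only [aff, real_inner_comm (y k)]
    rw [integral_sub (i2.const_inner (y k)) (integrableOn_of_subset hK (cell_subset k)
      continuous_const), setIntegral_const, smul_eq_mul, measureReal_def,
      ← show vol (cell K y ψ k) = (volume (cell K y ψ k)).toReal from rfl,
      vol_cell_eq hK hy hms hψ k, show ∫ x in cell K y ψ k, ⟪y k, x⟫ = ⟪y k, bary (cell K y ψ k)⟫
        from integral_inner i2 (y k)]
  unfold dual
  rw [← sum_cells (ψ := ψ) hK hy continuous_pot, Finset.sum_congr rfl (fun k _ => h k),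
    Finset.sum_sub_distrib]
  ring

/-- Cells with the right masses give lower bounds for the dual of any other configuration. -/
lemma sum_le_dual (hK : IsCompact K) (hy : Function.Injective y) (hms : ∑ k, m k = vol K)
    (hψ : IsMin K y m ψ) (y' : ι → EuclideanSpace ℝ (Fin d)) (z : ι → ℝ) :
    ∑ k, ⟪y' k, bary (cell K y ψ k)⟫ ≤ dual K y' m z := by
  have h : ∀ k, ⟪y' k, bary (cell K y ψ k)⟫ - m k * z k ≤ ∫ x in cell K y ψ k, pot' y' z x := by
    intro k
    have i2 := integrableOn_of_subset hK (cell_subset (y := y) (ψ := ψ) k)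
      (continuous_id (X := EuclideanSpace ℝ (Fin d)))
    refine le_trans (le_of_eq ?_) (setIntegral_mono_on (integrableOn_of_subset hK (cell_subset k)
      (continuous_aff k)) (integrableOn_of_subset hK (cell_subset k) continuous_pot)
      (measurableSet_cell hK k) (fun x _ => aff_le_pot k x))
    simp only [aff, real_inner_comm (y' k)]
    rw [integral_sub (i2.const_inner (y' k)) (integrableOn_of_subset hK (cell_subset k)
      continuous_const), setIntegral_const, smul_eq_mul, measureReal_def,
      ← show vol (cell K y ψ k) = (volume (cell K y ψ k)).toReal from rfl,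
      vol_cell_eq hK hy hms hψ k, show ∫ x in cell K y ψ k, ⟪y' k, x⟫ = ⟪y' k, bary (cell K y ψ k)⟫
        from integral_inner i2 (y' k)]
  unfold dual
  rw [← sum_cells (ψ := ψ) hK hy continuous_pot]
  have := Finset.sum_le_sum (s := Finset.univ) fun k _ => h k
  rw [Finset.sum_sub_distrib] at this
  linarith

end Vale.Agent.P074
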