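import Vale.Agent.P074.Lower

namespace Vale.Agent.P074

open MeasureTheory Set Filter
open scoped ENNReal NNReal RealInnerProductSpace Topology

variable {d : ℕ} {K Y : Set (EuclideanSpace ℝ (Fin d))}

/-- A map pushing the uniform measure to `μ` takes values in the ball and has the law of `μ`. -/
lemma map_facts (hK : IsCompact K) (hΛ : 0 < vol K) {D : ℝ} (hYD : ∀ y ∈ Y, ‖y‖ + 1 ≤ D)
    {μ : Measure (EuclideanSpace ℝ (Fin d))} (hμ : μ Yᶜ = 0)
    {T : EuclideanSpace ℝ (Fin d) → EuclideanSpace ℝ (Fin d)} (hTm : Measurable T)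
    (hTμ : (uniformOn K).map T = μ)
    {π : Measure (EuclideanSpace ℝ (Fin d) × EuclideanSpace ℝ (Fin d))}
    {f : EuclideanSpace ℝ (Fin d) × EuclideanSpace ℝ (Fin d) → EuclideanSpace ℝ (Fin d)}
    (hf : Measurable f) (hπ : π.map f = μ) :
    (∀ᵐ x ∂(volume.restrict K), ‖T x‖ ≤ D) ∧
    (∀ G : EuclideanSpace ℝ (Fin d) → ℝ, Continuous G →
      ∫ x in K, G (T x) = vol K * ∫ p, G (f p) ∂π) := by
  have hne : (volume K)⁻¹ ≠ 0 := ENNReal.inv_ne_zero.2 hK.measure_lt_top.ne
  refine ⟨?_, fun G hG => ?_⟩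
  · have h1 : ∀ᵐ y ∂μ, y ∈ Y := by rwa [ae_iff]
    rw [← hTμ] at h1
    have h2 := ae_of_ae_map hTm.aemeasurable h1
    rw [uniformOn, Measure.ae_ennreal_smul_measure_iff hne] at h2
    exact h2.mono fun x hx => by linarith [hYD _ hx]
  · rw [← integral_map hf.aemeasurable hG.aestronglyMeasurable, hπ, ← hTμ,
      integral_map hTm.aemeasurable hG.aestronglyMeasurable, integral_uniformOn, ← mul_assoc,
      mul_inv_cancel₀ hΛ.ne', one_mul]

/-- Optimal transport maps from the uniform measure on a convex body exist. -/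
theorem exists_otMap [NeZero d] (hK : IsCompact K) (hKc : Convex ℝ K)
    (hKi : (interior K).Nonempty) (hY : IsCompact Y) (μ : Measure (EuclideanSpace ℝ (Fin d)))
    [IsProbabilityMeasure μ] (hμ : μ Yᶜ = 0) :
    ∃ T, IsOTMap (uniformOn K) μ T := by
  have hv : volume K ≠ 0 := (Measure.measure_pos_of_nonempty_interior _ hKi).ne'
  have hΛ : 0 < vol K := ENNReal.toReal_pos hv hK.measure_lt_top.ne
  obtain ⟨R₁, hR₁⟩ := hK.isBounded.exists_norm_le
  obtain ⟨R₂, hR₂⟩ := hY.isBounded.exists_norm_le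
  set R := max R₁ 0
  set D := max R₂ 0 + 1
  have hR0 : 0 ≤ R := le_max_right _ _
  have hR : ∀ x ∈ K, ‖x‖ ≤ R := fun x hx => (hR₁ x hx).trans (le_max_left _ _)
  have hYD : ∀ y ∈ Y, ‖y‖ + 1 ≤ D := fun y hy =>
    add_le_add ((hR₂ y hy).trans (le_max_left _ _)) le_rfl
  obtain ⟨A, r, -, hr, hA⟩ := exists_boundary_layer hK hKc hKi
  set π := μ.map (fun y => (y, y)) with hπd
  have hdiag : Measurable fun y : EuclideanSpace ℝ (Fin d) => (y, y) := by fun_prop
  have hπP : IsProbabilityMeasure π := Measure.isProbabilityMeasure_map hdiag.aemeasurable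
  have hπ1 : π.map Prod.fst = μ := by
    rw [hπd, Measure.map_map measurable_fst hdiag]
    exact Measure.map_id
  have hπY : π (Y ×ˢ Y)ᶜ = 0 := by
    have h1 : ∀ᵐ y ∂μ, y ∈ Y := by rwa [ae_iff]
    rw [hπd, Measure.map_apply hdiag (hY.measurableSet.prod hY.measurableSet).compl]
    refine measure_mono_null (fun y hy => ?_) hμ
    intro hyY
    exact hy ⟨hyY, hyY⟩
  have hne : ∀ ε : ℝ, 0 < ε → ε ≤ 1 → Nonempty (Disc K π Prod.fst D ε) := fun ε h0 h0' => by
    obtain ⟨n, a, b, m, g, hn, ha, hb, haD, hbD, hm, hms, hg, hint, hca, hcb⟩ :=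
      exists_discretization π hY hπY hYD (vol K) hΛ h0 h0'
    exact ⟨⟨n, hn, a, m, g, ha, haD, hm, hms, hg, hint, hca⟩⟩
  let mk : ∀ ε : ℝ, 0 < ε → ε ≤ 1 → Disc K π Prod.fst D ε := fun ε h0 h0' => (hne ε h0 h0').some
  obtain ⟨L, hLm, hLD, hLlaw, hLdual⟩ := exists_limit_map hK R hR0 hR hr hA mk
  have hLμ : (uniformOn K).map L = μ := by
    have := isProbabilityMeasure_uniformOn hK hΛ
    have := Measure.isProbabilityMeasure_map (μ := uniformOn K) hLm.aemeasurable
    refine ext_of_forall_integral_eq_of_IsFiniteMeasure fun G => ?_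
    rw [integral_map hLm.aemeasurable G.continuous.aestronglyMeasurable, integral_uniformOn,
      hLlaw _ G.continuous, ← hπ1,
      integral_map measurable_fst.aemeasurable G.continuous.aestronglyMeasurable,
      ← mul_assoc, inv_mul_cancel₀ hΛ.ne', one_mul]
  refine ⟨L, hLm, hLμ, fun S hSm hSμ => ?_⟩
  obtain ⟨hSD, hSlaw⟩ := map_facts hK hΛ hYD hμ hSm hSμ (π := π) measurable_fst hπ1
  have hin : ∫ x in K, ⟪x, S x⟫ ≤ ∫ x in K, ⟪x, L x⟫ := by
    refine le_of_forall_pos_le_add fun η hη => ?_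
    set ε := min 1 (η / (2 * R * vol K + 1)) with hεd
    have hε : 0 < ε := by positivity
    obtain ⟨ψ, hψ⟩ := (mk ε hε (min_le_left _ _)).exists_min' hK R hR
    have h1 := (gap_bound hK R hR0 hR hA (mk ε hε (min_le_left _ _)) hψ hSm hSD measurable_fst
      (ε' := 0) (Eventually.of_forall fun p => by simp) hSlaw hr le_rfl).1
    have h2 := hLdual ε _ ψ hψ
    have h3 : (2 * R * vol K + 1) * ε ≤ η := by
      calc _ ≤ (2 * R * vol K + 1) * (η / (2 * R * vol K + 1)) := by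
            gcongr; exact min_le_right _ _
        _ = η := by field_simp
    linarith
  have hi : ∀ V : EuclideanSpace ℝ (Fin d) → EuclideanSpace ℝ (Fin d), Measurable V →
      (∀ᵐ x ∂(volume.restrict K), ‖V x‖ ≤ D) →
      IntegrableOn (fun x => ‖x - V x‖ ^ 2) K ∧
      ∫ x in K, ‖x - V x‖ ^ 2
        = (∫ x in K, ‖x‖ ^ 2) - 2 * (∫ x in K, ⟪x, V x⟫) + ∫ x in K, ‖V x‖ ^ 2 := by
    intro V hV hVD
    have i0 : IntegrableOn (fun x : EuclideanSpace ℝ (Fin d) => ‖x‖ ^ 2) K :=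
      (continuous_norm.pow 2).continuousOn.integrableOn_compact hK
    have i1 : IntegrableOn (fun x => 2 * ⟪x, V x⟫) K :=
      (integrableOn_inner hK R D hR hV hVD).const_mul 2
    have i2 : IntegrableOn (fun x => ‖V x‖ ^ 2) K := by
      refine integrableOn_of_bound hK (hV.norm.pow_const 2) (C := D ^ 2) ?_
      filter_upwards [hVD] with x hx
      rw [abs_of_nonneg (sq_nonneg _)]
      exact pow_le_pow_left₀ (norm_nonneg _) hx 2
    have i01 : IntegrableOn (fun x => ‖x‖ ^ 2 - 2 * ⟪x, V x⟫) K := i0.sub i1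
    constructor
    · simp only [norm_sub_sq_real]
      exact i01.add i2
    · simp only [norm_sub_sq_real]
      rw [integral_add i01 i2, integral_sub i0 i1, integral_const_mul]
  obtain ⟨iL, eL⟩ := hi L hLm hLD
  obtain ⟨iS, eS⟩ := hi S hSm hSD
  rw [uniformOn, lintegral_smul_measure, lintegral_smul_measure, smul_eq_mul, smul_eq_mul]
  refine mul_le_mul' le_rfl ?_
  rw [← ofReal_integral_eq_lintegral_ofReal iL (Eventually.of_forall fun _ => sq_nonneg _),
    ← ofReal_integral_eq_lintegral_ofReal iS (Eventually.of_forall fun _ => sq_nonneg _)]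
  refine ENNReal.ofReal_le_ofReal ?_
  rw [eL, eS, hLlaw (fun z => ‖z‖ ^ 2) (by fun_prop), hSlaw (fun z => ‖z‖ ^ 2) (by fun_prop)]
  linarith

end Vale.Agent.P074
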