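import Vale.Agent.P074.Dual

namespace Vale.Agent.P074

open MeasureTheory Set Filter
open scoped ENNReal NNReal RealInnerProductSpace Topology

variable {d : ℕ}

/-- Points of `K` whose two translates by `±v` stay in `K`. -/
def inner2 (K : Set (EuclideanSpace ℝ (Fin d))) (v : EuclideanSpace ℝ (Fin d)) :
    Set (EuclideanSpace ℝ (Fin d)) :=
  {x | x ∈ K ∧ x + v ∈ K ∧ x - v ∈ K}

lemma measurableSet_inner2 {K : Set (EuclideanSpace ℝ (Fin d))} (hK : IsCompact K)
    (v : EuclideanSpace ℝ (Fin d)) : MeasurableSet (inner2 K v) := by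
  have h : MeasurableSet K := hK.isClosed.measurableSet
  exact h.inter ((h.preimage (measurable_id.add_const v)).inter (h.preimage (measurable_id.sub_const v)))

lemma exists_boundary_layer {K : Set (EuclideanSpace ℝ (Fin d))} (hK : IsCompact K)
    (hKc : Convex ℝ K) (hKi : (interior K).Nonempty) :
    ∃ A r : ℝ, 0 ≤ A ∧ 0 < r ∧ ∀ v : EuclideanSpace ℝ (Fin d), ‖v‖ ≤ r →
      vol K - vol (inner2 K v) ≤ A * ‖v‖ := by
  obtain ⟨c, hc⟩ := hKi
  obtain ⟨ρ, hρ, hball⟩ := Metric.isOpen_iff.1 isOpen_interior c hc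
  refine ⟨vol K * d / (ρ / 2), ρ / 2, by unfold vol; positivity, by positivity, fun v hv => ?_⟩
  set t := ‖v‖ / (ρ / 2) with ht
  have ht0 : 0 ≤ t := by positivity
  have ht1 : t ≤ 1 := (div_le_one (by positivity)).2 hv
  have hin : ∀ w : EuclideanSpace ℝ (Fin d), ‖w‖ ≤ ‖v‖ → ∀ x ∈ K,
      AffineMap.homothety c (1 - t) x + w ∈ K := by
    intro w hw x hx
    rcases eq_or_lt_of_le ht0 with h0 | h0
    · have hv0 : ‖v‖ = 0 := by
        rcases div_eq_zero_iff.1 h0.symm with h | h
        · exact h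
        · linarith
      have : w = 0 := norm_le_zero_iff.1 (hw.trans hv0.le)
      simpa [AffineMap.homothety_apply, ← h0, this] using hx
    have hz : c + t⁻¹ • w ∈ K := by
      refine interior_subset (hball ?_)
      rw [Metric.mem_ball, dist_eq_norm, add_sub_cancel_left, norm_smul, norm_inv,
        Real.norm_of_nonneg ht0]
      calc t⁻¹ * ‖w‖ ≤ t⁻¹ * ‖v‖ := by gcongr
        _ ≤ ρ / 2 := by
            rw [ht, inv_div]
            rcases (norm_nonneg v).lt_or_eq with h | h
            · rw [div_mul_cancel₀ _ h.ne']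
            · rw [← h]; simp; positivity
        _ < ρ := by linarith
    have h2 := hKc hx hz (sub_nonneg.2 ht1) ht0 (by ring)
    convert h2 using 1
    rw [AffineMap.homothety_apply, vsub_eq_sub, vadd_eq_add, smul_add t, smul_smul,
      mul_inv_cancel₀ h0.ne', one_smul, smul_sub, sub_smul, sub_smul, one_smul, one_smul]
    abel
  have hsub : AffineMap.homothety c (1 - t) '' K ⊆ inner2 K v := by
    rintro _ ⟨x, hx, rfl⟩
    refine ⟨?_, hin v le_rfl x hx, ?_⟩
    · simpa using hin 0 (by simp) x hx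
    · rw [sub_eq_add_neg]; exact hin (-v) (by simp) x hx
  have hvol : (1 - t) ^ d * vol K ≤ vol (inner2 K v) := by
    have h := ENNReal.toReal_mono (volume_lt_top_of_subset hK (fun x hx => hx.1)).ne
      (measure_mono (μ := volume) hsub)
    rw [Measure.addHaar_image_homothety, ENNReal.toReal_mul, finrank_euclideanSpace_fin,
      ENNReal.toReal_ofReal (abs_nonneg _), abs_of_nonneg (pow_nonneg (sub_nonneg.2 ht1) d)] at h
    exact h
  have hb : 1 - (d : ℝ) * t ≤ (1 - t) ^ d := by
    have := one_add_mul_le_pow (show -2 ≤ -t by linarith) d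
    rw [← sub_eq_add_neg] at this
    linarith
  have h0 : 0 ≤ vol K := ENNReal.toReal_nonneg
  have h3 := mul_le_mul_of_nonneg_right hb h0
  have e : vol K * d / (ρ / 2) * ‖v‖ = d * t * vol K := by rw [ht]; ring
  rw [e]
  linarith

lemma abs_setIntegral_sub_le {K P : Set (EuclideanSpace ℝ (Fin d))} (hK : IsCompact K) (hP : P ⊆ K)
    (hPm : MeasurableSet P) {g : EuclideanSpace ℝ (Fin d) → ℝ} {D : ℝ} (hg : IntegrableOn g K)
    (hD : ∀ x ∈ K, |g x| ≤ D) :
    |(∫ x in K, g x) - ∫ x in P, g x| ≤ D * (vol K - vol P) := by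
  rw [← setIntegral_diff hPm hg hP]
  refine le_trans (le_of_eq (Real.norm_eq_abs _).symm) ?_
  refine (norm_setIntegral_le_of_norm_le_const (C := D) (volume_lt_top_of_subset hK Set.sdiff_subset)
    (fun x hx => by rw [Real.norm_eq_abs]; exact hD x hx.1)).trans (le_of_eq ?_)
  rw [measureReal_def, measure_sdiff hP hPm.nullMeasurableSet (volume_lt_top_of_subset hK hP).ne,
    ENNReal.toReal_sub_of_le (measure_mono hP) hK.measure_lt_top.ne]
  rfl

/-- The oscillation of a bounded function over a symmetric shift. -/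
lemma integral_shift_le {K : Set (EuclideanSpace ℝ (Fin d))} (hK : IsCompact K)
    {g : EuclideanSpace ℝ (Fin d) → ℝ} {D : ℝ} (hgm : Measurable g) (hD : ∀ x, |g x| ≤ D)
    (v : EuclideanSpace ℝ (Fin d)) :
    ∫ x in inner2 K v, (g (x + v) - g (x - v)) ≤ 2 * D * (vol K - vol (inner2 K v)) := by
  have hgK : IntegrableOn g K := by
    refine Integrable.mono' (continuous_const.continuousOn.integrableOn_compact hK
      (f := fun _ => D)) hgm.aestronglyMeasurable (Eventually.of_forall fun x => ?_)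
    rw [Real.norm_eq_abs]; exact hD x
  have key : ∀ w, (∀ x ∈ inner2 K v, x + w ∈ K) →
      IntegrableOn (fun x => g (x + w)) (inner2 K v) ∧
      |(∫ x in K, g x) - ∫ x in inner2 K v, g (x + w)| ≤ D * (vol K - vol (inner2 K v)) := by
    intro w hw
    set P := (fun x => x + -w) ⁻¹' inner2 K v
    have hPK : P ⊆ K := fun x hx => by simpa using hw _ hx
    have hPm : MeasurableSet P := (measurableSet_inner2 hK v).preimage (measurable_add_const _)
    have e : (fun x => x + w) ⁻¹' P = inner2 K v := by ext x; simp [P]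
    have mp := measurePreserving_add_right (volume : Measure (EuclideanSpace ℝ (Fin d))) w
    have he := mp.setIntegral_preimage_emb (measurableEmbedding_addRight w) g P
    rw [e] at he
    have hv : vol P = vol (inner2 K v) := by
      simp only [vol, P, measure_preimage_add_right]
    refine ⟨?_, ?_⟩
    · have := (mp.integrableOn_comp_preimage (measurableEmbedding_addRight w) (f := g) (s := P)).2
        (hgK.mono_set hPK)
      rwa [e] at this
    · rw [he, ← hv]; exact abs_setIntegral_sub_le hK hPK hPm hgK fun x _ => hD x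
  obtain ⟨i1, h1⟩ := key v fun x hx => hx.2.1
  obtain ⟨i2, h2⟩ := key (-v) fun x hx => by rw [← sub_eq_add_neg]; exact hx.2.2
  simp only [sub_eq_add_neg (b := v)] at *
  rw [integral_sub i1 i2]
  linarith [abs_le.1 h1, abs_le.1 h2]

variable {ι : Type*} [Fintype ι] [Nonempty ι]

/-- A measurable choice of a maximizing label. -/
noncomputable def label (y : ι → EuclideanSpace ℝ (Fin d)) (ψ : ι → ℝ)
    (x : EuclideanSpace ℝ (Fin d)) : ι :=
  (Fintype.equivFin ι).symm (sInfFin {j : Fin (Fintype.card ι) |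
    ∀ l, aff y ψ l x ≤ aff y ψ ((Fintype.equivFin ι).symm j) x})
where
  /-- The least element of a set in `Fin n` (a junk value if empty). -/
  sInfFin (s : Set (Fin (Fintype.card ι))) : Fin (Fintype.card ι) :=
    haveI := Classical.decPred (· ∈ s)
    if h : (Finset.univ.filter (· ∈ s)).Nonempty then (Finset.univ.filter (· ∈ s)).min' h
    else ⟨0, Fintype.card_pos⟩

lemma label_spec (y : ι → EuclideanSpace ℝ (Fin d)) (ψ : ι → ℝ) (x : EuclideanSpace ℝ (Fin d))
    (l : ι) : aff y ψ l x ≤ aff y ψ (label y ψ x) x := by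
  classical
  obtain ⟨k, hk⟩ := exists_pot_eq y ψ x
  have hne : (Finset.univ.filter (· ∈ {j : Fin (Fintype.card ι) |
      ∀ l, aff y ψ l x ≤ aff y ψ ((Fintype.equivFin ι).symm j) x})).Nonempty :=
    ⟨Fintype.equivFin ι k, by simpa using fun l => hk ▸ aff_le_pot l x⟩
  have := Finset.min'_mem _ hne
  rw [Finset.mem_filter] at this
  unfold label label.sInfFin
  rw [dif_pos (by convert hne)]
  convert this.2 l

lemma measurable_label [MeasurableSpace ι] [MeasurableSingletonClass ι]
    (y : ι → EuclideanSpace ℝ (Fin d)) (ψ : ι → ℝ) : Measurable (label y ψ) := by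
  classical
  set n := Fintype.card ι
  set G : (Fin n → Bool) → ι := fun p => (Fintype.equivFin ι).symm
    (label.sInfFin {j | p j = true}) with hG
  have hP : Measurable fun x => fun j : Fin n =>
      decide (∀ l, aff y ψ l x ≤ aff y ψ ((Fintype.equivFin ι).symm j) x) := by
    refine measurable_pi_lambda _ fun j => measurable_to_bool ?_
    have : (fun x => decide (∀ l, aff y ψ l x ≤ aff y ψ ((Fintype.equivFin ι).symm j) x)) ⁻¹' {true}
        = ⋂ l, {x | aff y ψ l x ≤ aff y ψ ((Fintype.equivFin ι).symm j) x} := by ext x; simp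
    rw [this]
    exact MeasurableSet.iInter fun l =>
      (isClosed_le (continuous_aff l) (continuous_aff _)).measurableSet
  have e : label y ψ = G ∘ fun x => fun j : Fin n =>
      decide (∀ l, aff y ψ l x ≤ aff y ψ ((Fintype.equivFin ι).symm j) x) := by
    funext x; simp [hG, label]
  rw [e]
  exact (measurable_of_finite G).comp hP

/-- The discrete transport map. -/
noncomputable def tmap (y : ι → EuclideanSpace ℝ (Fin d)) (ψ : ι → ℝ)
    (x : EuclideanSpace ℝ (Fin d)) : EuclideanSpace ℝ (Fin d) := y (label y ψ x)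

lemma measurable_tmap (y : ι → EuclideanSpace ℝ (Fin d)) (ψ : ι → ℝ) : Measurable (tmap y ψ) := by
  letI : MeasurableSpace ι := ⊤
  haveI : MeasurableSingletonClass ι := ⟨fun _ => trivial⟩
  exact (measurable_of_finite y).comp (measurable_label y ψ)

lemma pot_eq_label (y : ι → EuclideanSpace ℝ (Fin d)) (ψ : ι → ℝ) (x : EuclideanSpace ℝ (Fin d)) :
    pot' y ψ x = aff y ψ (label y ψ x) x :=
  le_antisymm (pot_le (label_spec y ψ x)) (aff_le_pot _ _)

lemma tmap_subgrad (y : ι → EuclideanSpace ℝ (Fin d)) (ψ : ι → ℝ)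
    (x z : EuclideanSpace ℝ (Fin d)) :
    pot' y ψ x + ⟪z - x, tmap y ψ x⟫ ≤ pot' y ψ z := by
  refine le_trans (le_of_eq ?_) (aff_le_pot (label y ψ x) z)
  rw [pot_eq_label]
  simp only [aff, tmap, inner_sub_left]
  ring

lemma inner_shift (i : Fin d) (δ : ℝ) (w : EuclideanSpace ℝ (Fin d)) :
    ⟪(EuclideanSpace.single i δ : EuclideanSpace ℝ (Fin d)), w⟫ = δ * w i := by
  simp [EuclideanSpace.inner_single_left, mul_comm]

lemma coord_le (i : Fin d) {D : ℝ} {w : EuclideanSpace ℝ (Fin d)} (h : ‖w‖ ≤ D) : |w i| ≤ D :=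
  (le_of_eq (Real.norm_eq_abs _).symm).trans ((PiLp.norm_apply_le w i).trans h)

lemma norm_tmap_le {y : ι → EuclideanSpace ℝ (Fin d)} {D : ℝ} (hy : ∀ k, ‖y k‖ ≤ D) (ψ : ι → ℝ)
    (x : EuclideanSpace ℝ (Fin d)) : ‖tmap y ψ x‖ ≤ D := hy _

/-- The secant along a coordinate is squeezed between the values of the map. -/
lemma tmap_secant (y : ι → EuclideanSpace ℝ (Fin d)) (ψ : ι → ℝ) (x : EuclideanSpace ℝ (Fin d))
    (i : Fin d) (δ : ℝ) :
    δ * tmap y ψ x i ≤ pot' y ψ (x + EuclideanSpace.single i δ) - pot' y ψ x ∧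
      pot' y ψ (x + EuclideanSpace.single i δ) - pot' y ψ x
        ≤ δ * tmap y ψ (x + EuclideanSpace.single i δ) i := by
  have h1 := tmap_subgrad y ψ x (x + EuclideanSpace.single i δ)
  have h2 := tmap_subgrad y ψ (x + EuclideanSpace.single i δ) x
  rw [add_sub_cancel_left, inner_shift] at h1
  rw [sub_add_cancel_left, inner_neg_left, inner_shift] at h2
  constructor <;> linarith

variable {K : Set (EuclideanSpace ℝ (Fin d))}

/-- An approximate subgradient is `L¹`-close to the discrete map. -/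
theorem approx_subgrad_close (hK : IsCompact K) {A r : ℝ}
    (hA : ∀ v : EuclideanSpace ℝ (Fin d), ‖v‖ ≤ r → vol K - vol (inner2 K v) ≤ A * ‖v‖)
    {y : ι → EuclideanSpace ℝ (Fin d)} (ψ : ι → ℝ) {D : ℝ} (hy : ∀ k, ‖y k‖ ≤ D)
    {U : EuclideanSpace ℝ (Fin d) → EuclideanSpace ℝ (Fin d)} (hUm : Measurable U)
    (hU : ∀ᵐ x ∂(volume.restrict K), ‖U x‖ ≤ D)
    {h : EuclideanSpace ℝ (Fin d) → ℝ} (hhi : IntegrableOn h K)
    (hh0 : ∀ x ∈ K, 0 ≤ h x)
    (hh : ∀ x ∈ K, ∀ z ∈ K, pot' y ψ x + ⟪z - x, U x⟫ - h x ≤ pot' y ψ z)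
    (i : Fin d) {δ : ℝ} (hδ : 0 < δ) (hδr : δ ≤ r) :
    ∫ x in K, |U x i - tmap y ψ x i| ≤ 4 * D * A * δ + (∫ x in K, h x) / δ := by
  set v : EuclideanSpace ℝ (Fin d) := EuclideanSpace.single i δ with hv
  have hvn : ‖v‖ = δ := by simp [hv, abs_of_pos hδ]
  set P := inner2 K v
  have hlost : vol K - vol P ≤ A * δ := by
    have := hA v (by rw [hvn]; exact hδr)
    rwa [hvn] at this
  have hPm := measurableSet_inner2 hK v
  set g := fun x => tmap y ψ x i with hg
  have hgm : Measurable g := ((EuclideanSpace.proj (𝕜 := ℝ) i).continuous.measurable).comp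
    (measurable_tmap y ψ)
  have hgD : ∀ x, |g x| ≤ D := fun x => coord_le i (norm_tmap_le hy ψ x)
  set F := fun x => |U x i - tmap y ψ x i| with hF
  have hFm : Measurable F :=
    ((((EuclideanSpace.proj (𝕜 := ℝ) i).continuous.measurable).comp hUm).sub hgm).abs
  have hFD : ∀ᵐ x ∂(volume.restrict K), |F x| ≤ 2 * D := by
    filter_upwards [hU] with x hx
    simp only [hF, abs_abs]
    exact (abs_sub _ _).trans (by linarith [coord_le i hx, hgD x])
  have hFi : IntegrableOn F K := Integrable.mono'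
    (continuous_const.continuousOn.integrableOn_compact hK (f := fun _ => 2 * D))
    hFm.aestronglyMeasurable hFD
  have hPK : P ⊆ K := fun x hx => hx.1
  have hD0 : 0 ≤ D := (abs_nonneg _).trans (hgD 0)
  have hfin : volume P < ⊤ := volume_lt_top_of_subset hK hPK
  have hsh : ∀ w, IntegrableOn (fun x => g (x + w)) P := fun w => by
    refine Integrable.mono' (integrableOn_const (C := D) hfin.ne)
      (hgm.comp (measurable_add_const w)).aestronglyMeasurable (Eventually.of_forall fun x => ?_)
    rw [Real.norm_eq_abs]; exact hgD _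
  have i2 : IntegrableOn (fun x => h x / δ) P := (hhi.mono_set hPK).div_const δ
  have hsplit : ∫ x in K, F x = (∫ x in P, F x) + ∫ x in K \ P, F x := by
    rw [← setIntegral_union Set.disjoint_sdiff_right (hK.isClosed.measurableSet.diff hPm)
      (hFi.mono_set hPK) (hFi.mono_set Set.sdiff_subset), Set.union_sdiff_cancel hPK]
  have hrest : ∫ x in K \ P, F x ≤ 2 * D * (A * δ) := by
    have h1 : ∫ x in K \ P, F x ≤ ∫ _x in K \ P, 2 * D := by
      refine setIntegral_mono_ae_restrict (hFi.mono_set Set.sdiff_subset)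
        ((continuous_const.continuousOn.integrableOn_compact hK).mono_set Set.sdiff_subset)
        (ae_restrict_of_ae_restrict_of_subset Set.sdiff_subset (hFD.mono fun x hx => ?_))
      exact (le_abs_self _).trans hx
    rw [setIntegral_const, smul_eq_mul, measureReal_def,
      measure_sdiff hPK hPm.nullMeasurableSet hfin.ne,
      ENNReal.toReal_sub_of_le (measure_mono hPK) hK.measure_lt_top.ne] at h1
    have h2 := mul_le_mul_of_nonneg_left hlost (show 0 ≤ 2 * D by linarith)
    simp only [vol] at h2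
    linarith
  have hbody : ∫ x in P, F x ≤ ∫ x in P, ((g (x + v) - g (x - v)) + h x / δ) := by
    have i1 : IntegrableOn (fun x => g (x + v) - g (x - v)) P := by
      simp only [sub_eq_add_neg (b := v)]
      exact (hsh v).sub (hsh (-v))
    refine setIntegral_mono_on (hFi.mono_set hPK) (i1.add i2) hPm fun x hx => ?_
    obtain ⟨hxK, hp, hm⟩ := hx
    have s1 := tmap_secant y ψ x i δ
    have s2 := tmap_secant y ψ (x - v) i δ
    rw [← hv] at s1 s2
    rw [sub_add_cancel] at s2
    have u1 := hh x hxK _ hp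
    have u2 := hh x hxK _ hm
    rw [add_sub_cancel_left, hv, inner_shift, ← hv] at u1
    rw [sub_sub_cancel_left, inner_neg_left, hv, inner_shift, ← hv] at u2
    simp only [hF, hg]
    rw [abs_le]
    have hδi : h x / δ * δ = h x := div_mul_cancel₀ _ hδ.ne'
    constructor <;> refine le_of_mul_le_mul_right ?_ hδ <;> linarith [hh0 x hxK]
  have i1' : IntegrableOn (fun x => g (x + v) - g (x - v)) P := by
    simp only [sub_eq_add_neg (b := v)]
    exact (hsh v).sub (hsh (-v))
  rw [integral_add i1' i2, integral_div] at hbody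
  have h3 := integral_shift_le hK hgm hgD v
  have h4 : ∫ x in P, h x ≤ ∫ x in K, h x :=
    setIntegral_mono_set hhi ((ae_restrict_mem hK.isClosed.measurableSet).mono fun x hx => hh0 x hx)
      hPK.eventuallyLE
  have h5 := mul_le_mul_of_nonneg_left hlost (show 0 ≤ 2 * D by linarith)
  have h6 : (∫ x in P, h x) / δ ≤ (∫ x in K, h x) / δ := by gcongr
  linarith

/-- Two discrete maps are close in `L²` when their potentials are. -/
theorem tmap_close (hK : IsCompact K) {A r : ℝ}
    (hA : ∀ v : EuclideanSpace ℝ (Fin d), ‖v‖ ≤ r → vol K - vol (inner2 K v) ≤ A * ‖v‖)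
    {y y' : ι → EuclideanSpace ℝ (Fin d)} (ψ ψ' : ι → ℝ) {D : ℝ} (hy : ∀ k, ‖y k‖ ≤ D)
    (hy' : ∀ k, ‖y' k‖ ≤ D) (c : ℝ) (i : Fin d) {δ : ℝ} (hδ : 0 < δ) (hδr : δ ≤ r) :
    ∫ x in K, (tmap y ψ x i - tmap y' ψ' x i) ^ 2
      ≤ 28 * D ^ 2 * A * δ + 12 / δ ^ 2 * ∫ x in K, (pot' y ψ x - pot' y' ψ' x - c) ^ 2 := by
  set v : EuclideanSpace ℝ (Fin d) := EuclideanSpace.single i δ with hv
  have hvn : ‖v‖ = δ := by simp [hv, abs_of_pos hδ]
  set P := inner2 K v
  have hlost : vol K - vol P ≤ A * δ := by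
    have := hA v (by rw [hvn]; exact hδr)
    rwa [hvn] at this
  have hPm := measurableSet_inner2 hK v
  have hPK : P ⊆ K := fun x hx => hx.1
  have hfin : volume P < ⊤ := volume_lt_top_of_subset hK hPK
  have hpr := (EuclideanSpace.proj (𝕜 := ℝ) i).continuous.measurable
  set g := fun x => tmap y ψ x i with hg
  set g' := fun x => tmap y' ψ' x i with hg'
  have hgm : Measurable g := hpr.comp (measurable_tmap y ψ)
  have hgm' : Measurable g' := hpr.comp (measurable_tmap y' ψ')
  have hgD : ∀ x, |g x| ≤ D := fun x => coord_le i (norm_tmap_le hy ψ x)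
  have hgD' : ∀ x, |g' x| ≤ D := fun x => coord_le i (norm_tmap_le hy' ψ' x)
  have hD0 : 0 ≤ D := (abs_nonneg _).trans (hgD 0)
  set F := fun x => (g x - g' x) ^ 2 with hF
  have hFD : ∀ x, F x ≤ 4 * D ^ 2 := fun x => by
    simp only [hF]; rw [← sq_abs]
    calc |g x - g' x| ^ 2 ≤ (2 * D) ^ 2 :=
          pow_le_pow_left₀ (abs_nonneg _) ((abs_sub _ _).trans (by linarith [hgD x, hgD' x])) 2
      _ = _ := by ring
  have hFi : IntegrableOn F K := Integrable.mono'
    (continuous_const.continuousOn.integrableOn_compact hK (f := fun _ => 4 * D ^ 2))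
    (((hgm.sub hgm').pow_const 2)).aestronglyMeasurable (Eventually.of_forall fun x => by
      rw [Real.norm_eq_abs, abs_of_nonneg (sq_nonneg _)]; exact hFD x)
  have hsh : ∀ (k : EuclideanSpace ℝ (Fin d) → ℝ), Measurable k → (∀ x, |k x| ≤ D) → ∀ w,
      IntegrableOn (fun x => k (x + w)) P := fun k hk hkD w => by
    refine Integrable.mono' (integrableOn_const (C := D) hfin.ne)
      (hk.comp (measurable_add_const w)).aestronglyMeasurable (Eventually.of_forall fun x => ?_)
    rw [Real.norm_eq_abs]; exact hkD _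
  set f := fun x => (pot' y ψ x - pot' y' ψ' x - c) ^ 2 with hf
  have hfc : Continuous f :=
    ((continuous_pot.sub continuous_pot).sub continuous_const).pow 2
  have hfi : IntegrableOn f K := hfc.continuousOn.integrableOn_compact hK
  set ω := fun x => g (x + v) - g (x - v) with hω
  set ω' := fun x => g' (x + v) - g' (x - v) with hω'
  have iω : IntegrableOn ω P := by
    simp only [hω, sub_eq_add_neg (b := v)]
    exact (hsh g hgm hgD v).sub (hsh g hgm hgD (-v))
  have iω' : IntegrableOn ω' P := by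
    simp only [hω', sub_eq_add_neg (b := v)]
    exact (hsh g' hgm' hgD' v).sub (hsh g' hgm' hgD' (-v))
  have iN : IntegrableOn (fun x => f (x + v) + f x) P :=
    integrableOn_of_subset hK hPK ((hfc.comp (continuous_add_const v)).add hfc)
  have hbody : ∫ x in P, F x
      ≤ ∫ x in P, (6 * D * (ω x + ω' x) + 6 / δ ^ 2 * (f (x + v) + f x)) := by
    refine setIntegral_mono_on (hFi.mono_set hPK) (((iω.add iω').const_mul _).add (iN.const_mul _))
      hPm fun x hx => ?_
    have s1 := tmap_secant y ψ x i δ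
    have s2 := tmap_secant y ψ (x - v) i δ
    have t1 := tmap_secant y' ψ' x i δ
    have t2 := tmap_secant y' ψ' (x - v) i δ
    rw [← hv] at s1 s2 t1 t2
    rw [sub_add_cancel] at s2 t2
    have ha : ∀ (G : EuclideanSpace ℝ (Fin d) → ℝ) (q : ℝ), (∀ z, |G z| ≤ D) →
        δ * G (x - v) ≤ δ * G x → δ * G x ≤ q → q ≤ δ * G (x + v) →
        0 ≤ G (x + v) - G (x - v) ∧ (q / δ - G x) ^ 2 ≤ 2 * D * (G (x + v) - G (x - v)) := by
      intro G q hG a1 a2 a3
      have b1 : G (x - v) ≤ G x := le_of_mul_le_mul_left a1 hδ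
      have b2 : G x ≤ q / δ := (le_div_iff₀ hδ).2 (by linarith)
      have b3 : q / δ ≤ G (x + v) := (div_le_iff₀ hδ).2 (by linarith)
      have b4 : G (x + v) - G (x - v) ≤ 2 * D := by
        linarith [abs_le.1 (hG (x + v)), abs_le.1 (hG (x - v))]
      refine ⟨by linarith, ?_⟩
      calc (q / δ - G x) ^ 2 ≤ (G (x + v) - G (x - v)) ^ 2 :=
            pow_le_pow_left₀ (by linarith) (by linarith) 2
        _ ≤ _ := by rw [sq]; exact mul_le_mul_of_nonneg_right b4 (by linarith)
    obtain ⟨hω0, hA1⟩ := ha g _ hgD (s2.1.trans s2.2) s1.1 s1.2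
    obtain ⟨hω0', hA2⟩ := ha g' _ hgD' (t2.1.trans t2.2) t1.1 t1.2
    set q := (pot' y ψ (x + v) - pot' y ψ x) / δ with hq
    set q' := (pot' y' ψ' (x + v) - pot' y' ψ' x) / δ with hq'
    have hqq : (q - q') ^ 2 ≤ 2 / δ ^ 2 * (f (x + v) + f x) := by
      have e : q - q' = ((pot' y ψ (x + v) - pot' y' ψ' (x + v) - c)
          - (pot' y ψ x - pot' y' ψ' x - c)) / δ := by rw [hq, hq']; ring
      rw [e, div_pow, div_mul_eq_mul_div, div_le_div_iff_of_pos_right (by positivity)]
      simp only [hf]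
      nlinarith [sq_nonneg ((pot' y ψ (x + v) - pot' y' ψ' (x + v) - c)
          + (pot' y ψ x - pot' y' ψ' x - c))]
    have h3 : F x ≤ 3 * (q / 1 - g x) ^ 2 + 3 * (q' - g' x) ^ 2 + 3 * (q - q') ^ 2 := by
      simp only [hF, div_one]
      nlinarith [sq_nonneg ((q - g x) + (q' - g' x)), sq_nonneg ((q - g x) + (q - q')),
        sq_nonneg ((q' - g' x) - (q - q'))]
    rw [div_one] at h3
    simp only [hω, hω', Pi.add_apply]
    have e6 : 6 / δ ^ 2 * (f (x + v) + f x) = 3 * (2 / δ ^ 2 * (f (x + v) + f x)) := by ring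
    rw [e6]
    linarith
  have iS : IntegrableOn (fun x => 6 * D * (ω x + ω' x)) P := (iω.add iω').const_mul _
  have iFv : IntegrableOn (fun x => f (x + v)) P :=
    integrableOn_of_subset hK hPK (hfc.comp (continuous_add_const v))
  rw [integral_add iS (iN.const_mul _), integral_const_mul, integral_const_mul,
    integral_add iω iω', integral_add iFv (hfi.mono_set hPK)] at hbody
  have h1 := integral_shift_le hK hgm hgD v
  have h2 := integral_shift_le hK hgm' hgD' v
  have hf0 : 0 ≤ᵐ[volume.restrict K] f := Eventually.of_forall fun x => sq_nonneg _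
  have h4 : ∫ x in P, f x ≤ ∫ x in K, f x := setIntegral_mono_set hfi hf0 hPK.eventuallyLE
  have h5 : ∫ x in P, f (x + v) ≤ ∫ x in K, f x := by
    have he := (measurePreserving_add_right (volume : Measure (EuclideanSpace ℝ (Fin d))) v)
      |>.setIntegral_preimage_emb (measurableEmbedding_addRight v) f K
    rw [← he]
    exact setIntegral_mono_set (((measurePreserving_add_right volume v).integrableOn_comp_preimage
      (measurableEmbedding_addRight v)).2 hfi) (Eventually.of_forall fun x => sq_nonneg _)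
      ((show P ⊆ (fun x => x + v) ⁻¹' K from fun x hx => hx.2.1).eventuallyLE)
  have hrest : ∫ x in K \ P, F x ≤ 4 * D ^ 2 * (A * δ) := by
    refine (setIntegral_mono_on (hFi.mono_set Set.sdiff_subset)
      ((continuous_const.continuousOn.integrableOn_compact hK).mono_set Set.sdiff_subset)
      (hK.isClosed.measurableSet.diff hPm) fun x _ => hFD x).trans ?_
    rw [setIntegral_const, smul_eq_mul, measureReal_def,
      measure_sdiff hPK hPm.nullMeasurableSet hfin.ne,
      ENNReal.toReal_sub_of_le (measure_mono hPK) hK.measure_lt_top.ne]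
    have h2 := mul_le_mul_of_nonneg_left hlost (show 0 ≤ 4 * D ^ 2 by positivity)
    simp only [vol] at h2
    linarith
  have hsplit : ∫ x in K, F x = (∫ x in P, F x) + ∫ x in K \ P, F x := by
    rw [← setIntegral_union Set.disjoint_sdiff_right (hK.isClosed.measurableSet.diff hPm)
      (hFi.mono_set hPK) (hFi.mono_set Set.sdiff_subset), Set.union_sdiff_cancel hPK]
  have h8 := mul_le_mul_of_nonneg_left hlost (show 0 ≤ 2 * D by linarith)
  have k1 := mul_le_mul_of_nonneg_left (h1.trans h8) (show 0 ≤ 6 * D by linarith)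
  have k2 := mul_le_mul_of_nonneg_left (h2.trans h8) (show 0 ≤ 6 * D by linarith)
  have k3 := mul_le_mul_of_nonneg_left (add_le_add h5 h4) (show (0:ℝ) ≤ 6 / δ ^ 2 by positivity)
  show ∫ x in K, F x ≤ _
  rw [hsplit]
  have e7 : 12 / δ ^ 2 * ∫ x in K, f x = 6 / δ ^ 2 * ((∫ x in K, f x) + ∫ x in K, f x) := by ring
  rw [e7]
  simp only [hω, hω'] at *
  linarith

end Vale.Agent.P074
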