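import Vale.Agent.P074.Sol

namespace Vale.Agent.P074

open MeasureTheory Set Filter
open scoped ENNReal NNReal RealInnerProductSpace Topology

variable {d : ℕ} {K : Set (EuclideanSpace ℝ (Fin d))}
variable {π : Measure (EuclideanSpace ℝ (Fin d) × EuclideanSpace ℝ (Fin d))}
variable {f : EuclideanSpace ℝ (Fin d) × EuclideanSpace ℝ (Fin d) → EuclideanSpace ℝ (Fin d)}
variable {D : ℝ}

/-- Comparison of two discretizations. -/
lemma disc_cross [IsProbabilityMeasure π] (hK : IsCompact K) (R : ℝ) (hR0 : 0 ≤ R)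
    (hR : ∀ x ∈ K, ‖x‖ ≤ R) {A r : ℝ}
    (hA : ∀ v : EuclideanSpace ℝ (Fin d), ‖v‖ ≤ r → vol K - vol (inner2 K v) ≤ A * ‖v‖)
    {εX εW : ℝ} (X : Disc K π f D εX) {ψ : Fin X.n → ℝ} (hψ : IsMin K X.a X.m ψ)
    (W : Disc K π f D εW) {w : Fin W.n → ℝ} (hw : IsMin K W.a W.m w)
    {τ : ℝ} (hτ : 0 < τ) (hτr : τ ≤ r) :
    dual K X.a X.m ψ ≤ dual K W.a W.m w + R * vol K * (εW + εX) ∧
      ∫ x in K, ‖tmap X.a ψ x - tmap W.a w x‖ ≤ d * (4 * D * A * τ
        + (dual K W.a W.m w + R * vol K * (εW + εX) - dual K X.a X.m ψ) / τ) := by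
  have h := gap_bound hK R hR0 hR hA W hw (measurable_tmap X.a ψ)
    (Eventually.of_forall fun x => norm_tmap_le X.norm_le ψ x)
    (F := fun p => X.a (X.g p)) ((measurable_of_finite _).comp X.meas) X.close
    (fun G hG => X.law hK hψ G hG) hτ hτr
  rwa [setIntegral_inner_tmap hK R D hR X.norm_le X.inj X.sum hψ] at h

/-- A sequence of maps with geometrically small increments converges almost everywhere. -/
lemma exists_ae_limit (hK : IsCompact K)
    (T' : ℕ → EuclideanSpace ℝ (Fin d) → EuclideanSpace ℝ (Fin d)) (hm : ∀ n, Measurable (T' n))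
    (hD : ∀ n x, ‖T' n x‖ ≤ D) (C : ℝ)
    (hstep : ∀ n, ∫ x in K, ‖T' (n + 1) x - T' n x‖ ≤ C * (1 / 2) ^ n) :
    ∃ L, Measurable L ∧ (∀ᵐ x ∂(volume.restrict K), ‖L x‖ ≤ D) ∧
      ∀ᵐ x ∂(volume.restrict K), Tendsto (fun n => T' n x) atTop (𝓝 (L x)) := by
  have hgeo : Summable fun n : ℕ => C * (1 / 2 : ℝ) ^ n :=
    (summable_geometric_of_lt_one (by norm_num) (by norm_num)).mul_left C
  have hdm : ∀ n, Measurable fun x => ENNReal.ofReal ‖T' (n + 1) x - T' n x‖ := fun n =>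
    ((hm (n + 1)).sub (hm n)).norm.ennreal_ofReal
  have hdi : ∀ n, IntegrableOn (fun x => ‖T' (n + 1) x - T' n x‖) K := fun n => by
    refine integrableOn_of_bound hK ((hm (n + 1)).sub (hm n)).norm (C := D + D)
      (Eventually.of_forall fun x => ?_)
    rw [abs_of_nonneg (norm_nonneg _)]
    exact (norm_sub_le _ _).trans (add_le_add (hD (n + 1) x) (hD n x))
  have hfin : ∫⁻ x in K, ∑' n, ENNReal.ofReal ‖T' (n + 1) x - T' n x‖ ≠ ⊤ := by
    rw [lintegral_tsum fun n => (hdm n).aemeasurable]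
    refine ne_top_of_le_ne_top hgeo.tsum_ofReal_ne_top (ENNReal.tsum_le_tsum fun n => ?_)
    rw [← ofReal_integral_eq_lintegral_ofReal (hdi n)
      (Eventually.of_forall fun x => norm_nonneg _)]
    exact ENNReal.ofReal_le_ofReal (hstep n)
  have hlimae : ∀ᵐ x ∂(volume.restrict K), ∃ l, Tendsto (fun n => T' n x) atTop (𝓝 l) := by
    filter_upwards [ae_lt_top' (AEMeasurable.ennreal_tsum fun n => (hdm n).aemeasurable) hfin]
      with x hx
    refine cauchySeq_tendsto_of_complete (cauchySeq_of_summable_dist ?_)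
    have := ENNReal.summable_toReal hx.ne
    simp only [ENNReal.toReal_ofReal (norm_nonneg _)] at this
    simpa [dist_eq_norm, norm_sub_rev] using this
  obtain ⟨L, hLm, hL⟩ := measurable_limit_of_tendsto_metrizable_ae
    (fun n => (hm n).aemeasurable) hlimae
  exact ⟨L, hLm, hL.mono fun x hx => le_of_tendsto' hx.norm fun n => hD n x, hL⟩

lemma rate_algebra {c : ℝ} (hc : 0 < c) (n : ℕ) :
    c * (1 / 4) ^ n + c * (1 / 4) ^ (n + 1) ≤ (Real.sqrt (2 * c) * (1 / 2) ^ n) ^ 2 := by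
  rw [mul_pow, Real.sq_sqrt (by positivity), ← pow_mul, mul_comm n 2, pow_mul]
  have h := mul_pos hc (show (0:ℝ) < (1 / 4) ^ n by positivity)
  rw [pow_succ, show ((1:ℝ) / 2) ^ 2 = 1 / 4 by norm_num]
  linarith

/-- The limit map of the discretizations: its image is the target measure and it is nearly
optimal against every discretization. -/
theorem exists_limit_map [IsProbabilityMeasure π] (hK : IsCompact K) (R : ℝ) (hR0 : 0 ≤ R)
    (hR : ∀ x ∈ K, ‖x‖ ≤ R) {A r : ℝ} (hr : 0 < r)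
    (hA : ∀ v : EuclideanSpace ℝ (Fin d), ‖v‖ ≤ r → vol K - vol (inner2 K v) ≤ A * ‖v‖)
    (mk : ∀ ε : ℝ, 0 < ε → ε ≤ 1 → Disc K π f D ε) :
    ∃ L : EuclideanSpace ℝ (Fin d) → EuclideanSpace ℝ (Fin d), Measurable L ∧
      (∀ᵐ x ∂(volume.restrict K), ‖L x‖ ≤ D) ∧
      (∀ G : EuclideanSpace ℝ (Fin d) → ℝ, Continuous G →
        ∫ x in K, G (L x) = vol K * ∫ p, G (f p) ∂π) ∧
      ∀ (ε : ℝ) (X : Disc K π f D ε) (ψ : Fin X.n → ℝ), IsMin K X.a X.m ψ →
        dual K X.a X.m ψ ≤ (∫ x in K, ⟪x, L x⟫) + R * vol K * ε := by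
  have hRV : 0 ≤ R * vol K := mul_nonneg hR0 ENNReal.toReal_nonneg
  obtain ⟨c, hc0, hc1, hcr⟩ : ∃ c : ℝ, 0 < c ∧ c ≤ 1 ∧ 2 * c ≤ r ^ 2 :=
    ⟨min 1 (r ^ 2) / 2, by positivity, by linarith [min_le_left (1:ℝ) (r ^ 2)],
      by linarith [min_le_right (1:ℝ) (r ^ 2)]⟩
  obtain ⟨e, he⟩ : ∃ e : ℕ → ℝ, ∀ n, e n = c * (1 / 4) ^ n := ⟨_, fun _ => rfl⟩
  have he0 : ∀ n, 0 < e n := fun n => by rw [he]; positivity
  have hec : ∀ n, e n ≤ 1 := fun n => by
    rw [he]
    exact (mul_le_of_le_one_right hc0.le (pow_le_one₀ (by norm_num) (by norm_num))).trans hc1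
  obtain ⟨Z⟩ : Nonempty (∀ n, Disc K π f D (e n)) := ⟨fun n => mk (e n) (he0 n) (hec n)⟩
  choose χ hχ using fun n => (Z n).exists_min' hK R hR
  have hstep : ∀ n, ∫ x in K, ‖tmap (Z (n + 1)).a (χ (n + 1)) x - tmap (Z n).a (χ n) x‖
      ≤ ((d : ℝ) * (4 * D * A * Real.sqrt (2 * c) + 2 * R * vol K * Real.sqrt (2 * c)))
        * (1 / 2) ^ n := by
    intro n
    obtain ⟨τ, hτ⟩ : ∃ τ, τ = Real.sqrt (2 * c) * (1 / 2) ^ n := ⟨_, rfl⟩
    have hτ0 : 0 < τ := by rw [hτ]; positivity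
    have hτr : τ ≤ r := by
      calc τ ≤ Real.sqrt (2 * c) := by
            rw [hτ]
            exact mul_le_of_le_one_right (Real.sqrt_nonneg _) (pow_le_one₀ (by norm_num) (by norm_num))
        _ ≤ Real.sqrt (r ^ 2) := Real.sqrt_le_sqrt hcr
        _ = r := Real.sqrt_sq hr.le
    obtain ⟨-, h2⟩ := disc_cross hK R hR0 hR hA (Z (n + 1)) (hχ (n + 1)) (Z n) (hχ n) hτ0 hτr
    obtain ⟨h3, -⟩ := disc_cross hK R hR0 hR hA (Z n) (hχ n) (Z (n + 1)) (hχ (n + 1)) hτ0 hτr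
    refine h2.trans ?_
    have hee : e n + e (n + 1) ≤ τ ^ 2 := by rw [hτ, he, he]; exact rate_algebra hc0 n
    have hrate := mul_le_mul_of_nonneg_left hee hRV
    generalize dual K (Z n).a (Z n).m (χ n) = u at h3 ⊢
    generalize dual K (Z (n + 1)).a (Z (n + 1)).m (χ (n + 1)) = v at h3 ⊢
    rw [mul_assoc (d : ℝ)]
    refine mul_le_mul_of_nonneg_left ?_ (Nat.cast_nonneg d)
    have e1 : (4 * D * A * Real.sqrt (2 * c) + 2 * R * vol K * Real.sqrt (2 * c)) * (1 / 2) ^ n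
        = 4 * D * A * τ + 2 * R * vol K * τ := by
      rw [hτ]; ring
    have e2 : (u + R * vol K * (e n + e (n + 1)) - v) / τ ≤ 2 * R * vol K * τ := by
      rw [div_le_iff₀ hτ0]; linarith
    rw [e1]
    linarith
  obtain ⟨L, hLm, hLD, hL⟩ := exists_ae_limit hK (fun n => tmap (Z n).a (χ n))
    (fun n => measurable_tmap _ _) (fun n x => norm_tmap_le (Z n).norm_le _ x) _ hstep
  have he' : Tendsto e atTop (𝓝 0) := by
    have := (tendsto_pow_atTop_nhds_zero_of_lt_one (show (0:ℝ) ≤ 1 / 4 by norm_num)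
      (by norm_num)).const_mul c
    rw [mul_zero] at this
    exact this.congr fun n => (he n).symm
  haveI : IsFiniteMeasure (volume.restrict K) :=
    ⟨by rw [Measure.restrict_apply_univ]; exact hK.measure_lt_top⟩
  refine ⟨L, hLm, hLD, ?_, ?_⟩
  · intro G hG
    obtain ⟨C', hC'⟩ := (isCompact_closedBall (0 : EuclideanSpace ℝ (Fin d)) D).exists_bound_of_continuousOn
      hG.continuousOn
    have h1 : Tendsto (fun n => ∫ x in K, G (tmap (Z n).a (χ n) x)) atTop (𝓝 (∫ x in K, G (L x))) :=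
      tendsto_integral_of_dominated_convergence (fun _ => C')
        (fun n => (hG.measurable.comp (measurable_tmap _ _)).aestronglyMeasurable) (integrable_const _)
        (fun n => Eventually.of_forall fun x => hC' _ (mem_closedBall_zero_iff.2
          (norm_tmap_le (Z n).norm_le _ x)))
        (hL.mono fun x hx => (hG.tendsto _).comp hx)
    have hclose : ∀ᵐ p ∂π, ∀ n, ‖(Z n).a ((Z n).g p) - f p‖ ≤ e n :=
      ae_all_iff.2 fun n => (Z n).close
    have h2 : Tendsto (fun n => vol K * ∫ p, G ((Z n).a ((Z n).g p)) ∂π) atTop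
        (𝓝 (vol K * ∫ p, G (f p) ∂π)) := by
      refine (tendsto_integral_of_dominated_convergence (fun _ => C')
        (fun n => (hG.measurable.comp ((measurable_of_finite _).comp (Z n).meas)).aestronglyMeasurable)
        (integrable_const _) (fun n => Eventually.of_forall fun p =>
          hC' _ (mem_closedBall_zero_iff.2 ((Z n).norm_le _))) ?_).const_mul _
      filter_upwards [hclose] with p hp
      exact (hG.tendsto _).comp (tendsto_iff_norm_sub_tendsto_zero.2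
        (squeeze_zero (fun n => norm_nonneg _) hp he'))
    exact tendsto_nhds_unique h1 (h2.congr fun n => ((Z n).law hK (hχ n) G hG).symm)
  · intro ε X ψ hψ
    have h1 : Tendsto (fun n => ∫ x in K, ⟪x, tmap (Z n).a (χ n) x⟫) atTop
        (𝓝 (∫ x in K, ⟪x, L x⟫)) := by
      refine tendsto_integral_of_dominated_convergence (fun _ => R * D)
        (fun n => (measurable_id.inner (measurable_tmap _ _)).aestronglyMeasurable) (integrable_const _)
        (fun n => ?_) (hL.mono fun x hx => tendsto_const_nhds.inner hx)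
      filter_upwards [ae_restrict_mem hK.isClosed.measurableSet] with x hxK
      exact (abs_real_inner_le_norm _ _).trans (mul_le_mul (hR x hxK)
        (norm_tmap_le (Z n).norm_le _ x) (norm_nonneg _) hR0)
    have h2 := h1.congr fun n =>
      setIntegral_inner_tmap hK R D hR (Z n).norm_le (Z n).inj (Z n).sum (hχ n)
    have h3 := h2.add ((he'.add_const ε).const_mul (R * vol K))
    rw [zero_add] at h3
    exact ge_of_tendsto' h3 fun n =>
      (disc_cross hK R hR0 hR hA X hψ (Z n) (hχ n) hr le_rfl).1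

/-- An optimal map is close to every discrete approximation. -/
theorem optimal_close [IsProbabilityMeasure π] (hK : IsCompact K) (R : ℝ) (hR0 : 0 ≤ R)
    (hR : ∀ x ∈ K, ‖x‖ ≤ R) {A r : ℝ} (hr : 0 < r)
    (hA : ∀ v : EuclideanSpace ℝ (Fin d), ‖v‖ ≤ r → vol K - vol (inner2 K v) ≤ A * ‖v‖)
    (hf : Measurable f) (mk : ∀ ε : ℝ, 0 < ε → ε ≤ 1 → Disc K π f D ε)
    {T : EuclideanSpace ℝ (Fin d) → EuclideanSpace ℝ (Fin d)} (hTm : Measurable T)
    (hTD : ∀ᵐ x ∂(volume.restrict K), ‖T x‖ ≤ D)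
    (hTlaw : ∀ G : EuclideanSpace ℝ (Fin d) → ℝ, Continuous G →
      ∫ x in K, G (T x) = vol K * ∫ p, G (f p) ∂π)
    (hopt : ∀ U : EuclideanSpace ℝ (Fin d) → EuclideanSpace ℝ (Fin d), Measurable U →
      (∀ᵐ x ∂(volume.restrict K), ‖U x‖ ≤ D) →
      (∀ G : EuclideanSpace ℝ (Fin d) → ℝ, Continuous G →
        ∫ x in K, G (U x) = vol K * ∫ p, G (f p) ∂π) →
      ∫ x in K, ⟪x, U x⟫ ≤ ∫ x in K, ⟪x, T x⟫)
    {ε : ℝ} (X : Disc K π f D ε) {ψ : Fin X.n → ℝ} (hψ : IsMin K X.a X.m ψ)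
    {δ : ℝ} (hδ : 0 < δ) (hδr : δ ≤ r) :
    ∫ x in K, ‖T x - tmap X.a ψ x‖ ≤ d * (4 * D * A * δ + 2 * R * vol K * ε / δ) := by
  obtain ⟨L, hLm, hLD, hLlaw, hLdual⟩ := exists_limit_map hK R hR0 hR hr hA mk
  have h1 := hLdual ε X ψ hψ
  have h2 := hopt L hLm hLD hLlaw
  refine (gap_bound hK R hR0 hR hA X hψ hTm hTD hf (ε' := 0)
    (Eventually.of_forall fun p => by simp) hTlaw hδ hδr).2.trans ?_
  gcongr
  linarith

end Vale.Agent.P074
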