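import Vale.Agent.P074.Path

namespace Vale.Agent.P074

open MeasureTheory Set Filter
open scoped ENNReal NNReal RealInnerProductSpace Topology

variable {d : ℕ} {ι : Type*} [Fintype ι] [Nonempty ι]
variable {K : Set (EuclideanSpace ℝ (Fin d))}

/-- Minimizers of the dual are unique up to an additive constant. -/
lemma isMin_unique (hK : IsCompact K) (hKc : Convex ℝ K) (hKi : (interior K).Nonempty)
    {y : ι → EuclideanSpace ℝ (Fin d)} (hy : Function.Injective y) {m : ι → ℝ}
    (hm : ∀ k, 0 < m k) (hms : ∑ k, m k = vol K) {ψ ψ' : ι → ℝ} (h : IsMin K y m ψ)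
    (h' : IsMin K y m ψ') : ∀ k l, ψ' k - ψ k = ψ' l - ψ l := by
  classical
  set ψ₀ : ι → ℝ := fun k => (ψ k + ψ' k) / 2 with hψ₀
  have heq : dual K y m ψ' = dual K y m ψ := le_antisymm (h' ψ) (h ψ')
  have hle : ∀ x, pot' y ψ₀ x ≤ (pot' y ψ x + pot' y ψ' x) / 2 := fun x => pot_le fun k => by
    have a1 := aff_le_pot (y := y) (ψ := ψ) k x
    have a2 := aff_le_pot (y := y) (ψ := ψ') k x
    simp only [aff, hψ₀] at a1 a2 ⊢
    linarith
  set g := fun x => (pot' y ψ x + pot' y ψ' x) / 2 - pot' y ψ₀ x with hg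
  have hgc : Continuous g := by
    have c1 : Continuous (pot' y ψ) := continuous_pot
    have c2 : Continuous (pot' y ψ') := continuous_pot
    have c3 : Continuous (pot' y ψ₀) := continuous_pot
    exact ((c1.add c2).div_const 2).sub c3
  have hg0 : ∀ x, 0 ≤ g x := fun x => sub_nonneg.2 (hle x)
  have hint : ∫ x in K, g x ≤ 0 := by
    have i : ∀ w : ι → ℝ, IntegrableOn (pot' y w) K := fun w =>
      continuous_pot.continuousOn.integrableOn_compact hK
    have e : ∫ x in K, g x = ((∫ x in K, pot' y ψ x) + ∫ x in K, pot' y ψ' x) / 2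
        - ∫ x in K, pot' y ψ₀ x := by
      have j1 : IntegrableOn (fun x => pot' y ψ x + pot' y ψ' x) K := (i ψ).add (i ψ')
      simp only [hg]
      rw [integral_sub (j1.div_const 2) (i ψ₀), integral_div, integral_add (i ψ) (i ψ')]
    have hmin := h ψ₀
    have es : ∑ k, m k * ψ₀ k = ((∑ k, m k * ψ k) + ∑ k, m k * ψ' k) / 2 := by
      rw [← Finset.sum_add_distrib, Finset.sum_div]
      exact Finset.sum_congr rfl fun k _ => by simp only [hψ₀]; ring
    unfold dual at heq hmin
    rw [e]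
    linarith
  have hzero : ∀ x ∈ K, g x = 0 := by
    have hae : g =ᵐ[volume.restrict (interior K)] fun _ => (0:ℝ) := by
      have h1 := (setIntegral_eq_zero_iff_of_nonneg_ae (Eventually.of_forall hg0)
        (hgc.continuousOn.integrableOn_compact hK)).1
        (le_antisymm hint (integral_nonneg hg0))
      exact ae_restrict_of_ae_restrict_of_subset interior_subset h1
    have h2 := Measure.eqOn_open_of_ae_eq hae isOpen_interior hgc.continuousOn continuousOn_const
    have h3 := h2.closure hgc continuous_const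
    intro x hx
    exact h3 (by rw [hKc.closure_interior_eq_closure_of_nonempty_interior hKi]; exact subset_closure hx)
  have hboth : ∀ k, ∀ x ∈ cell K y ψ₀ k, x ∈ cell K y ψ k ∧ x ∈ cell K y ψ' k := by
    intro k x hx
    have h1 := hzero x hx.1
    simp only [hg, pot_eq_of_mem hx] at h1
    have a1 := aff_le_pot (y := y) (ψ := ψ) k x
    have a2 := aff_le_pot (y := y) (ψ := ψ') k x
    refine ⟨mem_cell_of_pot_eq hx.1 ?_, mem_cell_of_pot_eq hx.1 ?_⟩ <;>
    · simp only [aff, hψ₀] at h1 a1 a2 ⊢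
      linarith
  -- every cell is nonempty and the difference is locally constant
  have h0 : IsMin K y m ψ₀ := by
    intro z
    refine le_trans (le_of_eq ?_) (h z)
    have i : ∀ w : ι → ℝ, IntegrableOn (pot' y w) K := fun w =>
      continuous_pot.continuousOn.integrableOn_compact hK
    have e : ∫ x in K, pot' y ψ₀ x = ((∫ x in K, pot' y ψ x) + ∫ x in K, pot' y ψ' x) / 2 := by
      rw [← integral_add (i ψ) (i ψ'), ← integral_div]
      refine setIntegral_congr_fun hK.isClosed.measurableSet fun x hx => ?_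
      have := hzero x hx; simp only [hg] at this
      show pot' y ψ₀ x = (pot' y ψ x + pot' y ψ' x) / 2
      linarith
    have es : ∑ k, m k * ψ₀ k = ((∑ k, m k * ψ k) + ∑ k, m k * ψ' k) / 2 := by
      rw [← Finset.sum_add_distrib, Finset.sum_div]
      exact Finset.sum_congr rfl fun k _ => by simp only [hψ₀]; ring
    unfold dual at heq ⊢
    rw [e, es]
    linarith
  have hne : ∀ k, (cell K y ψ₀ k).Nonempty := by
    intro k
    by_contra hc
    have := vol_cell_eq hK hy hms h0 k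
    rw [Set.not_nonempty_iff_eq_empty.1 hc] at this
    simp [vol] at this
    linarith [hm k]
  intro k l
  by_contra hkl
  set u := fun j => ψ' j - ψ j with hu
  set A := ⋃ j ∈ {j : ι | u j = u k}, cell K y ψ₀ j with hA
  set B := ⋃ j ∈ {j : ι | u j ≠ u k}, cell K y ψ₀ j with hB
  obtain ⟨x, hxK, hxA, hxB⟩ := isPreconnected_closed_iff.1 hKc.isPreconnected A B
    ((Set.toFinite _).isClosed_biUnion fun j _ => isClosed_cell hK j)
    ((Set.toFinite _).isClosed_biUnion fun j _ => isClosed_cell hK j)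
    (fun x hx => by
      rw [← iUnion_cell (K := K) (y := y) (ψ := ψ₀)] at hx
      obtain ⟨j, hj⟩ := Set.mem_iUnion.1 hx
      by_cases hju : u j = u k
      · exact Or.inl (Set.mem_biUnion (show j ∈ {j : ι | u j = u k} from hju) hj)
      · exact Or.inr (Set.mem_biUnion (show j ∈ {j : ι | u j ≠ u k} from hju) hj))
    (let ⟨x, hx⟩ := hne k; ⟨x, hx.1, Set.mem_biUnion (show k ∈ {j : ι | u j = u k} from rfl) hx⟩)
    (let ⟨x, hx⟩ := hne l; ⟨x, hx.1,
      Set.mem_biUnion (show l ∈ {j : ι | u j ≠ u k} from fun e => hkl e.symm) hx⟩)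
  obtain ⟨i, hi, hxi⟩ := Set.mem_iUnion₂.1 hxA
  obtain ⟨j, hj, hxj⟩ := Set.mem_iUnion₂.1 hxB
  refine hj ?_
  rw [← (show u i = u k from hi)]
  obtain ⟨p1, p2⟩ := hboth i x hxi
  obtain ⟨q1, q2⟩ := hboth j x hxj
  have e1 := (pot_eq_of_mem p1).symm.trans (pot_eq_of_mem q1)
  have e2 := (pot_eq_of_mem p2).symm.trans (pot_eq_of_mem q2)
  simp only [aff] at e1 e2
  simp only [hu]
  linarith

/-- The variance of the change of the potentials is at most `W₂²`. -/
theorem variance_le (hK : IsCompact K) (hKc : Convex ℝ K) (hKi : (interior K).Nonempty) (R : ℝ)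
    (hR0 : 0 ≤ R) (hR : ∀ x ∈ K, ‖x‖ ≤ R) {a b : ι → EuclideanSpace ℝ (Fin d)}
    (ha : Function.Injective a) (hb : Function.Injective b) {m : ι → ℝ}
    (hm : ∀ k, 0 < m k) (hms : ∑ k, m k = vol K) {ψ ψ' : ι → ℝ} (h : IsMin K a m ψ)
    (h' : IsMin K b m ψ') :
    ∃ c, ∑ k, m k * (ψ' k - ψ k - c) ^ 2 ≤ 3 * R ^ 2 * ∑ k, m k * ‖b k - a k‖ ^ 2 := by
  classical
  have hΛ : 0 < vol K := by rw [← hms]; exact Finset.sum_pos (fun k _ => hm k) Finset.univ_nonempty
  obtain ⟨c, hc⟩ : ∃ c, c = (∑ k, m k * (ψ' k - ψ k)) / vol K := ⟨_, rfl⟩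
  set w := fun k => ψ' k - ψ k - c with hw
  refine ⟨c, ?_⟩
  change ∑ k, m k * w k ^ 2 ≤ _
  set e := fun k => m k * w k with he
  have hes : ∑ k, e k = 0 := by
    simp only [he, hw, mul_sub, Finset.sum_sub_distrib, ← Finset.sum_mul, hms]
    rw [hc, mul_div_cancel₀ _ hΛ.ne', ← Finset.sum_sub_distrib]
    simp [mul_sub]
  set S := ∑ k, m k * w k ^ 2 with hS
  set W := ∑ k, m k * ‖b k - a k‖ ^ 2 with hW
  obtain ⟨D, haD, hbD⟩ : ∃ D, (∀ k, ‖a k‖ ≤ D) ∧ ∀ k, ‖b k‖ ≤ D := by
    refine ⟨∑ k, (‖a k‖ + ‖b k‖), fun k => ?_, fun k => ?_⟩ <;>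
    · have := Finset.single_le_sum (f := fun k => ‖a k‖ + ‖b k‖) (fun k _ => by positivity)
        (Finset.mem_univ k)
      linarith [norm_nonneg (a k), norm_nonneg (b k)]
  obtain ⟨q, hq0, hq⟩ : ∃ q, 0 < q ∧ ∀ k, |w k| ≤ q :=
    ⟨∑ k, |w k| + 1, by positivity, fun k => by
      linarith [Finset.single_le_sum (f := fun k => |w k|) (fun k _ => abs_nonneg _)
        (Finset.mem_univ k)]⟩
  set δ := Finset.univ.inf' Finset.univ_nonempty fun k => m k / 2
  have hδ : 0 < δ := (Finset.lt_inf'_iff _).2 fun k _ => by linarith [hm k]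
  set τ : ℕ → ℝ := fun n => 1 / (2 * q) * (1 / (n + 1)) with hτ
  have hτ0 : ∀ n, 0 < τ n := fun n => by simp only [hτ]; positivity
  have hτq : ∀ n, τ n * q ≤ 1 / 2 := fun n => by
    have h1 : 1 / ((n : ℝ) + 1) ≤ 1 := by rw [div_le_one (by positivity)]; simp
    calc τ n * q ≤ 1 / (2 * q) * 1 * q := by simp only [hτ]; gcongr
      _ = 1 / 2 := by field_simp
  set m' : ℕ → ι → ℝ := fun n k => m k + τ n * e k with hm'
  have hmb : ∀ n k, m k / 2 ≤ m' n k ∧ m' n k ≤ 2 * m k := fun n k => by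
    have h1 : |τ n * w k| ≤ 1 / 2 := by
      rw [abs_mul, abs_of_pos (hτ0 n)]
      exact (mul_le_mul_of_nonneg_left (hq k) (hτ0 n).le).trans (hτq n)
    obtain ⟨h2, h3⟩ := abs_le.1 h1
    have h4 := mul_le_mul_of_nonneg_left h2 (hm k).le
    have h5 := mul_le_mul_of_nonneg_left h3 (hm k).le
    simp only [hm', he]
    constructor <;> linarith [hm k]
  have hms' : ∀ n, ∑ k, m' n k = vol K := fun n => by
    simp [hm', Finset.sum_add_distrib, hms, ← Finset.mul_sum, hes]
  have hδm : ∀ n k, δ ≤ m' n k := fun n k =>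
    (Finset.inf'_le _ (Finset.mem_univ k)).trans (hmb n k).1
  choose χ hχ hχb using fun n => exists_min (y := b) hK R D hR hbD δ hδ (hδm n) (hms' n)
  choose χa hχa _ using fun n => exists_min (y := a) hK R D hR haD δ hδ (hδm n) (hms' n)
  have hJ : ∀ n, dual K b (m' n) (fun _ => 0) = dual K b m (fun _ => 0) := fun n => by simp [dual]
  simp only [hJ] at hχb
  obtain ⟨χs, -, φ, hφ, hlim⟩ := (isCompact_univ_pi fun _ : ι => isCompact_Icc).tendsto_subseq
    (x := χ) (fun n k _ => hχb n k)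
  have hτlim : Tendsto τ atTop (𝓝 0) := by
    simpa [hτ] using (tendsto_one_div_add_atTop_nhds_zero_nat (𝕜 := ℝ)).const_mul (1 / (2 * q))
  have hmin : IsMin K b m χs := by
    intro z
    have hd : ∀ w : ι → ℝ, ∀ n, dual K b (m' n) w = dual K b m w + τ n * ∑ k, e k * w k := by
      intro w n
      rw [dual_mass K b m (m' n), Finset.mul_sum]
      simp [hm', mul_assoc]
    have h1 : Tendsto (fun n => dual K b m (χ (φ n)) + τ (φ n) * ∑ k, e k * χ (φ n) k) atTop
        (𝓝 (dual K b m χs + 0 * ∑ k, e k * χs k)) :=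
      (((continuous_dual hK).tendsto χs).comp hlim).add
        ((hτlim.comp hφ.tendsto_atTop).mul (((by fun_prop :
          Continuous fun w : ι → ℝ => ∑ k, e k * w k).tendsto χs).comp hlim))
    have h2 : Tendsto (fun n => dual K b m z + τ (φ n) * ∑ k, e k * z k) atTop
        (𝓝 (dual K b m z + 0 * ∑ k, e k * z k)) :=
      tendsto_const_nhds.add ((hτlim.comp hφ.tendsto_atTop).mul tendsto_const_nhds)
    have h3 := le_of_tendsto_of_tendsto' h1 h2 fun n => by rw [← hd, ← hd]; exact hχ (φ n) z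
    simpa using h3
  have hsum : ∑ k, e k * χs k = ∑ k, e k * ψ' k := by
    obtain ⟨k0⟩ := ‹Nonempty ι›
    have hu := isMin_unique hK hKc hKi hb hm hms h' hmin
    rw [← sub_eq_zero, ← Finset.sum_sub_distrib]
    simp only [← mul_sub]
    rw [Finset.sum_congr rfl fun k _ => by rw [hu k k0], ← Finset.sum_mul, hes, zero_mul]
  have hbound : ∀ n, ∑ k, e k * (χ n k - ψ k) ≤ R * Real.sqrt (3 * W * S) := by
    intro n
    have hmd := mixed_diff_le hK hKc R D hR0 hR ha hb haD hbD hm
      (fun k => lt_of_lt_of_le (half_pos (hm k)) (hmb n k).1) hms (hms' n) h (hχa n) h' (hχ n)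
    have e1 : dual K b (m' n) (χ n) - dual K b m ψ' ≥ τ n * ∑ k, e k * χ n k := by
      rw [dual_mass K b m (m' n), Finset.mul_sum]
      have := h' (χ n)
      simp only [hm', add_sub_cancel_left, mul_assoc] at *
      linarith
    have e2 : dual K a (m' n) (χa n) - dual K a m ψ ≤ τ n * ∑ k, e k * ψ k := by
      have := hχa n ψ
      rw [dual_mass K a m (m' n) ψ] at this
      rw [Finset.mul_sum]
      simp only [hm', add_sub_cancel_left, mul_assoc] at *
      linarith
    have hA : ∑ k, (m k + m' n k) * ‖b k - a k‖ ^ 2 ≤ 3 * W := by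
      rw [hW, Finset.mul_sum]
      refine Finset.sum_le_sum fun k _ => ?_
      rw [← mul_assoc]
      gcongr
      linarith [(hmb n k).2]
    have hE : ∑ k, (m' n k - m k) ^ 2 / (m k + m' n k) ≤ τ n ^ 2 * S := by
      rw [hS, Finset.mul_sum]
      refine Finset.sum_le_sum fun k _ => ?_
      rw [div_le_iff₀ (by linarith [hm k, (hmb n k).1])]
      have h1 : m k ≤ m k + m' n k := by linarith [hm k, (hmb n k).1]
      have h2 := mul_le_mul_of_nonneg_left h1 (show 0 ≤ τ n ^ 2 * (m k * w k ^ 2) by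
        have := hm k; positivity)
      simp only [hm', he, add_sub_cancel_left] at h2 ⊢
      linarith
    have hsq : R * Real.sqrt ((∑ k, (m k + m' n k) * ‖b k - a k‖ ^ 2)
        * ∑ k, (m' n k - m k) ^ 2 / (m k + m' n k)) ≤ τ n * (R * Real.sqrt (3 * W * S)) := by
      calc _ ≤ R * Real.sqrt (3 * W * (τ n ^ 2 * S)) := by
            refine mul_le_mul_of_nonneg_left (Real.sqrt_le_sqrt ?_) hR0
            refine mul_le_mul hA hE (Finset.sum_nonneg fun k _ => ?_) ?_
            · exact div_nonneg (sq_nonneg _) (by linarith [hm k, (hmb n k).1])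
            · exact le_trans (Finset.sum_nonneg fun k _ => mul_nonneg
                (by linarith [hm k, (hmb n k).1]) (sq_nonneg _)) hA
        _ = _ := by
            rw [show 3 * W * (τ n ^ 2 * S) = τ n ^ 2 * (3 * W * S) by ring,
              Real.sqrt_mul (sq_nonneg _), Real.sqrt_sq (hτ0 n).le]
            ring
    refine le_of_mul_le_mul_left ?_ (hτ0 n)
    simp only [mul_sub, Finset.sum_sub_distrib]
    linarith
  have hlim2 : ∑ k, e k * (χs k - ψ k) ≤ R * Real.sqrt (3 * W * S) :=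
    le_of_tendsto' (((by fun_prop : Continuous fun z : ι → ℝ => ∑ k, e k * (z k - ψ k)).tendsto
      χs).comp hlim) fun n => hbound (φ n)
  have heS : ∑ k, e k * (χs k - ψ k) = S := by
    simp only [mul_sub, Finset.sum_sub_distrib, hsum]
    have e2 : S = ∑ k, (e k * ψ' k - e k * ψ k - e k * c) :=
      Finset.sum_congr rfl fun k _ => by simp only [he, hw]; ring
    rw [e2, Finset.sum_sub_distrib, Finset.sum_sub_distrib, ← Finset.sum_mul, hes, zero_mul,
      sub_zero]
  rw [heS] at hlim2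
  have hS0 : 0 ≤ S := Finset.sum_nonneg fun k _ => mul_nonneg (hm k).le (sq_nonneg _)
  have hW0 : 0 ≤ W := Finset.sum_nonneg fun k _ => mul_nonneg (hm k).le (sq_nonneg _)
  have h2 := pow_le_pow_left₀ hS0 hlim2 2
  rw [mul_pow, Real.sq_sqrt (by positivity)] at h2
  rcases hS0.lt_or_eq with hpos | hzero
  · refine le_of_mul_le_mul_right ?_ hpos
    linarith
  · rw [← hzero]; positivity

/-- `L²` closeness of the potentials. -/
theorem pot_close (hK : IsCompact K) (hKc : Convex ℝ K) (hKi : (interior K).Nonempty) (R : ℝ)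
    (hR0 : 0 ≤ R) (hR : ∀ x ∈ K, ‖x‖ ≤ R) {a b : ι → EuclideanSpace ℝ (Fin d)}
    (ha : Function.Injective a) (hb : Function.Injective b) {m : ι → ℝ}
    (hm : ∀ k, 0 < m k) (hms : ∑ k, m k = vol K) {ψ ψ' : ι → ℝ} (h : IsMin K a m ψ)
    (h' : IsMin K b m ψ') :
    ∃ c, ∫ x in K, (pot' a ψ x - pot' b ψ' x - c) ^ 2
      ≤ 16 * R ^ 2 * ∑ k, m k * ‖b k - a k‖ ^ 2 := by
  obtain ⟨c, hc⟩ := variance_le hK hKc hKi R hR0 hR ha hb hm hms h h'
  refine ⟨c, ?_⟩
  set p := fun k => |ψ' k - ψ k - c| + R * ‖b k - a k‖ with hp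
  have hp0 : ∀ k, 0 ≤ p k := fun k => by simp only [hp]; positivity
  set g := fun x => ∑ k, (cell K a ψ k).indicator (fun _ => p k ^ 2) x
    + ∑ k, (cell K b ψ' k).indicator (fun _ => p k ^ 2) x with hg
  have hpt : ∀ x ∈ K, (pot' a ψ x - pot' b ψ' x - c) ^ 2 ≤ g x := by
    intro x hx
    have hnn : ∀ (y : ι → EuclideanSpace ℝ (Fin d)) (χ : ι → ℝ),
        0 ≤ ∑ k, (cell K y χ k).indicator (fun _ => p k ^ 2) x := fun y χ =>
      Finset.sum_nonneg fun k _ => Set.indicator_nonneg (fun _ _ => sq_nonneg _) x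
    have hin : ∀ k, |⟪x, a k⟫ - ⟪x, b k⟫| ≤ R * ‖b k - a k‖ := fun k => by
      rw [← inner_sub_right, norm_sub_rev]
      exact (abs_real_inner_le_norm _ _).trans (mul_le_mul_of_nonneg_right (hR x hx) (norm_nonneg _))
    obtain ⟨k, hk⟩ := exists_pot_eq a ψ x
    obtain ⟨l, hl⟩ := exists_pot_eq b ψ' x
    have a1 := aff_le_pot (y := b) (ψ := ψ') k x
    have a2 := aff_le_pot (y := a) (ψ := ψ) l x
    rcases le_total 0 (pot' a ψ x - pot' b ψ' x - c) with hs | hs
    · refine le_trans (pow_le_pow_left₀ hs (show _ ≤ p k from ?_) 2) ?_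
      · have := abs_le.1 (hin k)
        simp only [aff] at hk a1
        simp only [hp]
        linarith [le_abs_self (ψ' k - ψ k - c)]
      · refine le_add_of_le_of_nonneg (le_trans ?_ (Finset.single_le_sum
          (fun j _ => Set.indicator_nonneg (fun _ _ => sq_nonneg _) x) (Finset.mem_univ k))) (hnn b ψ')
        rw [Set.indicator_of_mem (mem_cell_of_pot_eq hx hk)]
    · rw [← neg_sq]
      refine le_trans (pow_le_pow_left₀ (neg_nonneg.2 hs) (show _ ≤ p l from ?_) 2) ?_
      · have := abs_le.1 (hin l)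
        simp only [aff] at hl a2
        simp only [hp]
        linarith [neg_abs_le (ψ' l - ψ l - c)]
      · refine le_add_of_nonneg_of_le (hnn a ψ) (le_trans ?_ (Finset.single_le_sum
          (fun j _ => Set.indicator_nonneg (fun _ _ => sq_nonneg _) x) (Finset.mem_univ l)))
        rw [Set.indicator_of_mem (mem_cell_of_pot_eq hx hl)]
  have hi : ∀ (y : ι → EuclideanSpace ℝ (Fin d)) (χ : ι → ℝ) (k : ι),
      IntegrableOn ((cell K y χ k).indicator (fun _ => p k ^ 2)) K := fun y χ k =>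
    IntegrableOn.indicator (continuous_const.continuousOn.integrableOn_compact hK)
      (measurableSet_cell hK k)
  have hI : ∀ (y : ι → EuclideanSpace ℝ (Fin d)) (χ : ι → ℝ), Function.Injective y → IsMin K y m χ →
      ∫ x in K, ∑ k, (cell K y χ k).indicator (fun _ => p k ^ 2) x = ∑ k, m k * p k ^ 2 := by
    intro y χ hy hχ
    rw [integral_finsetSum _ (fun k _ => hi y χ k)]
    refine Finset.sum_congr rfl fun k _ => ?_
    rw [setIntegral_indicator (measurableSet_cell hK k), Set.inter_eq_right.2 (cell_subset k),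
      setIntegral_const, smul_eq_mul, measureReal_def,
      ← show vol (cell K y χ k) = (volume (cell K y χ k)).toReal from rfl,
      vol_cell_eq hK hy hms hχ k]
  have i1 : IntegrableOn (fun x => ∑ k, (cell K a ψ k).indicator (fun _ => p k ^ 2) x) K :=
    integrable_finsetSum _ fun k _ => hi a ψ k
  have i2 : IntegrableOn (fun x => ∑ k, (cell K b ψ' k).indicator (fun _ => p k ^ 2) x) K :=
    integrable_finsetSum _ fun k _ => hi b ψ' k
  have hcont : Continuous fun x => (pot' a ψ x - pot' b ψ' x - c) ^ 2 :=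
    (((continuous_pot.sub continuous_pot).sub continuous_const).pow 2)
  have hle := setIntegral_mono_on (hcont.continuousOn.integrableOn_compact hK) (i1.add i2)
    hK.isClosed.measurableSet hpt
  simp only [hg, Pi.add_apply] at hle
  rw [integral_add i1 i2, hI a ψ ha h, hI b ψ' hb h'] at hle
  refine hle.trans ?_
  have hstep : ∀ k, m k * p k ^ 2
      ≤ 2 * (m k * (ψ' k - ψ k - c) ^ 2) + 2 * R ^ 2 * (m k * ‖b k - a k‖ ^ 2) := fun k => by
    have h1 : p k ^ 2 ≤ 2 * (ψ' k - ψ k - c) ^ 2 + 2 * R ^ 2 * ‖b k - a k‖ ^ 2 := by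
      simp only [hp]
      rw [← sq_abs (ψ' k - ψ k - c)]
      nlinarith [sq_nonneg (|ψ' k - ψ k - c| - R * ‖b k - a k‖)]
    have h2 := mul_le_mul_of_nonneg_left h1 (hm k).le
    linarith
  have := Finset.sum_le_sum (s := Finset.univ) fun k _ => hstep k
  rw [Finset.sum_add_distrib, ← Finset.mul_sum, ← Finset.mul_sum] at this
  linarith

end Vale.Agent.P074
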