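import Vale.Agent.P074.Defs
import Vale.Agent.P074.Var
import Vale.Agent.P074.Limit

namespace Vale.Agent.P074

open MeasureTheory Set Filter
open scoped ENNReal NNReal RealInnerProductSpace Topology

variable {d : ℕ} {K Y : Set (EuclideanSpace ℝ (Fin d))}

lemma integral_uniformOn (K : Set (EuclideanSpace ℝ (Fin d)))
    (g : EuclideanSpace ℝ (Fin d) → ℝ) :
    ∫ x, g x ∂(uniformOn K) = (vol K)⁻¹ * ∫ x in K, g x := by
  rw [uniformOn, integral_smul_measure, smul_eq_mul, ENNReal.toReal_inv]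
  rfl

lemma isProbabilityMeasure_uniformOn (hK : IsCompact K) (hΛ : 0 < vol K) :
    IsProbabilityMeasure (uniformOn K) := by
  refine ⟨?_⟩
  rw [uniformOn, Measure.smul_apply, Measure.restrict_apply_univ, smul_eq_mul]
  exact ENNReal.inv_mul_cancel (ENNReal.toReal_pos_iff.1 hΛ).1.ne' hK.measure_lt_top.ne

lemma ot_facts (hK : IsCompact K) (R : ℝ) (hR : ∀ x ∈ K, ‖x‖ ≤ R) (hΛ : 0 < vol K)
    (hY : IsCompact Y) {D : ℝ} (hYD : ∀ y ∈ Y, ‖y‖ + 1 ≤ D)
    {μ : Measure (EuclideanSpace ℝ (Fin d))} [IsProbabilityMeasure μ] (hμ : μ Yᶜ = 0)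
    {T : EuclideanSpace ℝ (Fin d) → EuclideanSpace ℝ (Fin d)}
    (hT : IsOTMap (uniformOn K) μ T)
    {π : Measure (EuclideanSpace ℝ (Fin d) × EuclideanSpace ℝ (Fin d))}
    {f : EuclideanSpace ℝ (Fin d) × EuclideanSpace ℝ (Fin d) → EuclideanSpace ℝ (Fin d)}
    (hf : Measurable f) (hπ : π.map f = μ) :
    (∀ᵐ x ∂(volume.restrict K), ‖T x‖ ≤ D) ∧
    (∀ G : EuclideanSpace ℝ (Fin d) → ℝ, Continuous G →
      ∫ x in K, G (T x) = vol K * ∫ p, G (f p) ∂π) ∧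
    ∀ U : EuclideanSpace ℝ (Fin d) → EuclideanSpace ℝ (Fin d), Measurable U →
      (∀ᵐ x ∂(volume.restrict K), ‖U x‖ ≤ D) →
      (∀ G : EuclideanSpace ℝ (Fin d) → ℝ, Continuous G →
        ∫ x in K, G (U x) = vol K * ∫ p, G (f p) ∂π) →
      ∫ x in K, ⟪x, U x⟫ ≤ ∫ x in K, ⟪x, T x⟫ := by
  obtain ⟨hTm, hTμ, hopt⟩ := hT
  haveI := isProbabilityMeasure_uniformOn hK hΛ
  have hne : (volume K)⁻¹ ≠ 0 := ENNReal.inv_ne_zero.2 hK.measure_lt_top.ne
  have hTD : ∀ᵐ x ∂(volume.restrict K), ‖T x‖ ≤ D := by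
    have h1 : ∀ᵐ y ∂μ, y ∈ Y := by rwa [ae_iff]
    rw [← hTμ] at h1
    have h2 := ae_of_ae_map hTm.aemeasurable h1
    rw [uniformOn, Measure.ae_ennreal_smul_measure_iff hne] at h2
    exact h2.mono fun x hx => by linarith [hYD _ hx]
  have hTlaw : ∀ G : EuclideanSpace ℝ (Fin d) → ℝ, Continuous G →
      ∫ x in K, G (T x) = vol K * ∫ p, G (f p) ∂π := by
    intro G hG
    rw [← integral_map hf.aemeasurable hG.aestronglyMeasurable, hπ, ← hTμ,
      integral_map hTm.aemeasurable hG.aestronglyMeasurable, integral_uniformOn, ← mul_assoc,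
      mul_inv_cancel₀ hΛ.ne', one_mul]
  refine ⟨hTD, hTlaw, fun U hUm hUD hUlaw => ?_⟩
  have hUμ : (uniformOn K).map U = μ := by
    haveI := Measure.isProbabilityMeasure_map (μ := uniformOn K) hUm.aemeasurable
    refine ext_of_forall_integral_eq_of_IsFiniteMeasure fun G => ?_
    rw [integral_map hUm.aemeasurable G.continuous.aestronglyMeasurable, integral_uniformOn,
      hUlaw _ G.continuous, ← hπ, integral_map hf.aemeasurable G.continuous.aestronglyMeasurable,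
      ← mul_assoc, inv_mul_cancel₀ hΛ.ne', one_mul]
  have hcost := hopt U hUm hUμ
  rw [uniformOn, lintegral_smul_measure, lintegral_smul_measure, smul_eq_mul, smul_eq_mul,
    ENNReal.mul_le_mul_iff_right hne (ENNReal.inv_ne_top.2 (ENNReal.toReal_pos_iff.1 hΛ).1.ne')] at hcost
  have hint : ∀ V : EuclideanSpace ℝ (Fin d) → EuclideanSpace ℝ (Fin d), Measurable V →
      (∀ᵐ x ∂(volume.restrict K), ‖V x‖ ≤ D) →
      IntegrableOn (fun x => ‖x - V x‖ ^ 2) K ∧ IntegrableOn (fun x => ‖V x‖ ^ 2) K := by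
    intro V hV hVD
    constructor
    · refine integrableOn_of_bound hK ((measurable_id.sub hV).norm.pow_const 2) (C := (R + D) ^ 2) ?_
      filter_upwards [hVD, ae_restrict_mem hK.isClosed.measurableSet] with x hx hxK
      rw [abs_of_nonneg (sq_nonneg _)]
      exact pow_le_pow_left₀ (norm_nonneg _) ((norm_sub_le _ _).trans (add_le_add (hR x hxK) hx)) 2
    · refine integrableOn_of_bound hK (hV.norm.pow_const 2) (C := D ^ 2) ?_
      filter_upwards [hVD] with x hx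
      rw [abs_of_nonneg (sq_nonneg _)]
      exact pow_le_pow_left₀ (norm_nonneg _) hx 2
  obtain ⟨iT, iT2⟩ := hint T hTm hTD
  obtain ⟨iU, iU2⟩ := hint U hUm hUD
  rw [← ofReal_integral_eq_lintegral_ofReal iT (Eventually.of_forall fun _ => sq_nonneg _),
    ← ofReal_integral_eq_lintegral_ofReal iU (Eventually.of_forall fun _ => sq_nonneg _),
    ENNReal.ofReal_le_ofReal_iff (integral_nonneg fun _ => sq_nonneg _)] at hcost
  have hexp : ∀ V : EuclideanSpace ℝ (Fin d) → EuclideanSpace ℝ (Fin d), Measurable V →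
      (∀ᵐ x ∂(volume.restrict K), ‖V x‖ ≤ D) →
      ∫ x in K, ‖x - V x‖ ^ 2
        = (∫ x in K, ‖x‖ ^ 2) - 2 * (∫ x in K, ⟪x, V x⟫) + ∫ x in K, ‖V x‖ ^ 2 := by
    intro V hV hVD
    have i0 : IntegrableOn (fun x : EuclideanSpace ℝ (Fin d) => ‖x‖ ^ 2) K :=
      (continuous_norm.pow 2).continuousOn.integrableOn_compact hK
    have i1 : IntegrableOn (fun x => 2 * ⟪x, V x⟫) K :=
      (integrableOn_inner hK R D hR hV hVD).const_mul 2
    have i01 : IntegrableOn (fun x => ‖x‖ ^ 2 - 2 * ⟪x, V x⟫) K := i0.sub i1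
    simp only [norm_sub_sq_real]
    rw [integral_add i01 (hint V hV hVD).2, integral_sub i0 i1, integral_const_mul]
  rw [hexp T hTm hTD, hexp U hUm hUD, hTlaw (fun z => ‖z‖ ^ 2) (by fun_prop),
    hUlaw (fun z => ‖z‖ ^ 2) (by fun_prop)] at hcost
  linarith

lemma norm_sq_sub_le (x y z w : EuclideanSpace ℝ (Fin d)) {D : ℝ} (hx : ‖x‖ ≤ D) (hy : ‖y‖ ≤ D)
    (hz : ‖z‖ ≤ D) (hw : ‖w‖ ≤ D) :
    ‖x - w‖ ^ 2 ≤ 6 * D * ‖x - y‖ + 3 * ‖y - z‖ ^ 2 + 6 * D * ‖w - z‖ := by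
  have h1 : ‖x - w‖ ≤ ‖x - y‖ + ‖y - z‖ + ‖w - z‖ := by
    calc ‖x - w‖ = ‖(x - y) + (y - z) + (z - w)‖ := by congr 1; abel
      _ ≤ _ := by rw [norm_sub_rev w z]; exact norm_add₃_le
  have a1 : ‖x - y‖ ≤ 2 * D := (norm_sub_le _ _).trans (by linarith)
  have a2 : ‖w - z‖ ≤ 2 * D := (norm_sub_le _ _).trans (by linarith)
  have b1 := mul_le_mul_of_nonneg_right a1 (norm_nonneg (x - y))
  have b2 := mul_le_mul_of_nonneg_right a2 (norm_nonneg (w - z))
  have h2 := pow_le_pow_left₀ (norm_nonneg _) h1 2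
  generalize ‖x - y‖ = p at *
  generalize ‖y - z‖ = q at *
  generalize ‖w - z‖ = s at *
  nlinarith [sq_nonneg (p - q), sq_nonneg (q - s), sq_nonneg (p - s)]

/-- The pair bound for a fixed discretization. -/
lemma disc_pair_bound (hK : IsCompact K) (hKc : Convex ℝ K) (hKi : (interior K).Nonempty) (R : ℝ)
    (hR0 : 0 ≤ R) (hR : ∀ x ∈ K, ‖x‖ ≤ R) {A r : ℝ}
    (hA : ∀ v : EuclideanSpace ℝ (Fin d), ‖v‖ ≤ r → vol K - vol (inner2 K v) ≤ A * ‖v‖)
    {n : ℕ} [Nonempty (Fin n)] {a b : Fin n → EuclideanSpace ℝ (Fin d)} {m ψ ψ' : Fin n → ℝ}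
    (ha : Function.Injective a) (hb : Function.Injective b) {D : ℝ} (haD : ∀ k, ‖a k‖ ≤ D)
    (hbD : ∀ k, ‖b k‖ ≤ D) (hm : ∀ k, 0 < m k) (hms : ∑ k, m k = vol K)
    (h : IsMin K a m ψ) (h' : IsMin K b m ψ') {δ : ℝ} (hδ : 0 < δ) (hδr : δ ≤ r) :
    ∫ x in K, ‖tmap a ψ x - tmap b ψ' x‖ ^ 2
      ≤ d * (28 * D ^ 2 * A * δ + 12 / δ ^ 2 * (16 * R ^ 2 * ∑ k, m k * ‖b k - a k‖ ^ 2)) := by
  obtain ⟨c, hc⟩ := pot_close hK hKc hKi R hR0 hR ha hb hm hms h h'
  set B := 28 * D ^ 2 * A * δ + 12 / δ ^ 2 * (16 * R ^ 2 * ∑ k, m k * ‖b k - a k‖ ^ 2) with hB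
  have hsq : ∀ w : EuclideanSpace ℝ (Fin d), ‖w‖ ^ 2 = ∑ i, (w i) ^ 2 := fun w => by
    rw [EuclideanSpace.norm_sq_eq]
    exact Finset.sum_congr rfl fun i _ => by rw [Real.norm_eq_abs, sq_abs]
  have hint : ∀ i : Fin d, IntegrableOn (fun x => (tmap a ψ x i - tmap b ψ' x i) ^ 2) K := by
    intro i
    refine integrableOn_of_bound hK ?_ (C := (2 * D) ^ 2) ?_
    · have h1 := measurable_tmap a ψ
      have h2 := measurable_tmap b ψ'
      fun_prop
    · refine Eventually.of_forall fun x => ?_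
      rw [abs_of_nonneg (sq_nonneg _), ← sq_abs]
      refine pow_le_pow_left₀ (abs_nonneg _) ((abs_sub _ _).trans ?_) 2
      linarith [coord_le i (norm_tmap_le haD ψ x), coord_le i (norm_tmap_le hbD ψ' x)]
  calc ∫ x in K, ‖tmap a ψ x - tmap b ψ' x‖ ^ 2
      = ∫ x in K, ∑ i, (tmap a ψ x i - tmap b ψ' x i) ^ 2 := by
        simp only [hsq, PiLp.sub_apply]
    _ = ∑ i, ∫ x in K, (tmap a ψ x i - tmap b ψ' x i) ^ 2 :=
        integral_finsetSum _ fun i _ => hint i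
    _ ≤ ∑ _i : Fin d, B := by
        refine Finset.sum_le_sum fun i _ => (tmap_close hK hA ψ ψ' haD hbD c i hδ hδr).trans ?_
        rw [hB]
        gcongr
    _ = _ := by rw [Finset.sum_const, Finset.card_univ, Fintype.card_fin, nsmul_eq_mul]

/-- The estimate for one coupling of the two targets. -/
lemma coupling_bound [NeZero d] (hK : IsCompact K) (hKc : Convex ℝ K)
    (hKi : (interior K).Nonempty) (R : ℝ) (hR0 : 0 ≤ R) (hR : ∀ x ∈ K, ‖x‖ ≤ R) (hΛ : 0 < vol K)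
    {A r : ℝ} (hr : 0 < r)
    (hA : ∀ v : EuclideanSpace ℝ (Fin d), ‖v‖ ≤ r → vol K - vol (inner2 K v) ≤ A * ‖v‖)
    (hY : IsCompact Y) {D : ℝ} (hD : 0 ≤ D) (hYD : ∀ y ∈ Y, ‖y‖ + 1 ≤ D)
    {μ ν : Measure (EuclideanSpace ℝ (Fin d))} [IsProbabilityMeasure μ] [IsProbabilityMeasure ν]
    (hμ : μ Yᶜ = 0) (hν : ν Yᶜ = 0)
    {T S : EuclideanSpace ℝ (Fin d) → EuclideanSpace ℝ (Fin d)}
    (hT : IsOTMap (uniformOn K) μ T) (hS : IsOTMap (uniformOn K) ν S)
    {π : Measure (EuclideanSpace ℝ (Fin d) × EuclideanSpace ℝ (Fin d))}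
    (h1 : π.map Prod.fst = μ) (h2 : π.map Prod.snd = ν) {δ : ℝ} (hδ : 0 < δ) (hδr : δ ≤ r) :
    ∫ x in K, ‖T x - S x‖ ^ 2
      ≤ 132 * d * D ^ 2 * A * δ
        + 576 * d * R ^ 2 * vol K / δ ^ 2 * ∫ p, ‖p.1 - p.2‖ ^ 2 ∂π := by
  have : IsProbabilityMeasure π := by
    refine ⟨?_⟩
    rw [← Set.preimage_univ (f := Prod.fst), ← Measure.map_apply measurable_fst MeasurableSet.univ,
      h1]
    exact measure_univ
  have hπ1 : ∀ᵐ p ∂π, p.1 ∈ Y := by
    refine ae_of_ae_map measurable_fst.aemeasurable ?_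
    rw [h1, ae_iff]; exact hμ
  have hπ2 : ∀ᵐ p ∂π, p.2 ∈ Y := by
    refine ae_of_ae_map measurable_snd.aemeasurable ?_
    rw [h2, ae_iff]; exact hν
  have hπ : π (Y ×ˢ Y)ᶜ = 0 := by
    have h := hπ1.and hπ2
    rw [ae_iff] at h
    exact h
  obtain ⟨hTD, hTlaw, hTopt⟩ := ot_facts hK R hR hΛ hY hYD hμ hT measurable_fst h1
  obtain ⟨hSD, hSlaw, hSopt⟩ := ot_facts hK R hR hΛ hY hYD hν hS measurable_snd h2
  have hTm := hT.1
  have hSm := hS.1
  have hd := fun ε (h0 : (0:ℝ) < ε) (h0' : ε ≤ 1) =>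
    exists_discretization π hY hπ hYD (vol K) hΛ h0 h0'
  have mk1 : ∀ ε : ℝ, 0 < ε → ε ≤ 1 → Nonempty (Disc K π Prod.fst D ε) := fun ε h0 h0' => by
    obtain ⟨n, a, b, m, g, hn, ha, hb, haD, hbD, hm, hms, hg, hint, hca, hcb⟩ := hd ε h0 h0'
    exact ⟨⟨n, hn, a, m, g, ha, haD, hm, hms, hg, hint, hca⟩⟩
  have mk2 : ∀ ε : ℝ, 0 < ε → ε ≤ 1 → Nonempty (Disc K π Prod.snd D ε) := fun ε h0 h0' => by
    obtain ⟨n, a, b, m, g, hn, ha, hb, haD, hbD, hm, hms, hg, hint, hca, hcb⟩ := hd ε h0 h0'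
    exact ⟨⟨n, hn, b, m, g, hb, hbD, hm, hms, hg, hint, hcb⟩⟩
  set cost := ∫ p, ‖p.1 - p.2‖ ^ 2 ∂π with hcost
  have hcosti : Integrable (fun p => ‖p.1 - p.2‖ ^ 2) π := by
    refine Integrable.mono' (integrable_const ((2 * D) ^ 2)) (by fun_prop) ?_
    filter_upwards [hπ1, hπ2] with p h3 h4
    rw [Real.norm_of_nonneg (sq_nonneg _)]
    exact pow_le_pow_left₀ (norm_nonneg _)
      ((norm_sub_le _ _).trans (by linarith [hYD _ h3, hYD _ h4])) 2
  refine le_of_forall_pos_le_add fun η hη => ?_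
  set Q := d * (24 * D * R * vol K / δ + 576 * R ^ 2 * vol K * (8 * D + 4) / δ ^ 2) + 1 with hQ
  have hQ1 : 0 < Q := by positivity
  set ε := min 1 (η / Q) with hεdef
  have hε : 0 < ε := by positivity
  have hε1 : ε ≤ 1 := min_le_left _ _
  have hεQ : ε * Q ≤ η := by
    calc ε * Q ≤ η / Q * Q := by gcongr; exact min_le_right _ _
      _ = η := by field_simp
  obtain ⟨n, a, b, m, g, hn, ha, hb, haD, hbD, hm, hms, hg, hint, hca, hcb⟩ := hd ε hε hε1
  let X : Disc K π Prod.fst D ε := ⟨n, hn, a, m, g, ha, haD, hm, hms, hg, hint, hca⟩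
  let X' : Disc K π Prod.snd D ε := ⟨n, hn, b, m, g, hb, hbD, hm, hms, hg, hint, hcb⟩
  have : Nonempty (Fin n) := ⟨⟨0, hn⟩⟩
  obtain ⟨ψ, hψ⟩ := X.exists_min' hK R hR
  obtain ⟨ψ', hψ'⟩ := X'.exists_min' hK R hR
  have e1 := optimal_close hK R hR0 hR hr hA measurable_fst
    (fun ε h0 h0' => (mk1 ε h0 h0').some) hTm hTD hTlaw hTopt X hψ hδ hδr
  have e2 := optimal_close hK R hR0 hR hr hA measurable_snd
    (fun ε h0 h0' => (mk2 ε h0 h0').some) hSm hSD hSlaw hSopt X' hψ' hδ hδr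
  have e3 := disc_pair_bound hK hKc hKi R hR0 hR hA ha hb haD hbD hm hms hψ hψ' hδ hδr
  have hsum : ∑ k, m k * ‖b k - a k‖ ^ 2 ≤ vol K * (cost + ε * (8 * D + 4)) := by
    rw [hint fun k => ‖b k - a k‖ ^ 2]
    gcongr
    have hrhs : cost + ε * (8 * D + 4) = ∫ p, (‖p.1 - p.2‖ ^ 2 + ε * (8 * D + 4)) ∂π := by
      rw [integral_add hcosti (integrable_const _), integral_const]
      simp [hcost]
    rw [hrhs]
    refine integral_mono_of_nonneg (Eventually.of_forall fun _ => sq_nonneg _)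
      (hcosti.add (integrable_const _)) ?_
    filter_upwards [hπ1, hπ2, hca, hcb] with p h3 h4 h5 h6
    have hn2 : ‖b (g p) - a (g p)‖ ≤ ‖p.1 - p.2‖ + 2 * ε := by
      calc ‖b (g p) - a (g p)‖ = ‖(b (g p) - p.2) + (p.2 - p.1) + (p.1 - a (g p))‖ := by
            congr 1; abel
        _ ≤ _ := norm_add₃_le
        _ ≤ _ := by
            rw [norm_sub_rev p.2 p.1, norm_sub_rev p.1 (a (g p))]; linarith
    have hb2 : ‖p.1 - p.2‖ ≤ 2 * D :=
      (norm_sub_le _ _).trans (by linarith [hYD _ h3, hYD _ h4])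
    have := pow_le_pow_left₀ (norm_nonneg _) hn2 2
    nlinarith [norm_nonneg (p.1 - p.2), mul_le_mul_of_nonneg_left hε1 hε.le]
  -- integrability
  set Tn := tmap a ψ with hTn
  set Sn := tmap b ψ' with hSn
  have hTnm : Measurable Tn := measurable_tmap a ψ
  have hSnm : Measurable Sn := measurable_tmap b ψ'
  have i1 : IntegrableOn (fun x => 6 * D * ‖T x - Tn x‖) K := by
    refine (integrableOn_of_bound hK (hTm.sub hTnm).norm (C := 2 * D) ?_).const_mul _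
    filter_upwards [hTD] with x hx
    rw [abs_norm]
    exact (norm_sub_le _ _).trans (by linarith [norm_tmap_le haD ψ x])
  have i3 : IntegrableOn (fun x => 6 * D * ‖S x - Sn x‖) K := by
    refine (integrableOn_of_bound hK (hSm.sub hSnm).norm (C := 2 * D) ?_).const_mul _
    filter_upwards [hSD] with x hx
    rw [abs_norm]
    exact (norm_sub_le _ _).trans (by linarith [norm_tmap_le hbD ψ' x])
  have i2 : IntegrableOn (fun x => 3 * ‖Tn x - Sn x‖ ^ 2) K := by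
    refine (integrableOn_of_bound hK ((hTnm.sub hSnm).norm.pow_const 2) (C := (2 * D) ^ 2)
      (Eventually.of_forall fun x => ?_)).const_mul _
    rw [abs_of_nonneg (sq_nonneg _)]
    exact pow_le_pow_left₀ (norm_nonneg _) ((norm_sub_le _ _).trans
      (by linarith [norm_tmap_le haD ψ x, norm_tmap_le hbD ψ' x])) 2
  have hmain : ∫ x in K, ‖T x - S x‖ ^ 2
      ≤ ∫ x in K, (6 * D * ‖T x - Tn x‖ + 3 * ‖Tn x - Sn x‖ ^ 2 + 6 * D * ‖S x - Sn x‖) := by
    refine integral_mono_of_nonneg (Eventually.of_forall fun _ => sq_nonneg _)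
      ((i1.add i2).add i3) ?_
    filter_upwards [hTD, hSD] with x hx hx'
    exact norm_sq_sub_le _ _ _ _ hx (norm_tmap_le haD ψ x) (norm_tmap_le hbD ψ' x) hx'
  have i12 : IntegrableOn (fun x => 6 * D * ‖T x - Tn x‖ + 3 * ‖Tn x - Sn x‖ ^ 2) K := i1.add i2
  rw [integral_add i12 i3, integral_add i1 i2, integral_const_mul, integral_const_mul,
    integral_const_mul] at hmain
  have f1 := mul_le_mul_of_nonneg_left e1 (by positivity : (0:ℝ) ≤ 6 * D)
  have f2 := mul_le_mul_of_nonneg_left e2 (by positivity : (0:ℝ) ≤ 6 * D)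
  have f3 : 12 / δ ^ 2 * (16 * R ^ 2 * ∑ k, m k * ‖b k - a k‖ ^ 2)
      ≤ 12 / δ ^ 2 * (16 * R ^ 2 * (vol K * (cost + ε * (8 * D + 4)))) := by gcongr
  have f4 : (3:ℝ) * ∫ x in K, ‖Tn x - Sn x‖ ^ 2 ≤ 3 * (d * (28 * D ^ 2 * A * δ
      + 12 / δ ^ 2 * (16 * R ^ 2 * (vol K * (cost + ε * (8 * D + 4)))))) := by
    refine mul_le_mul_of_nonneg_left (e3.trans ?_) (by norm_num)
    gcongr
  calc _ ≤ _ := hmain
    _ ≤ 6 * D * (d * (4 * D * A * δ + 2 * R * vol K * ε / δ))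
        + 3 * (d * (28 * D ^ 2 * A * δ
          + 12 / δ ^ 2 * (16 * R ^ 2 * (vol K * (cost + ε * (8 * D + 4))))))
        + 6 * D * (d * (4 * D * A * δ + 2 * R * vol K * ε / δ)) :=
      add_le_add (add_le_add f1 f4) f2
    _ = 132 * d * D ^ 2 * A * δ + 576 * d * R ^ 2 * vol K / δ ^ 2 * cost + ε * (Q - 1) := by
      rw [hQ]; field_simp; ring
    _ ≤ _ := by nlinarith

/-- The transport cost between two targets, with the infimum over all couplings. -/
lemma sq_bound [NeZero d] (hK : IsCompact K) (hKc : Convex ℝ K) (hKi : (interior K).Nonempty)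
    (hY : IsCompact Y) : ∃ C : ℝ, 0 ≤ C ∧ ∀ μ ν : Measure (EuclideanSpace ℝ (Fin d)),
      IsProbabilityMeasure μ → μ Yᶜ = 0 → IsProbabilityMeasure ν → ν Yᶜ = 0 →
      ∀ T S : EuclideanSpace ℝ (Fin d) → EuclideanSpace ℝ (Fin d),
        IsOTMap (uniformOn K) μ T → IsOTMap (uniformOn K) ν S →
        ∃ w : ℝ, 0 ≤ w ∧ W2 μ ν = ENNReal.ofReal w ^ (1 / 2 : ℝ) ∧
          IntegrableOn (fun x => ‖T x - S x‖ ^ 2) K ∧
          ∫ x in K, ‖T x - S x‖ ^ 2 ≤ C * w ^ (1 / 3 : ℝ) := by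
  have hΛ : 0 < vol K := by
    refine ENNReal.toReal_pos ?_ hK.measure_lt_top.ne
    exact (Measure.measure_pos_of_nonempty_interior _ hKi).ne'
  obtain ⟨R₁, hR₁⟩ := hK.isBounded.exists_norm_le
  obtain ⟨R₂, hR₂⟩ := hY.isBounded.exists_norm_le
  set R := max R₁ 0
  set D := max R₂ 0 + 1
  have hR0 : 0 ≤ R := le_max_right _ _
  have hR : ∀ x ∈ K, ‖x‖ ≤ R := fun x hx => (hR₁ x hx).trans (le_max_left _ _)
  have hYD : ∀ y ∈ Y, ‖y‖ + 1 ≤ D := fun y hy =>
    add_le_add ((hR₂ y hy).trans (le_max_left _ _)) le_rfl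
  have hD : 0 ≤ D := by positivity
  obtain ⟨A, r, hA0, hr, hA⟩ := exists_boundary_layer hK hKc hKi
  set C1 := 132 * d * D ^ 2 * A with hC1d
  set C2 := 576 * d * R ^ 2 * vol K with hC2d
  have hC1 : 0 ≤ C1 := by positivity
  have hC2 : 0 ≤ C2 := by positivity
  refine ⟨C1 + C2 + 4 * D ^ 2 * vol K / r, by positivity,
    fun μ ν hμP hμ hνP hν T S hT hS => ?_⟩
  set I := ⨅ (π : Measure (EuclideanSpace ℝ (Fin d) × EuclideanSpace ℝ (Fin d)))
    (_ : π.map Prod.fst = μ ∧ π.map Prod.snd = ν),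
    ∫⁻ p, ENNReal.ofReal (‖p.1 - p.2‖ ^ 2) ∂π with hI
  have hle4 : ∀ {π : Measure (EuclideanSpace ℝ (Fin d) × EuclideanSpace ℝ (Fin d))},
      π.map Prod.fst = μ → π.map Prod.snd = ν →
      ∀ᵐ p ∂π, ‖p.1 - p.2‖ ^ 2 ≤ (2 * D) ^ 2 := by
    intro π h1 h2
    have e1 : ∀ᵐ p ∂π, p.1 ∈ Y := by
      refine ae_of_ae_map measurable_fst.aemeasurable ?_
      rw [h1, ae_iff]; exact hμ
    have e2 : ∀ᵐ p ∂π, p.2 ∈ Y := by
      refine ae_of_ae_map measurable_snd.aemeasurable ?_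
      rw [h2, ae_iff]; exact hν
    filter_upwards [e1, e2] with p h3 h4
    exact pow_le_pow_left₀ (norm_nonneg _)
      ((norm_sub_le _ _).trans (by linarith [hYD _ h3, hYD _ h4])) 2
  have hItop : I ≠ ⊤ := by
    have p1 : (μ.prod ν).map Prod.fst = μ := by simp
    have p2 : (μ.prod ν).map Prod.snd = ν := by simp
    refine ne_top_of_le_ne_top (b := ENNReal.ofReal ((2 * D) ^ 2)) ENNReal.ofReal_ne_top ?_
    refine (iInf₂_le (μ.prod ν) ⟨p1, p2⟩).trans ?_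
    refine (lintegral_mono_ae ((hle4 p1 p2).mono fun p hp => ENNReal.ofReal_le_ofReal hp)).trans ?_
    simp
  set w := I.toReal with hwd
  have hw : 0 ≤ w := ENNReal.toReal_nonneg
  have hTS : ∀ᵐ x ∂(volume.restrict K), ‖T x - S x‖ ^ 2 ≤ (2 * D) ^ 2 := by
    have hT' := ot_facts hK R hR hΛ hY hYD hμ hT (π := μ.prod ν) measurable_fst (by simp)
    have hS' := ot_facts hK R hR hΛ hY hYD hν hS (π := μ.prod ν) measurable_snd (by simp)
    filter_upwards [hT'.1, hS'.1] with x hx hx'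
    exact pow_le_pow_left₀ (norm_nonneg _) ((norm_sub_le _ _).trans (by linarith)) 2
  have hint : IntegrableOn (fun x => ‖T x - S x‖ ^ 2) K :=
    integrableOn_of_bound hK ((hT.1.sub hS.1).norm.pow_const 2) (C := (2 * D) ^ 2)
      (hTS.mono fun x hx => by rwa [abs_of_nonneg (sq_nonneg _)])
  refine ⟨w, hw, by rw [W2, ← hI, hwd, ENNReal.ofReal_toReal hItop], hint, ?_⟩
  have key : ∀ δ, 0 < δ → δ ≤ r →
      ∫ x in K, ‖T x - S x‖ ^ 2 ≤ C1 * δ + C2 / δ ^ 2 * w := by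
    intro δ hδ hδr
    refine le_of_forall_pos_le_add fun η hη => ?_
    set η' := η / (C2 / δ ^ 2 + 1) with hη'd
    have hη' : 0 < η' := by positivity
    have hlt : I < ENNReal.ofReal (w + η') := by
      rw [ENNReal.lt_ofReal_iff_toReal_lt hItop]; linarith
    rw [hI, iInf_lt_iff] at hlt
    obtain ⟨π, hlt⟩ := hlt
    rw [iInf_lt_iff] at hlt
    obtain ⟨⟨h1, h2⟩, hlt⟩ := hlt
    have hc := coupling_bound hK hKc hKi R hR0 hR hΛ hr hA hY hD hYD hμ hν hT hS h1 h2 hδ hδr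
    have hcost : ∫ p, ‖p.1 - p.2‖ ^ 2 ∂π ≤ w + η' := by
      rw [integral_eq_lintegral_of_nonneg_ae (Eventually.of_forall fun _ => sq_nonneg _)
        (by fun_prop)]
      calc _ ≤ (ENNReal.ofReal (w + η')).toReal :=
            ENNReal.toReal_mono ENNReal.ofReal_ne_top hlt.le
        _ = w + η' := ENNReal.toReal_ofReal (by positivity)
    have hne : C2 / δ ^ 2 * η' ≤ η := by
      calc C2 / δ ^ 2 * η' ≤ (C2 / δ ^ 2 + 1) * η' := by gcongr; linarith
        _ = η := by rw [hη'd]; field_simp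
    have := mul_le_mul_of_nonneg_left hcost (by positivity : (0:ℝ) ≤ C2 / δ ^ 2)
    linarith
  set s := w ^ (1 / 3 : ℝ) with hsd
  have hs0 : 0 ≤ s := Real.rpow_nonneg hw _
  rcases hw.eq_or_lt with hw0 | hwpos
  · refine le_of_forall_pos_le_add fun η hη => ?_
    have hδ : 0 < min r (η / (C1 + 1)) := by positivity
    have h := key _ hδ (min_le_left _ _)
    rw [← hw0, mul_zero, add_zero] at h
    have h' : C1 * min r (η / (C1 + 1)) ≤ η := by
      calc _ ≤ (C1 + 1) * (η / (C1 + 1)) := by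
            gcongr
            · linarith
            · exact min_le_right _ _
        _ = η := by field_simp
    have : 0 ≤ (C1 + C2 + 4 * D ^ 2 * vol K / r) * s := by positivity
    linarith
  have hspos : 0 < s := Real.rpow_pos_of_pos hwpos _
  by_cases hsr : s ≤ r
  · have h3 : w = s ^ 3 := by
      rw [hsd, ← Real.rpow_natCast, ← Real.rpow_mul hw]
      norm_num
    have h := key s hspos hsr
    have e : C1 * s + C2 / s ^ 2 * w = (C1 + C2) * s := by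
      rw [h3]; field_simp
    rw [e] at h
    have : 0 ≤ 4 * D ^ 2 * vol K / r * s := by positivity
    linarith
  · have h : ∫ x in K, ‖T x - S x‖ ^ 2 ≤ ∫ _x in K, (2 * D) ^ 2 :=
      integral_mono_ae hint (continuous_const.continuousOn.integrableOn_compact hK) hTS
    rw [setIntegral_const, smul_eq_mul, measureReal_def, ← show vol K = (volume K).toReal from rfl] at h
    have e : 4 * D ^ 2 * vol K ≤ 4 * D ^ 2 * vol K / r * s := by
      rw [div_mul_eq_mul_div, le_div_iff₀ hr]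
      exact mul_le_mul_of_nonneg_left (not_le.1 hsr).le (by positivity)
    have : 0 ≤ (C1 + C2) * s := by positivity
    linarith

/-- The exponent `1/3` is admissible in every positive dimension. -/
theorem admissible_third [NeZero d] : Admissible d (1 / 3) := by
  intro K hK hKc hKi Y hY _
  obtain ⟨C, hC, hb⟩ := sq_bound hK hKc hKi hY
  have hv : volume K ≠ 0 := (Measure.measure_pos_of_nonempty_interior _ hKi).ne'
  have hΛ : 0 < vol K := ENNReal.toReal_pos hv hK.measure_lt_top.ne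
  refine ⟨Real.toNNReal (((vol K)⁻¹ * C) ^ (1 / 2 : ℝ)), fun μ ν hμP hμ hνP hν T S hT hS => ?_⟩
  obtain ⟨w, hw, hW, hint, hle⟩ := hb μ ν hμP hμ hνP hν T S hT hS
  rw [eLpNorm_eq_lintegral_rpow_enorm_toReal two_ne_zero ENNReal.ofNat_ne_top, hW]
  have hint' : Integrable (fun x => ‖T x - S x‖ ^ 2) (uniformOn K) :=
    hint.smul_measure (ENNReal.inv_ne_top.2 hv)
  have e : ∫⁻ x, ‖(T - S) x‖ₑ ^ (2 : ℝ≥0∞).toReal ∂(uniformOn K)
      = ENNReal.ofReal ((vol K)⁻¹ * ∫ x in K, ‖T x - S x‖ ^ 2) := by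
    rw [← integral_uniformOn, ofReal_integral_eq_lintegral_ofReal hint'
      (Eventually.of_forall fun _ => sq_nonneg _)]
    refine lintegral_congr fun x => ?_
    rw [ENNReal.ofReal_pow (norm_nonneg _), ofReal_norm, Pi.sub_apply, ENNReal.toReal_ofNat,
      ← Nat.cast_ofNat (R := ℝ), ENNReal.rpow_natCast]
  rw [e, ENNReal.toReal_ofNat]
  have h0 : 0 ≤ ∫ x in K, ‖T x - S x‖ ^ 2 := integral_nonneg fun _ => sq_nonneg _
  rw [ENNReal.ofReal_rpow_of_nonneg (mul_nonneg (inv_nonneg.2 hΛ.le) h0) (by norm_num),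
    ← ENNReal.rpow_mul, ENNReal.ofReal_rpow_of_nonneg hw (by norm_num), ← ENNReal.ofReal.eq_def,
    ← ENNReal.ofReal_mul (by positivity)]
  refine ENNReal.ofReal_le_ofReal ?_
  calc ((vol K)⁻¹ * ∫ x in K, ‖T x - S x‖ ^ 2) ^ (1 / 2 : ℝ)
      ≤ ((vol K)⁻¹ * C * w ^ (1 / 3 : ℝ)) ^ (1 / 2 : ℝ) := by
        refine Real.rpow_le_rpow (mul_nonneg (inv_nonneg.2 hΛ.le) h0) ?_ (by norm_num)
        rw [mul_assoc]
        exact mul_le_mul_of_nonneg_left hle (inv_nonneg.2 hΛ.le)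
    _ = _ := by
        rw [Real.mul_rpow (by positivity) (by positivity), ← Real.rpow_mul hw]
        norm_num

end Vale.Agent.P074
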