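import Mathlib

namespace Vale.Agent.P074

open MeasureTheory Set Filter
open scoped ENNReal NNReal Pointwise Topology

/-- One-dimensional Brunn-Minkowski for compact sets, midpoint form. -/
lemma bm_compact {A B : Set ℝ} (hA : IsCompact A) (hB : IsCompact B) (hA0 : A.Nonempty)
    (hB0 : B.Nonempty) {Z : Set ℝ} (hZ : ∀ a ∈ A, ∀ b ∈ B, (a + b) / 2 ∈ Z) :
    volume A + volume B ≤ 2 * volume Z := by
  set a₁ := sSup A
  set b₀ := sInf B
  have ha : a₁ ∈ A := hA.sSup_mem hA0
  have hb : b₀ ∈ B := hB.sInf_mem hB0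
  set A' := (fun x => (x + b₀) / 2) '' A
  set B' := (fun y => (a₁ + y) / 2) '' B
  have hsub : A' ∪ B' ⊆ Z := by
    rintro _ (⟨x, hx, rfl⟩ | ⟨y, hy, rfl⟩)
    · exact hZ x hx b₀ hb
    · exact hZ a₁ ha y hy
  have hA' : IsCompact A' := hA.image (by fun_prop)
  have hB' : IsCompact B' := hB.image (by fun_prop)
  have hnull : volume (A' ∩ B') = 0 := by
    refine measure_mono_null (fun z hz => ?_) (measure_singleton ((a₁ + b₀) / 2))
    obtain ⟨⟨x, hx, rfl⟩, y, hy, hxy⟩ := hz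
    have h1 : x ≤ a₁ := le_csSup hA.bddAbove hx
    have h2 : b₀ ≤ y := csInf_le hB.bddBelow hy
    simp only [Set.mem_singleton_iff]
    linarith
  have hu := measure_union_add_inter (μ := volume) A' hB'.isClosed.measurableSet
  rw [hnull, add_zero] at hu
  have hvol : ∀ (c : ℝ) (S : Set ℝ),
      volume ((fun x => (x + c) / 2) '' S) = ENNReal.ofReal (1 / 2) * volume S := by
    intro c S
    have e : (fun x => (x + c) / 2) '' S = (fun z : ℝ => 2 * z) ⁻¹' ((fun w => w + -c) ⁻¹' S) := by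
      ext z
      constructor
      · rintro ⟨x, hx, rfl⟩
        show 2 * ((x + c) / 2) + -c ∈ S
        rwa [show 2 * ((x + c) / 2) + -c = x by ring]
      · intro hz
        exact ⟨2 * z + -c, hz, by ring⟩
    rw [e, Real.volume_preimage_mul_left two_ne_zero, measure_preimage_add_right,
      abs_of_pos (by norm_num : (0:ℝ) < (2:ℝ)⁻¹), one_div]
  have h1 : volume A' = ENNReal.ofReal (1 / 2) * volume A := hvol b₀ A
  have h2 : volume B' = ENNReal.ofReal (1 / 2) * volume B := by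
    have : B' = (fun y => (y + a₁) / 2) '' B := by simp only [B']; simp_rw [add_comm a₁]
    rw [this, hvol]
  calc volume A + volume B
      = 2 * (volume A' + volume B') := by
        rw [h1, h2, ← mul_add, ← mul_assoc, ← ENNReal.ofReal_ofNat,
          ← ENNReal.ofReal_mul (by norm_num)]
        norm_num
    _ = 2 * volume (A' ∪ B') := by rw [hu]
    _ ≤ 2 * volume Z := by gcongr

lemma bm_measurable {A B : Set ℝ} (hA : MeasurableSet A) (hB : MeasurableSet B) (hA0 : A.Nonempty)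
    (hB0 : B.Nonempty) {Z : Set ℝ} (hZ : ∀ a ∈ A, ∀ b ∈ B, (a + b) / 2 ∈ Z) :
    volume A + volume B ≤ 2 * volume Z := by
  obtain ⟨a, ha⟩ := hA0
  obtain ⟨b, hb⟩ := hB0
  rw [hA.measure_eq_iSup_isCompact, hB.measure_eq_iSup_isCompact]
  simp only [iSup_and']
  rw [iSup_subtype', iSup_subtype']
  haveI : ∀ C : Set ℝ, Nonempty {K : Set ℝ // K ⊆ C ∧ IsCompact K} := fun C =>
    ⟨⟨∅, Set.empty_subset _, isCompact_empty⟩⟩
  rw [ENNReal.iSup_add]
  refine iSup_le fun ⟨K, hK⟩ => ?_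
  rw [ENNReal.add_iSup]
  refine iSup_le fun ⟨L, hL⟩ => ?_
  refine le_trans (add_le_add (measure_mono (Set.subset_insert a K))
    (measure_mono (Set.subset_insert b L))) ?_
  refine bm_compact (hK.2.insert a) (hL.2.insert b) (Set.insert_nonempty _ _)
    (Set.insert_nonempty _ _) (fun x hx y hy => hZ x ?_ y ?_)
  · rcases hx with rfl | hx; exacts [ha, hK.1 hx]
  · rcases hy with rfl | hy; exacts [hb, hL.1 hy]

lemma pl_one_real {f g h : ℝ → ℝ} (hf : Measurable f) (hg : Measurable g) (hh : Measurable h)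
    (hf0 : ∀ x, 0 ≤ f x) (hg0 : ∀ x, 0 ≤ g x) (hh0 : ∀ x, 0 ≤ h x) (M : ℝ)
    (hfM : ∀ x, f x ≤ M) (hgM : ∀ x, g x ≤ M)
    (hfg : ∀ x y, f x * g y ≤ h ((x + y) / 2) ^ 2) :
    (∫⁻ x, ENNReal.ofReal (f x)) * (∫⁻ x, ENNReal.ofReal (g x))
      ≤ (∫⁻ x, ENNReal.ofReal (h x)) ^ 2 := by
  set a := ⨆ x, f x with ha
  set b := ⨆ x, g x with hb
  have hbf : BddAbove (Set.range f) := ⟨M, by rintro _ ⟨x, rfl⟩; exact hfM x⟩
  have hbg : BddAbove (Set.range g) := ⟨M, by rintro _ ⟨x, rfl⟩; exact hgM x⟩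
  rcases eq_or_lt_of_le (show 0 ≤ a from (hf0 0).trans (le_ciSup hbf 0)) with ha0 | ha0
  · have : ∀ x, f x = 0 := fun x => le_antisymm (ha0 ▸ le_ciSup hbf x) (hf0 x)
    simp [this]
  rcases eq_or_lt_of_le (show 0 ≤ b from (hg0 0).trans (le_ciSup hbg 0)) with hb0 | hb0
  · have : ∀ x, g x = 0 := fun x => le_antisymm (hb0 ▸ le_ciSup hbg x) (hg0 x)
    simp [this]
  set c := Real.sqrt (a * b) with hc
  have hc0 : 0 < c := Real.sqrt_pos.2 (mul_pos ha0 hb0)
  have hc2 : c ^ 2 = a * b := Real.sq_sqrt (mul_pos ha0 hb0).le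
  have lc : ∀ (k : ℝ → ℝ) (s : ℝ), Measurable k → (∀ x, 0 ≤ k x) → 0 < s →
      ∫⁻ t in Ioi (0:ℝ), volume {x | t < k x / s}
        = ENNReal.ofReal s⁻¹ * ∫⁻ x, ENNReal.ofReal (k x) := by
    intro k s hk hk0 hs
    rw [← lintegral_eq_lintegral_meas_lt volume
        (Eventually.of_forall fun x => div_nonneg (hk0 x) hs.le) (hk.div_const s).aemeasurable,
      ← lintegral_const_mul _ hk.ennreal_ofReal]
    refine lintegral_congr fun x => ?_
    rw [← ENNReal.ofReal_mul (inv_nonneg.2 hs.le), mul_comm, div_eq_mul_inv]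
  have hpt : ∀ t ∈ Ioi (0:ℝ), volume {x | t < f x / a} + volume {x | t < g x / b}
      ≤ 2 * volume {x | t < h x / c} := by
    intro t ht
    rcases lt_or_ge t 1 with ht1 | ht1
    · refine bm_measurable (measurableSet_lt measurable_const (hf.div_const a))
        (measurableSet_lt measurable_const (hg.div_const b)) ?_ ?_ ?_
      · obtain ⟨x, hx⟩ := exists_lt_of_lt_ciSup (show t * a < ⨆ x, f x from
          mul_lt_of_lt_one_left ha0 ht1)
        exact ⟨x, show t < f x / a from (lt_div_iff₀ ha0).2 hx⟩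
      · obtain ⟨x, hx⟩ := exists_lt_of_lt_ciSup (show t * b < ⨆ x, g x from
          mul_lt_of_lt_one_left hb0 ht1)
        exact ⟨x, show t < g x / b from (lt_div_iff₀ hb0).2 hx⟩
      · intro x hx y hy
        simp only [Set.mem_setOf_eq] at hx hy ⊢
        rw [lt_div_iff₀ ha0] at hx
        rw [lt_div_iff₀ hb0] at hy
        rw [lt_div_iff₀ hc0]
        refine lt_of_pow_lt_pow_left₀ 2 (hh0 _) (lt_of_lt_of_le ?_ (hfg x y))
        rw [mul_pow, hc2]
        calc t ^ 2 * (a * b) = (t * a) * (t * b) := by ring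
          _ < f x * g y := mul_lt_mul'' hx hy (mul_pos ht ha0).le (mul_pos ht hb0).le
    · have e1 : {x | t < f x / a} = ∅ := Set.eq_empty_of_forall_notMem fun x hx => by
        have := (div_le_one ha0).2 (le_ciSup hbf x)
        exact absurd (show t < f x / a from hx) (by linarith)
      have e2 : {x | t < g x / b} = ∅ := Set.eq_empty_of_forall_notMem fun x hx => by
        have := (div_le_one hb0).2 (le_ciSup hbg x)
        exact absurd (show t < g x / b from hx) (by linarith)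
      simp [e1, e2]
  have hsum : ENNReal.ofReal a⁻¹ * (∫⁻ x, ENNReal.ofReal (f x))
      + ENNReal.ofReal b⁻¹ * (∫⁻ x, ENNReal.ofReal (g x))
      ≤ 2 * (ENNReal.ofReal c⁻¹ * ∫⁻ x, ENNReal.ofReal (h x)) := by
    rw [← lc f a hf hf0 ha0, ← lc g b hg hg0 hb0, ← lc h c hh hh0 hc0,
      ← lintegral_add_left' ?_, ← lintegral_const_mul' _ _ ENNReal.ofNat_ne_top]
    · exact setLIntegral_mono' measurableSet_Ioi hpt
    · exact (Antitone.measurable (fun s t hst =>
        measure_mono fun x (hx : t < f x / a) => lt_of_le_of_lt hst hx)).aemeasurable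
  generalize (∫⁻ x, ENNReal.ofReal (f x)) = F at *
  generalize (∫⁻ x, ENNReal.ofReal (g x)) = G at *
  generalize (∫⁻ x, ENNReal.ofReal (h x)) = H at *
  rcases eq_or_ne H ⊤ with hH | hH
  · simp [hH]
  have hfin := lt_of_le_of_lt hsum (ENNReal.mul_lt_top ENNReal.ofNat_lt_top
    (ENNReal.mul_lt_top ENNReal.ofReal_lt_top hH.lt_top))
  rw [ENNReal.add_lt_top] at hfin
  have hF : F ≠ ⊤ := fun e => by
    rw [e, ENNReal.mul_top (by simpa using inv_pos.2 ha0)] at hfin
    exact lt_irrefl _ hfin.1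
  have hG : G ≠ ⊤ := fun e => by
    rw [e, ENNReal.mul_top (by simpa using inv_pos.2 hb0)] at hfin
    exact lt_irrefl _ hfin.2
  lift F to ℝ≥0 using hF
  lift G to ℝ≥0 using hG
  lift H to ℝ≥0 using hH
  have hr := (ENNReal.toReal_le_toReal (hfin.1.trans_le le_rfl |> fun h1 =>
    (ENNReal.add_lt_top.2 ⟨h1, hfin.2⟩).ne) (by finiteness)).2 hsum
  rw [ENNReal.toReal_add hfin.1.ne hfin.2.ne] at hr
  simp [ENNReal.toReal_mul, ENNReal.toReal_ofReal (inv_nonneg.2 ha0.le),
    ENNReal.toReal_ofReal (inv_nonneg.2 hb0.le), ENNReal.toReal_ofReal (inv_nonneg.2 hc0.le)] at hr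
  have key : (F : ℝ) * G ≤ (H : ℝ) ^ 2 := by
    have e1 : (F : ℝ) = a * (a⁻¹ * F) := by field_simp
    have e2 : (G : ℝ) = b * (b⁻¹ * G) := by field_simp
    have e3 : (H : ℝ) ^ 2 = a * b * (c⁻¹ * H) ^ 2 := by rw [← hc2]; field_simp
    rw [e1, e2, e3, show a * (a⁻¹ * (F:ℝ)) * (b * (b⁻¹ * G)) = a * b * ((a⁻¹ * F) * (b⁻¹ * G)) by ring]
    refine mul_le_mul_of_nonneg_left ?_ (mul_pos ha0 hb0).le
    have p1 : 0 ≤ a⁻¹ * (F:ℝ) := by positivity
    have p2 : 0 ≤ b⁻¹ * (G:ℝ) := by positivity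
    nlinarith [sq_nonneg (a⁻¹ * (F:ℝ) - b⁻¹ * G)]
  exact_mod_cast key

lemma pl_one {f g h : ℝ → ℝ≥0∞} (hf : Measurable f) (hg : Measurable g) (hh : Measurable h)
    (hfg : ∀ x y, f x * g y ≤ h ((x + y) / 2) ^ 2) :
    (∫⁻ x, f x) * (∫⁻ x, g x) ≤ (∫⁻ x, h x) ^ 2 := by
  have hsup : ∀ k : ℝ → ℝ≥0∞, Measurable k → ∫⁻ x, k x = ⨆ n : ℕ, ∫⁻ x, min (k x) n := by
    intro k hk
    rw [← lintegral_iSup (fun n => hk.min measurable_const)
      (fun m n hmn x => min_le_min le_rfl (by exact_mod_cast hmn))]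
    refine lintegral_congr fun x => ?_
    change k x = ⨆ n : ℕ, k x ⊓ (n : ℝ≥0∞)
    rw [← inf_iSup_eq, ENNReal.iSup_natCast, inf_top_eq]
  rw [hsup f hf, hsup g hg]
  have mono : ∀ k : ℝ → ℝ≥0∞, Monotone fun n : ℕ => ∫⁻ x, min (k x) n := fun k m n hmn =>
    lintegral_mono fun x => min_le_min le_rfl (by exact_mod_cast hmn)
  rw [ENNReal.iSup_mul]
  refine iSup_le fun i => ?_
  rw [ENNReal.mul_iSup]
  refine iSup_le fun j => ?_
  refine le_trans (mul_le_mul' (mono f (le_max_left i j)) (mono g (le_max_right i j))) ?_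
  generalize max i j = n
  refine le_trans ?_ (pow_le_pow_left' (lintegral_mono fun x =>
    (min_le_left (h x) (n : ℝ≥0∞))) 2)
  have hne : ∀ (k : ℝ → ℝ≥0∞) x, min (k x) (n : ℝ≥0∞) ≠ ⊤ := fun k x =>
    ne_top_of_le_ne_top (ENNReal.natCast_ne_top n) (min_le_right _ _)
  have hof : ∀ k : ℝ → ℝ≥0∞, ∫⁻ x, min (k x) n
      = ∫⁻ x, ENNReal.ofReal (min (k x) (n : ℝ≥0∞)).toReal := fun k =>
    lintegral_congr fun x => (ENNReal.ofReal_toReal (hne k x)).symm
  beta_reduce
  rw [hof f, hof g, hof h]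
  refine pl_one_real (hf.min measurable_const).ennreal_toReal
    (hg.min measurable_const).ennreal_toReal (hh.min measurable_const).ennreal_toReal
    (fun _ => ENNReal.toReal_nonneg) (fun _ => ENNReal.toReal_nonneg)
    (fun _ => ENNReal.toReal_nonneg) n
    (fun x => by simpa using ENNReal.toReal_mono (ENNReal.natCast_ne_top n) (min_le_right (f x) _))
    (fun x => by simpa using ENNReal.toReal_mono (ENNReal.natCast_ne_top n) (min_le_right (g x) _))
    (fun x y => ?_)
  rw [← ENNReal.toReal_mul, ← ENNReal.toReal_pow]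
  refine ENNReal.toReal_mono (ENNReal.pow_ne_top (hne h _)) ?_
  rcases le_total (h ((x + y) / 2)) (n : ℝ≥0∞) with hle | hle
  · rw [min_eq_left hle]
    exact (mul_le_mul' (min_le_left _ _) (min_le_left _ _)).trans (hfg x y)
  · rw [min_eq_right hle, sq]
    exact mul_le_mul' (min_le_right _ _) (min_le_right _ _)

/-- Prekopa-Leindler inequality at `λ = 1/2`. -/
theorem prekopa_leindler : ∀ (d : ℕ) {f g h : (Fin d → ℝ) → ℝ≥0∞}, Measurable f → Measurable g →
    Measurable h → (∀ x y, f x * g y ≤ h ((1 / 2 : ℝ) • (x + y)) ^ 2) →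
    (∫⁻ x, f x) * (∫⁻ x, g x) ≤ (∫⁻ x, h x) ^ 2 := by
  intro d
  induction d with
  | zero =>
    intro f g h _ _ _ hfg
    have h0 : (volume : Measure (Fin 0 → ℝ)) = Measure.dirac default := by
      rw [volume_pi]; exact Measure.pi_of_empty _ _
    simp only [h0, lintegral_dirac]
    have := hfg default default
    rwa [Subsingleton.elim ((1 / 2 : ℝ) • (default + default : Fin 0 → ℝ)) default] at this
  | succ d ih =>
    intro f g h hf hg hh hfg
    set e := MeasurableEquiv.piFinSuccAbove (fun _ : Fin (d + 1) => ℝ) 0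
    have hslice : ∀ k : (Fin (d + 1) → ℝ) → ℝ≥0∞, Measurable k →
        ∫⁻ z, k z = ∫⁻ s : ℝ, ∫⁻ x : Fin d → ℝ, k (e.symm (s, x)) := by
      intro k hk
      rw [← ((volume_preserving_piFinSuccAbove (fun _ : Fin (d + 1) => ℝ) 0).symm).lintegral_comp hk,
        Measure.volume_eq_prod]
      exact lintegral_prod _ (hk.comp e.symm.measurable).aemeasurable
    rw [hslice f hf, hslice g hg, hslice h hh]
    have hme : ∀ k : (Fin (d + 1) → ℝ) → ℝ≥0∞, Measurable k →
        Measurable (fun s : ℝ => ∫⁻ x : Fin d → ℝ, k (e.symm (s, x))) := fun k hk =>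
      (hk.comp e.symm.measurable).lintegral_prod_right'
    refine pl_one (hme f hf) (hme g hg) (hme h hh) (fun s t => ?_)
    refine ih (hf.comp (e.symm.measurable.comp (measurable_const.prodMk measurable_id)))
      (hg.comp (e.symm.measurable.comp (measurable_const.prodMk measurable_id)))
      (hh.comp (e.symm.measurable.comp (measurable_const.prodMk measurable_id))) (fun x y => ?_)
    refine (hfg _ _).trans (le_of_eq ?_)
    congr 2
    funext i
    simp only [e, MeasurableEquiv.piFinSuccAbove_symm_apply, Fin.insertNth_zero, Pi.smul_apply,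
      Pi.add_apply, smul_eq_mul]
    refine Fin.cases ?_ (fun j => ?_) i
    · simp; ring
    · simp; ring

end Vale.Agent.P074
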