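import Vale.Agent.P074.Dual

namespace Vale.Agent.P074

open MeasureTheory Set Filter
open scoped ENNReal NNReal RealInnerProductSpace Topology

variable {d : ℕ} {ι : Type*} [Fintype ι] [Nonempty ι]
variable {K : Set (EuclideanSpace ℝ (Fin d))}

lemma inner_bary_le (hK : IsCompact K) (hKc : Convex ℝ K) (R : ℝ) (hR0 : 0 ≤ R)
    (hR : ∀ x ∈ K, ‖x‖ ≤ R) {y : ι → EuclideanSpace ℝ (Fin d)} (hy : Function.Injective y)
    {m m' : ι → ℝ} (hm : ∀ k, 0 < m k) (hm' : ∀ k, 0 < m' k) (hms : ∑ k, m k = vol K)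
    (hms' : ∑ k, m' k = vol K) {ψ ψ' : ι → ℝ} (hψ : IsMin K y m ψ) (hψ' : IsMin K y m' ψ')
    (v : ι → EuclideanSpace ℝ (Fin d)) :
    ∑ k, ⟪v k, bary (cell K y ψ' k) - bary (cell K y ψ k)⟫
      ≤ R * Real.sqrt ((∑ k, (m k + m' k) * ‖v k‖ ^ 2)
          * ∑ k, (m' k - m k) ^ 2 / (m k + m' k)) := by
  have e1 := vol_cell_eq hK hy hms hψ
  have e2 := vol_cell_eq hK hy hms' hψ'
  have h := bary_lipschitz hK hKc R hR hy ψ (ψ := ψ') (fun k => by rw [e2]; exact hm' k)
    (fun k => by rw [e1]; exact hm k)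
  simp only [e1, e2] at h
  set N := fun k => ‖bary (cell K y ψ' k) - bary (cell K y ψ k)‖
  have hS : ∀ k, 0 < m k + m' k := fun k => add_pos (hm k) (hm' k)
  have hCS := Finset.sum_mul_sq_le_sq_mul_sq Finset.univ
    (fun k => Real.sqrt (m k + m' k) * ‖v k‖) (fun k => N k / Real.sqrt (m k + m' k))
  have c1 : ∀ k, Real.sqrt (m k + m' k) * ‖v k‖ * (N k / Real.sqrt (m k + m' k)) = ‖v k‖ * N k :=
    fun k => by have := Real.sqrt_pos.2 (hS k); field_simp
  have c2 : ∀ k, (Real.sqrt (m k + m' k) * ‖v k‖) ^ 2 = (m k + m' k) * ‖v k‖ ^ 2 :=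
    fun k => by rw [mul_pow, Real.sq_sqrt (hS k).le]
  have c3 : ∀ k, (N k / Real.sqrt (m k + m' k)) ^ 2 = N k ^ 2 / (m' k + m k) :=
    fun k => by rw [div_pow, Real.sq_sqrt (hS k).le, add_comm]
  simp only [c1, c2, c3] at hCS
  refine le_trans (Finset.sum_le_sum fun k _ => real_inner_le_norm _ _) ?_
  set A := ∑ k, (m k + m' k) * ‖v k‖ ^ 2
  set E := ∑ k, (m' k - m k) ^ 2 / (m k + m' k)
  have hE : ∑ k, (m' k - m k) ^ 2 / (m' k + m k) = E :=
    Finset.sum_congr rfl fun k _ => by rw [add_comm (m' k)]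
  rw [hE] at h
  have hA : 0 ≤ A := Finset.sum_nonneg fun k _ => mul_nonneg (hS k).le (sq_nonneg _)
  have h2 : (∑ k, ‖v k‖ * N k) ^ 2 ≤ R ^ 2 * (A * E) := by
    refine hCS.trans ((mul_le_mul_of_nonneg_left h hA).trans (le_of_eq ?_)); ring
  calc ∑ k, ‖v k‖ * N k ≤ Real.sqrt (R ^ 2 * (A * E)) := Real.le_sqrt_of_sq_le h2
    _ = R * Real.sqrt (A * E) := by rw [Real.sqrt_mul (sq_nonneg R), Real.sqrt_sq hR0]

lemma abs_inner_bary_le (hK : IsCompact K) (R : ℝ) (hR : ∀ x ∈ K, ‖x‖ ≤ R)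
    {P : Set (EuclideanSpace ℝ (Fin d))} (hP : P ⊆ K) (w : EuclideanSpace ℝ (Fin d)) :
    |⟪w, bary P⟫| ≤ ‖w‖ * (R * vol P) :=
  (abs_real_inner_le_norm _ _).trans (mul_le_mul_of_nonneg_left
    (norm_setIntegral_le_of_norm_le_const (volume_lt_top_of_subset hK hP)
      (fun x hx => hR x (hP hx))) (norm_nonneg _))

/-- Mixed second difference of the optimal values along an injective path of sites. -/
lemma mixed_diff_le (hK : IsCompact K) (hKc : Convex ℝ K) (R D : ℝ) (hR0 : 0 ≤ R)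
    (hR : ∀ x ∈ K, ‖x‖ ≤ R) {a b : ι → EuclideanSpace ℝ (Fin d)} (ha : Function.Injective a)
    (hb : Function.Injective b) (haD : ∀ k, ‖a k‖ ≤ D) (hbD : ∀ k, ‖b k‖ ≤ D)
    {m m' : ι → ℝ} (hm : ∀ k, 0 < m k) (hm' : ∀ k, 0 < m' k) (hms : ∑ k, m k = vol K)
    (hms' : ∑ k, m' k = vol K) {ψa χa ψb χb : ι → ℝ} (h1 : IsMin K a m ψa) (h2 : IsMin K a m' χa)
    (h3 : IsMin K b m ψb) (h4 : IsMin K b m' χb) :
    (dual K b m' χb - dual K b m ψb) - (dual K a m' χa - dual K a m ψa)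
      ≤ R * Real.sqrt ((∑ k, (m k + m' k) * ‖b k - a k‖ ^ 2)
          * ∑ k, (m' k - m k) ^ 2 / (m k + m' k)) := by
  classical
  set v := fun k => b k - a k with hv
  set C := R * Real.sqrt ((∑ k, (m k + m' k) * ‖b k - a k‖ ^ 2)
    * ∑ k, (m' k - m k) ^ 2 / (m k + m' k)) with hC
  set Y : ℝ → ι → EuclideanSpace ℝ (Fin d) := fun s k => a k + s • v k with hY
  set Bad := ⋃ k : ι, ⋃ l : ι, {s : ℝ | k ≠ l ∧ Y s k = Y s l} with hBad
  have hfin : Bad.Finite := by
    refine Set.finite_iUnion fun k => Set.finite_iUnion fun l => Set.Subsingleton.finite ?_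
    intro s hs t ht
    have e : ∀ q, Y q k = Y q l → (a k - a l) + q • (v k - v l) = 0 := fun q hq => by
      have : Y q k - Y q l = 0 := sub_eq_zero.2 hq
      rw [← this]; simp only [hY]; rw [smul_sub]; abel
    have e1 := e s hs.2
    have e2 := e t ht.2
    have e3 : (s - t) • (v k - v l) = 0 := by
      rw [sub_smul]
      calc s • (v k - v l) - t • (v k - v l)
          = ((a k - a l) + s • (v k - v l)) - ((a k - a l) + t • (v k - v l)) := by abel
        _ = 0 := by rw [e1, e2, sub_zero]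
    rcases smul_eq_zero.1 e3 with h | h
    · exact sub_eq_zero.1 h
    · rw [h, smul_zero, add_zero, sub_eq_zero] at e1
      exact absurd (ha e1) hs.1
  have hY0 : Y 0 = a := by funext k; simp [hY]
  have hY1 : Y 1 = b := by funext k; simp [hY, hv]
  set X := R * vol K * ∑ k, ‖v k‖ with hX
  -- bound for each number of steps
  suffices ∀ N : ℕ, 0 < N → (dual K b m' χb - dual K b m ψb) - (dual K a m' χa - dual K a m ψa)
      ≤ C + 4 * X / N by
    have lim : Tendsto (fun N : ℕ => C + 4 * X / N) atTop (𝓝 C) := by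
      simpa using (tendsto_const_div_atTop_nhds_zero_nat (4 * X)).const_add C
    exact ge_of_tendsto lim ((eventually_gt_atTop 0).mono this)
  intro N hN
  have hNr : (0:ℝ) < N := by exact_mod_cast hN
  have hex : ∀ n : ℕ, ∃ s : ℝ, ((n : ℝ) - 1/4) / N < s ∧ s < ((n : ℝ) + 1/4) / N ∧ s ∉ Bad := by
    intro n
    obtain ⟨s, hs, hsB⟩ := ((Set.Ioo_infinite (show ((n : ℝ) - 1/4) / N < ((n : ℝ) + 1/4) / N by
      gcongr; linarith)).diff hfin).nonempty
    exact ⟨s, hs.1, hs.2, hsB⟩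
  choose t ht1 ht2 ht3 using hex
  set s : ℕ → ℝ := fun n => if n = 0 then 0 else if n = N then 1 else t n with hs
  have hs0 : s 0 = 0 := if_pos rfl
  have hsN : s N = 1 := by simp [hs, hN.ne']
  have hsb : ∀ n : ℕ, ((n:ℝ) - 1/4) / N < s n ∧ s n < ((n:ℝ) + 1/4) / N := by
    intro n
    simp only [hs]
    split_ifs with e1 e2
    · subst e1; constructor
      · exact div_neg_of_neg_of_pos (by norm_num) hNr
      · exact div_pos (by norm_num) hNr
    · subst e2
      rw [div_lt_iff₀ hNr, lt_div_iff₀ hNr]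
      constructor <;> linarith
    · exact ⟨ht1 n, ht2 n⟩
  have hinj : ∀ n, Function.Injective (Y (s n)) := by
    intro n
    simp only [hs]
    split_ifs with e1 e2
    · rw [hY0]; exact ha
    · rw [hY1]; exact hb
    · intro k l hkl
      by_contra hne
      exact ht3 n (Set.mem_iUnion.2 ⟨k, Set.mem_iUnion.2 ⟨l, hne, hkl⟩⟩)
  have hstep : ∀ n, 0 < s (n + 1) - s n ∧ s (n + 1) - s n ≤ 2 / N := by
    intro n
    obtain ⟨l1, u1⟩ := hsb n
    obtain ⟨l2, u2⟩ := hsb (n + 1)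
    push_cast at l2 u2
    rw [div_lt_iff₀ hNr] at l1 l2
    rw [lt_div_iff₀ hNr] at u1 u2
    constructor
    · by_contra hc
      have := mul_le_mul_of_nonneg_right (not_lt.1 hc) hNr.le
      linarith
    · rw [le_div_iff₀ hNr]; linarith
  have hYD : ∀ n, ∀ k, ‖Y (s n) k‖ ≤ D + |s n| * ‖v k‖ := fun n k => by
    refine (norm_add_le _ _).trans ?_
    rw [norm_smul, Real.norm_eq_abs]
    linarith [haD k]
  obtain ⟨δ, hδ, hδm, hδm'⟩ : ∃ δ, 0 < δ ∧ (∀ k, δ ≤ m k) ∧ ∀ k, δ ≤ m' k := by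
    refine ⟨Finset.univ.inf' Finset.univ_nonempty fun k => min (m k) (m' k),
      (Finset.lt_inf'_iff _).2 fun k _ => lt_min (hm k) (hm' k), fun k => ?_, fun k => ?_⟩
    · exact (Finset.inf'_le _ (Finset.mem_univ k)).trans (min_le_left _ _)
    · exact (Finset.inf'_le _ (Finset.mem_univ k)).trans (min_le_right _ _)
  have hchoose : ∀ (q : ι → ℝ), (∀ k, δ ≤ q k) → ∑ k, q k = vol K → ∀ n : ℕ,
      ∃ z, IsMin K (Y (s n)) q z := by
    intro q hq hqs n
    obtain ⟨z, hz, -⟩ := exists_min (y := Y (s n)) hK R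
      (∑ k, (D + |s n| * ‖v k‖)) hR (fun k => (hYD n k).trans
        (Finset.single_le_sum (f := fun k => D + |s n| * ‖v k‖)
          (fun k _ => (norm_nonneg _).trans (hYD n k)) (Finset.mem_univ k))) δ hδ hq hqs
    exact ⟨z, hz⟩
  choose ψ hψ using hchoose m hδm hms
  choose χ hχ using hchoose m' hδm' hms'
  set P : ℕ → ℝ := fun n => ∑ k, ⟪v k, bary (cell K (Y (s n)) (ψ n) k)⟫ with hP
  set P' : ℕ → ℝ := fun n => ∑ k, ⟪v k, bary (cell K (Y (s n)) (χ n) k)⟫ with hP'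
  set F : ℕ → ℝ := fun n => dual K (Y (s n)) m (ψ n) with hF
  set F' : ℕ → ℝ := fun n => dual K (Y (s n)) m' (χ n) with hF'
  have lin : ∀ (i j : ℕ) (B : ι → EuclideanSpace ℝ (Fin d)),
      ∑ k, ⟪Y (s j) k, B k⟫ = (∑ k, ⟪Y (s i) k, B k⟫) + (s j - s i) * ∑ k, ⟪v k, B k⟫ := by
    intro i j B
    rw [Finset.mul_sum, ← Finset.sum_add_distrib]
    refine Finset.sum_congr rfl fun k _ => ?_
    simp only [hY, inner_add_left, real_inner_smul_left]; ring
  have lo : ∀ i j, F i + (s j - s i) * P i ≤ F j := fun i j => by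
    have := sum_le_dual hK (hinj i) hms (hψ i) (Y (s j)) (ψ j)
    rw [lin i j, ← dual_eq_sum hK (hinj i) hms (hψ i)] at this
    exact this
  have lo' : ∀ i j, F' i + (s j - s i) * P' i ≤ F' j := fun i j => by
    have := sum_le_dual hK (hinj i) hms' (hχ i) (Y (s j)) (χ j)
    rw [lin i j, ← dual_eq_sum hK (hinj i) hms' (hχ i)] at this
    exact this
  have hmono : ∀ n, P n ≤ P (n + 1) := fun n => by
    have a1 := lo n (n + 1)
    have a2 := lo (n + 1) n
    refine le_of_mul_le_mul_left ?_ (hstep n).1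
    linarith
  have hPC : ∀ n, P' n - P n ≤ C := fun n => by
    have := inner_bary_le hK hKc R hR0 hR (hinj n) hm hm' hms hms' (hψ n) (hχ n) v
    simp only [hP', hP, ← Finset.sum_sub_distrib, ← inner_sub_right]
    exact this
  have hG : ∀ n, (F' (n + 1) - F (n + 1)) - (F' n - F n)
      ≤ (s (n + 1) - s n) * C + 2 / N * (P (n + 1) - P n) := fun n => by
    have a1 := lo n (n + 1)
    have a2 := lo' (n + 1) n
    have a3 := mul_le_mul_of_nonneg_left (hPC (n + 1)) (hstep n).1.le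
    have a4 := mul_le_mul_of_nonneg_right (hstep n).2 (sub_nonneg.2 (hmono n))
    linarith
  have hsum := Finset.sum_le_sum (s := Finset.range N) fun n _ => hG n
  rw [Finset.sum_range_sub (fun n => F' n - F n), Finset.sum_add_distrib, ← Finset.sum_mul,
    Finset.sum_range_sub s, ← Finset.mul_sum, Finset.sum_range_sub P, hsN, hs0] at hsum
  have hPX : ∀ n, |P n| ≤ X := fun n => by
    simp only [hP, hX]
    refine (Finset.abs_sum_le_sum_abs _ _).trans ?_
    rw [Finset.mul_sum]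
    refine Finset.sum_le_sum fun k _ => (abs_inner_bary_le hK R hR (cell_subset k) (v k)).trans ?_
    rw [mul_comm (R * vol K)]
    gcongr
    exact ENNReal.toReal_mono hK.measure_lt_top.ne (measure_mono (cell_subset k))
  have hval : ∀ (y₁ y₂ : ι → EuclideanSpace ℝ (Fin d)) (q z w : ι → ℝ), y₁ = y₂ →
      IsMin K y₁ q z → IsMin K y₂ q w → dual K y₁ q z = dual K y₂ q w := by
    rintro y₁ _ q z w rfl hz hw; exact le_antisymm (hz w) (hw z)
  have eN : Y (s N) = b := by rw [hsN, hY1]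
  have e0 : Y (s 0) = a := by rw [hs0, hY0]
  simp only [hF, hF'] at hsum
  rw [hval _ _ _ _ _ eN (hψ N) h3, hval _ _ _ _ _ eN (hχ N) h4, hval _ _ _ _ _ e0 (hψ 0) h1,
    hval _ _ _ _ _ e0 (hχ 0) h2] at hsum
  have hd : 2 / N * (P N - P 0) ≤ 4 * X / N := by
    have := abs_le.1 (hPX N); have := abs_le.1 (hPX 0)
    calc 2 / (N:ℝ) * (P N - P 0) ≤ 2 / N * (2 * X) := by gcongr; linarith
      _ = _ := by ring
  linarith

end Vale.Agent.P074
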