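import Vale.Agent.P074.Interp
import Vale.Agent.P074.Discretize

namespace Vale.Agent.P074

open MeasureTheory Set Filter
open scoped ENNReal NNReal RealInnerProductSpace Topology

variable {d : ℕ}

/-- A discrete approximation, with solved semidiscrete problem, of the image of `π` under `f`. -/
structure Disc (K : Set (EuclideanSpace ℝ (Fin d)))
    (π : Measure (EuclideanSpace ℝ (Fin d) × EuclideanSpace ℝ (Fin d)))
    (f : EuclideanSpace ℝ (Fin d) × EuclideanSpace ℝ (Fin d) → EuclideanSpace ℝ (Fin d))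
    (D ε : ℝ) : Type where
  /-- number of atoms -/
  n : ℕ
  npos : 0 < n
  /-- atoms -/
  a : Fin n → EuclideanSpace ℝ (Fin d)
  /-- masses -/
  m : Fin n → ℝ
  /-- labelling -/
  g : EuclideanSpace ℝ (Fin d) × EuclideanSpace ℝ (Fin d) → Fin n
  inj : Function.Injective a
  norm_le : ∀ k, ‖a k‖ ≤ D
  pos : ∀ k, 0 < m k
  sum : ∑ k, m k = vol K
  meas : Measurable g
  integ : ∀ F : Fin n → ℝ, ∑ k, m k * F k = vol K * ∫ p, F (g p) ∂π
  close : ∀ᵐ p ∂π, ‖a (g p) - f p‖ ≤ ε

variable {K : Set (EuclideanSpace ℝ (Fin d))}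

instance {π : Measure (EuclideanSpace ℝ (Fin d) × EuclideanSpace ℝ (Fin d))}
    {f : EuclideanSpace ℝ (Fin d) × EuclideanSpace ℝ (Fin d) → EuclideanSpace ℝ (Fin d)}
    {D ε : ℝ} (X : Disc K π f D ε) : Nonempty (Fin X.n) := ⟨⟨0, X.npos⟩⟩

variable {ι : Type*} [Fintype ι] [Nonempty ι] {y : ι → EuclideanSpace ℝ (Fin d)} {m ψ : ι → ℝ}

lemma ae_label_eq (hK : IsCompact K) (hy : Function.Injective y) (k : ι) :
    ∀ᵐ x ∂(volume.restrict (cell K y ψ k)), label y ψ x = k := by
  rw [ae_restrict_iff' (measurableSet_cell hK k), ae_iff]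
  have hsub : {x | ¬(x ∈ cell K y ψ k → label y ψ x = k)}
      ⊆ ⋃ l ∈ {l : ι | l ≠ k}, cell K y ψ k ∩ cell K y ψ l := by
    intro x hx
    simp only [Set.mem_setOf_eq, Classical.not_imp] at hx
    exact Set.mem_biUnion (show label y ψ x ∈ {l : ι | l ≠ k} from hx.2)
      ⟨hx.1, hx.1.1, label_spec y ψ x⟩
  refine measure_mono_null hsub ((measure_biUnion_null_iff (Set.to_countable _)).2 fun l hl => ?_)
  exact aedisjoint_cell hy (Ne.symm hl)

lemma integrableOn_of_bound (hK : IsCompact K) {F : EuclideanSpace ℝ (Fin d) → ℝ} (hF : Measurable F)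
    {C : ℝ} (hC : ∀ᵐ x ∂(volume.restrict K), |F x| ≤ C) : IntegrableOn F K :=
  Integrable.mono' (continuous_const.continuousOn.integrableOn_compact hK (f := fun _ => C))
    hF.aestronglyMeasurable hC

lemma setIntegral_comp_tmap (hK : IsCompact K) (hy : Function.Injective y)
    (hms : ∑ k, m k = vol K) (hψ : IsMin K y m ψ) (G : EuclideanSpace ℝ (Fin d) → ℝ)
    (hG : Measurable G) : ∫ x in K, G (tmap y ψ x) = ∑ k, m k * G (y k) := by
  have hi : IntegrableOn (fun x => G (tmap y ψ x)) K :=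
    integrableOn_of_bound hK (hG.comp (measurable_tmap y ψ)) (C := ∑ k, |G (y k)|)
      (Eventually.of_forall fun x => Finset.single_le_sum (f := fun k => |G (y k)|)
        (fun k _ => abs_nonneg _) (Finset.mem_univ (label y ψ x)))
  conv_lhs => rw [← iUnion_cell (K := K) (y := y) (ψ := ψ)]
  rw [integral_iUnion_ae (fun k => (measurableSet_cell hK k).nullMeasurableSet)
    (fun k l hkl => aedisjoint_cell hy hkl) (by rw [iUnion_cell]; exact hi), tsum_fintype]
  refine Finset.sum_congr rfl fun k _ => ?_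
  rw [integral_congr_ae ((ae_label_eq hK hy k).mono fun x hx =>
    show G (tmap y ψ x) = G (y k) by rw [tmap, hx]), setIntegral_const, smul_eq_mul, measureReal_def,
    ← show vol (cell K y ψ k) = (volume (cell K y ψ k)).toReal from rfl,
    vol_cell_eq hK hy hms hψ k]

lemma integrableOn_inner (hK : IsCompact K) (R D : ℝ) (hR : ∀ x ∈ K, ‖x‖ ≤ R)
    {U : EuclideanSpace ℝ (Fin d) → EuclideanSpace ℝ (Fin d)} (hU : Measurable U)
    (hUD : ∀ᵐ x ∂(volume.restrict K), ‖U x‖ ≤ D) : IntegrableOn (fun x => ⟪x, U x⟫) K := by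
  refine integrableOn_of_bound hK (measurable_id.inner hU) (C := R * D) ?_
  filter_upwards [hUD, ae_restrict_mem hK.isClosed.measurableSet] with x hx hxK
  exact (abs_real_inner_le_norm _ _).trans (mul_le_mul (hR x hxK) hx (norm_nonneg _)
    ((norm_nonneg x).trans (hR x hxK)))

lemma setIntegral_inner_tmap (hK : IsCompact K) (R D : ℝ) (hR : ∀ x ∈ K, ‖x‖ ≤ R)
    (hD : ∀ k, ‖y k‖ ≤ D) (hy : Function.Injective y) (hms : ∑ k, m k = vol K)
    (hψ : IsMin K y m ψ) : ∫ x in K, ⟪x, tmap y ψ x⟫ = dual K y m ψ := by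
  have hi := integrableOn_inner hK R D hR (measurable_tmap y ψ)
    (Eventually.of_forall fun x => norm_tmap_le hD ψ x)
  rw [dual_eq_sum hK hy hms hψ]
  conv_lhs => rw [← iUnion_cell (K := K) (y := y) (ψ := ψ)]
  rw [integral_iUnion_ae (fun k => (measurableSet_cell hK k).nullMeasurableSet)
    (fun k l hkl => aedisjoint_cell hy hkl) (by rw [iUnion_cell]; exact hi), tsum_fintype]
  refine Finset.sum_congr rfl fun k _ => ?_
  have i2 := integrableOn_of_subset hK (cell_subset (y := y) (ψ := ψ) k)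
    (continuous_id (X := EuclideanSpace ℝ (Fin d)))
  rw [integral_congr_ae ((ae_label_eq hK hy k).mono fun x hx =>
    show ⟪x, tmap y ψ x⟫ = ⟪y k, x⟫ by rw [tmap, hx, real_inner_comm])]
  exact integral_inner i2 (y k)

/-- An upper bound of the conjugate potential. -/
noncomputable def conj' (y : ι → EuclideanSpace ℝ (Fin d)) (ψ : ι → ℝ) (R : ℝ)
    (z : EuclideanSpace ℝ (Fin d)) : ℝ :=
  Finset.univ.inf' Finset.univ_nonempty fun k => ψ k + R * ‖z - y k‖

lemma continuous_conj' (R : ℝ) : Continuous (conj' y ψ R) :=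
  Continuous.finset_inf'_apply _ (fun k _ => by fun_prop)

lemma inner_sub_pot_le (R : ℝ) {x : EuclideanSpace ℝ (Fin d)} (hx : ‖x‖ ≤ R)
    (z : EuclideanSpace ℝ (Fin d)) : ⟪x, z⟫ - pot' y ψ x ≤ conj' y ψ R z := by
  refine Finset.le_inf' _ _ fun k _ => ?_
  have h1 := aff_le_pot (y := y) (ψ := ψ) k x
  have h2 := (real_inner_le_norm x (z - y k)).trans (mul_le_mul_of_nonneg_right hx (norm_nonneg _))
  rw [inner_sub_right] at h2
  simp only [aff] at h1
  linarith

/-- The duality gap density of a map `U`. -/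
noncomputable def gapFun (y : ι → EuclideanSpace ℝ (Fin d)) (ψ : ι → ℝ) (R : ℝ)
    (U : EuclideanSpace ℝ (Fin d) → EuclideanSpace ℝ (Fin d)) (x : EuclideanSpace ℝ (Fin d)) : ℝ :=
  pot' y ψ x + conj' y ψ R (U x) - ⟪x, U x⟫

variable {π : Measure (EuclideanSpace ℝ (Fin d) × EuclideanSpace ℝ (Fin d))}
variable {f : EuclideanSpace ℝ (Fin d) × EuclideanSpace ℝ (Fin d) → EuclideanSpace ℝ (Fin d)}
variable {D ε : ℝ}

/-- Any map with nearly the same image measure is close to the discrete map, up to its gap. -/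
theorem gap_bound [IsProbabilityMeasure π] (hK : IsCompact K) (R : ℝ) (hR0 : 0 ≤ R)
    (hR : ∀ x ∈ K, ‖x‖ ≤ R) {A r : ℝ}
    (hA : ∀ v : EuclideanSpace ℝ (Fin d), ‖v‖ ≤ r → vol K - vol (inner2 K v) ≤ A * ‖v‖)
    (X : Disc K π f D ε) {ψ : Fin X.n → ℝ} (hψ : IsMin K X.a X.m ψ)
    {U : EuclideanSpace ℝ (Fin d) → EuclideanSpace ℝ (Fin d)} (hUm : Measurable U)
    (hU : ∀ᵐ x ∂(volume.restrict K), ‖U x‖ ≤ D)
    {F : EuclideanSpace ℝ (Fin d) × EuclideanSpace ℝ (Fin d) → EuclideanSpace ℝ (Fin d)}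
    (hF : Measurable F) {ε' : ℝ} (hFf : ∀ᵐ p ∂π, ‖F p - f p‖ ≤ ε')
    (hlaw : ∀ G : EuclideanSpace ℝ (Fin d) → ℝ, Continuous G →
      ∫ x in K, G (U x) = vol K * ∫ p, G (F p) ∂π)
    {δ : ℝ} (hδ : 0 < δ) (hδr : δ ≤ r) :
    (∫ x in K, ⟪x, U x⟫ ≤ dual K X.a X.m ψ + R * vol K * (ε + ε')) ∧
    ∫ x in K, ‖U x - tmap X.a ψ x‖ ≤ d * (4 * D * A * δ
      + (dual K X.a X.m ψ + R * vol K * (ε + ε') - ∫ x in K, ⟪x, U x⟫) / δ) := by
  set h := gapFun X.a ψ R U with hh
  have hD0 : 0 ≤ D := (norm_nonneg _).trans (X.norm_le ⟨0, X.npos⟩)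
  have ip : IntegrableOn (pot' X.a ψ) K := continuous_pot.continuousOn.integrableOn_compact hK
  obtain ⟨C, hC⟩ := (isCompact_closedBall (0 : EuclideanSpace ℝ (Fin d)) D).exists_bound_of_continuousOn
    (continuous_conj' (y := X.a) (ψ := ψ) R).continuousOn
  have ic : IntegrableOn (fun x => conj' X.a ψ R (U x)) K := by
    refine integrableOn_of_bound hK ((continuous_conj' R).measurable.comp hUm) (C := C) ?_
    filter_upwards [hU] with x hx
    exact hC (U x) (by simpa using hx)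
  have ii := integrableOn_inner hK R D hR hUm hU
  have hhi : IntegrableOn h K := (ip.add ic).sub ii
  have hh0 : ∀ x ∈ K, 0 ≤ h x := fun x hx => by
    have := inner_sub_pot_le (y := X.a) (ψ := ψ) R (hR x hx) (U x)
    simp only [hh, gapFun]; linarith
  have hsub : ∀ x ∈ K, ∀ z ∈ K, pot' X.a ψ x + ⟪z - x, U x⟫ - h x ≤ pot' X.a ψ z := fun x _ z hz => by
    have := inner_sub_pot_le (y := X.a) (ψ := ψ) R (hR z hz) (U x)
    simp only [hh, gapFun, inner_sub_left]
    linarith
  have hconj : ∫ x in K, conj' X.a ψ R (U x) ≤ (∑ k, X.m k * ψ k) + R * vol K * (ε + ε') := by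
    rw [hlaw _ (continuous_conj' R), X.integ ψ]
    have hpt : ∀ᵐ p ∂π, conj' X.a ψ R (F p) ≤ ψ (X.g p) + R * (ε + ε') := by
      filter_upwards [hFf, X.close] with p h1 h2
      refine (Finset.inf'_le _ (Finset.mem_univ (X.g p))).trans ?_
      gcongr
      refine (norm_sub_le_norm_sub_add_norm_sub _ (f p) _).trans ?_
      rw [norm_sub_rev (f p)]
      linarith
    have iψ : Integrable (fun p => ψ (X.g p)) π :=
      Integrable.of_bound (((measurable_of_finite ψ).comp X.meas).aestronglyMeasurable)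
        (∑ k, |ψ k|) (Eventually.of_forall fun p => Finset.single_le_sum (f := fun k => |ψ k|)
          (fun k _ => abs_nonneg _) (Finset.mem_univ (X.g p)))
    have h0 : 0 ≤ vol K := ENNReal.toReal_nonneg
    by_cases hcF : Integrable (fun p => conj' X.a ψ R (F p)) π
    · have := integral_mono_ae hcF (iψ.add (integrable_const (R * (ε + ε')))) hpt
      simp only [Pi.add_apply] at this
      rw [integral_add iψ (integrable_const _), integral_const, probReal_univ, one_smul] at this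
      have := mul_le_mul_of_nonneg_left this h0
      linarith
    · exfalso
      apply hcF
      have hbd : ∀ᵐ p ∂π, ‖F p‖ ≤ D + ε + ε' := by
        filter_upwards [hFf, X.close] with p h1 h2
        have := norm_le_norm_add_norm_sub' (F p) (f p)
        have := norm_le_norm_add_norm_sub' (f p) (X.a (X.g p))
        rw [norm_sub_rev (f p)] at this
        linarith [X.norm_le (X.g p)]
      obtain ⟨C', hC'⟩ := (isCompact_closedBall (0 : EuclideanSpace ℝ (Fin d)) (D + ε + ε'))
        |>.exists_bound_of_continuousOn (continuous_conj' (y := X.a) (ψ := ψ) R).continuousOn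
      exact Integrable.of_bound ((continuous_conj' R).measurable.comp hF).aestronglyMeasurable C'
        (hbd.mono fun p hp => hC' (F p) (by simpa using hp))
  have hint : ∫ x in K, h x ≤ dual K X.a X.m ψ + R * vol K * (ε + ε') - ∫ x in K, ⟪x, U x⟫ := by
    have i12 : IntegrableOn (fun x => pot' X.a ψ x + conj' X.a ψ R (U x)) K := ip.add ic
    simp only [hh, gapFun]
    rw [integral_sub i12 ii, integral_add ip ic]
    unfold dual
    linarith
  have hnn : 0 ≤ ∫ x in K, h x := setIntegral_nonneg hK.isClosed.measurableSet hh0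
  refine ⟨by linarith, ?_⟩
  have hcoord : ∀ i : Fin d, ∫ x in K, |U x i - tmap X.a ψ x i| ≤ 4 * D * A * δ
      + (dual K X.a X.m ψ + R * vol K * (ε + ε') - ∫ x in K, ⟪x, U x⟫) / δ := fun i => by
    refine (approx_subgrad_close hK hA ψ X.norm_le hUm hU hhi hh0 hsub i hδ hδr).trans ?_
    gcongr
  have hi : ∀ i : Fin d, IntegrableOn (fun x => |U x i - tmap X.a ψ x i|) K := fun i => by
    refine integrableOn_of_bound hK ((((EuclideanSpace.proj (𝕜 := ℝ) i).continuous.measurable.comp hUm).sub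
      ((EuclideanSpace.proj (𝕜 := ℝ) i).continuous.measurable.comp (measurable_tmap X.a ψ))).abs)
      (C := D + D) ?_
    filter_upwards [hU] with x hx
    rw [abs_abs]
    exact (abs_sub _ _).trans (add_le_add (coord_le i hx) (coord_le i (norm_tmap_le X.norm_le ψ x)))
  calc ∫ x in K, ‖U x - tmap X.a ψ x‖ ≤ ∫ x in K, ∑ i, |U x i - tmap X.a ψ x i| := by
        refine integral_mono_of_nonneg (Eventually.of_forall fun x => norm_nonneg _)
          (integrable_finsetSum _ fun i _ => hi i) (Eventually.of_forall fun x => ?_)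
        set w := U x - tmap X.a ψ x with hw
        have h2 : ‖w‖ ^ 2 ≤ (∑ i, |w i|) ^ 2 := by
          rw [EuclideanSpace.norm_sq_eq]
          simp only [Real.norm_eq_abs]
          exact Finset.sum_sq_le_sq_sum_of_nonneg fun i _ => abs_nonneg _
        exact (pow_le_pow_iff_left₀ (norm_nonneg _)
          (Finset.sum_nonneg fun i _ => abs_nonneg _) two_ne_zero).1 h2
    _ = ∑ i, ∫ x in K, |U x i - tmap X.a ψ x i| := integral_finsetSum _ fun i _ => hi i
    _ ≤ _ := by
        refine (Finset.sum_le_sum fun i _ => hcoord i).trans (le_of_eq ?_)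
        rw [Finset.sum_const, Finset.card_univ, Fintype.card_fin, nsmul_eq_mul]

lemma Disc.law [IsProbabilityMeasure π] (hK : IsCompact K) (X : Disc K π f D ε) {ψ : Fin X.n → ℝ}
    (hψ : IsMin K X.a X.m ψ) (G : EuclideanSpace ℝ (Fin d) → ℝ) (hG : Continuous G) :
    ∫ x in K, G (tmap X.a ψ x) = vol K * ∫ p, G (X.a (X.g p)) ∂π := by
  rw [setIntegral_comp_tmap hK X.inj X.sum hψ G hG.measurable, X.integ fun k => G (X.a k)]

lemma Disc.exists_min' (hK : IsCompact K) (R : ℝ) (hR : ∀ x ∈ K, ‖x‖ ≤ R) (X : Disc K π f D ε) :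
    ∃ ψ, IsMin K X.a X.m ψ := by
  obtain ⟨ψ, hψ, -⟩ := exists_min (y := X.a) hK R D hR X.norm_le
    (Finset.univ.inf' Finset.univ_nonempty X.m)
    ((Finset.lt_inf'_iff _).2 fun k _ => X.pos k) (fun k => Finset.inf'_le _ (Finset.mem_univ k))
    X.sum
  exact ⟨ψ, hψ⟩

end Vale.Agent.P074
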