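import Vale.Agent.P074.Defs

namespace Vale.Agent.P074

open MeasureTheory Filter
open scoped ENNReal NNReal Topology RealInnerProductSpace

variable {n : ℕ}

/-- The cube `[-1/2,1/2]^(n+2)`. -/
def cube (n : ℕ) : Set (EuclideanSpace ℝ (Fin (n + 2))) := {x | ∀ i, |x i| ≤ 1 / 2}

/-- A box given by its sides. -/
def box (a b : Fin (n + 2) → ℝ) : Set (EuclideanSpace ℝ (Fin (n + 2))) :=
  {x | ∀ i, x i ∈ Set.Icc (a i) (b i)}

lemma volume_box (a b : Fin (n + 2) → ℝ) :
    volume (box a b) = ∏ i, ENNReal.ofReal (b i - a i) := by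
  have h : box a b = WithLp.ofLp ⁻¹' (Set.univ.pi fun i => Set.Icc (a i) (b i)) := by
    ext x; simp [box, Set.mem_pi, Pi.le_def, forall_and]
  rw [h, (PiLp.volume_preserving_ofLp (Fin (n + 2))).measure_preimage
    (MeasurableSet.univ_pi fun i => measurableSet_Icc).nullMeasurableSet, volume_pi,
    Measure.pi_pi]
  simp [Real.volume_Icc]

lemma cube_eq_box : cube n = box (fun _ => -(1 / 2)) (fun _ => 1 / 2) := by
  ext x; simp [cube, box, abs_le, forall_and]

lemma volume_cube : volume (cube n) = 1 := by
  rw [cube_eq_box, volume_box]; norm_num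

lemma isClosed_cube : IsClosed (cube n) := by
  simp only [cube, Set.setOf_forall]
  exact isClosed_iInter fun i => isClosed_le (by fun_prop) continuous_const

lemma norm_le_of_mem_cube {x : EuclideanSpace ℝ (Fin (n + 2))} (hx : x ∈ cube n) :
    ‖x‖ ≤ Real.sqrt (n + 2) := by
  rw [EuclideanSpace.norm_eq]
  refine Real.sqrt_le_sqrt ?_
  refine (Finset.sum_le_card_nsmul _ _ 1 (fun i _ => ?_)).trans (by simp)
  rw [Real.norm_eq_abs, sq_abs, ← sq_abs]
  nlinarith [hx i, abs_nonneg (x i)]

lemma isCompact_cube : IsCompact (cube n) :=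
  Metric.isCompact_of_isClosed_isBounded isClosed_cube
    ((isBounded_iff_forall_norm_le).2 ⟨_, fun _ hx => norm_le_of_mem_cube hx⟩)

lemma convex_cube : Convex ℝ (cube n) := by
  intro x hx y hy a b ha hb hab i
  calc |(a • x + b • y) i| = |a * x i + b * y i| := by simp
    _ ≤ a * |x i| + b * |y i| := by
        refine (abs_add_le _ _).trans ?_
        rw [abs_mul, abs_mul, abs_of_nonneg ha, abs_of_nonneg hb]
    _ ≤ a * (1 / 2) + b * (1 / 2) := by gcongr <;> [exact hx i; exact hy i]
    _ = 1 / 2 := by rw [← add_mul, hab, one_mul]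

lemma interior_cube : (interior (cube n)).Nonempty := by
  refine ⟨0, mem_interior.2 ⟨Metric.ball 0 (1 / 2), fun x hx i => ?_, Metric.isOpen_ball, by simp⟩⟩
  rw [mem_ball_zero_iff] at hx
  exact (le_of_eq (Real.norm_eq_abs _).symm).trans ((PiLp.norm_apply_le x i).trans hx.le)

lemma uniformOn_cube : uniformOn (cube n) = volume.restrict (cube n) := by
  simp [uniformOn, volume_cube]

instance : IsProbabilityMeasure (volume.restrict (cube n)) :=
  ⟨by simp [volume_cube]⟩

/-- The left atom. -/
noncomputable def atomA (n : ℕ) : EuclideanSpace ℝ (Fin (n + 2)) := EuclideanSpace.single 0 (-1)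
/-- The right atom. -/
noncomputable def atomB (n : ℕ) : EuclideanSpace ℝ (Fin (n + 2)) := EuclideanSpace.single 0 1
/-- The small middle atom at height `η`. -/
noncomputable def atomC (n : ℕ) (η : ℝ) : EuclideanSpace ℝ (Fin (n + 2)) := EuclideanSpace.single 1 η

/-- The three-cell Brenier map. -/
noncomputable def cellMap (m η : ℝ) (x : EuclideanSpace ℝ (Fin (n + 2))) :
    EuclideanSpace ℝ (Fin (n + 2)) :=
  if |x 0| < m + η * x 1 then atomC n η else if x 0 < 0 then atomA n else atomB n

lemma measurable_cellMap (m η : ℝ) : Measurable (cellMap (n := n) m η) := by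
  refine Measurable.ite (measurableSet_lt (by fun_prop) (by fun_prop)) measurable_const ?_
  exact Measurable.ite (measurableSet_lt (by fun_prop) (by fun_prop)) measurable_const
    measurable_const

lemma cellMap_mem (m η : ℝ) (x : EuclideanSpace ℝ (Fin (n + 2))) :
    cellMap m η x ∈ ({atomA n, atomB n, atomC n η} : Set _) := by
  unfold cellMap; split_ifs <;> simp

lemma norm_cellMap_le (m η : ℝ) (hη : |η| ≤ 1) (x : EuclideanSpace ℝ (Fin (n + 2))) :
    ‖cellMap m η x‖ ≤ 1 := by
  unfold cellMap; split_ifs <;> simp [atomA, atomB, atomC, hη]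

/-- The potential on the atoms. -/
noncomputable def pot (m η : ℝ) (y : EuclideanSpace ℝ (Fin (n + 2))) : ℝ :=
  if y = atomC n η then m else 0

lemma atomA_ne (η : ℝ) : atomA n ≠ atomC n η := by
  intro h
  have := congrArg (fun y : EuclideanSpace ℝ (Fin (n + 2)) => y 0) h
  simp [atomA, atomC] at this

lemma atomB_ne (η : ℝ) : atomB n ≠ atomC n η := by
  intro h
  have := congrArg (fun y : EuclideanSpace ℝ (Fin (n + 2)) => y 0) h
  simp [atomB, atomC] at this

lemma cellMap_max (m η : ℝ) (x y : EuclideanSpace ℝ (Fin (n + 2)))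
    (hy : y ∈ ({atomA n, atomB n, atomC n η} : Set _)) :
    ⟪x, y⟫ + pot m η y ≤ ⟪x, cellMap m η x⟫ + pot m η (cellMap m η x) := by
  have ha : ⟪x, atomA n⟫ + pot m η (atomA n) = -x 0 := by
    rw [pot, if_neg (atomA_ne η)]
    simp [atomA, EuclideanSpace.inner_single_right]
  have hb : ⟪x, atomB n⟫ + pot m η (atomB n) = x 0 := by
    rw [pot, if_neg (atomB_ne η)]
    simp [atomB, EuclideanSpace.inner_single_right]
  have hc : ⟪x, atomC n η⟫ + pot m η (atomC n η) = m + η * x 1 := by
    simp [pot, atomC, EuclideanSpace.inner_single_right]; ring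
  have key : ⟪x, cellMap m η x⟫ + pot m η (cellMap m η x) = max (m + η * x 1) |x 0| := by
    unfold cellMap
    split_ifs with h1 h2
    · rw [hc, max_eq_left h1.le]
    · rw [ha, max_eq_right (not_lt.1 h1), abs_of_neg h2]
    · rw [hb, max_eq_right (not_lt.1 h1), abs_of_nonneg (not_lt.1 h2)]
  rw [key]
  rcases hy with rfl | rfl | rfl
  · rw [ha]; exact le_max_of_le_right (neg_le_abs _)
  · rw [hb]; exact le_max_of_le_right (le_abs_self _)
  · rw [hc]; exact le_max_left _ _

lemma isOTMap_cellMap (m η : ℝ) (hη : |η| ≤ 1) :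
    IsOTMap (uniformOn (cube n)) ((uniformOn (cube n)).map (cellMap m η)) (cellMap m η) := by
  rw [uniformOn_cube]
  set ρ := volume.restrict (cube n) with hρ
  set T := cellMap (n := n) m η with hT
  have hTm : Measurable T := measurable_cellMap m η
  refine ⟨hTm, rfl, fun S hSm hS => ?_⟩
  have hatoms : MeasurableSet ({atomA n, atomB n, atomC n η} : Set _) :=
    (((Set.finite_singleton _).insert _).insert _).measurableSet
  have hSmem : ∀ᵐ x ∂ρ, S x ∈ ({atomA n, atomB n, atomC n η} : Set _) := by
    have h1 : ∀ᵐ y ∂(ρ.map T), y ∈ ({atomA n, atomB n, atomC n η} : Set _) :=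
      (ae_map_iff hTm.aemeasurable hatoms).2 (Eventually.of_forall (cellMap_mem m η))
    rw [← hS] at h1
    exact (ae_map_iff hSm.aemeasurable hatoms).1 h1
  set k : EuclideanSpace ℝ (Fin (n + 2)) → ℝ := fun y => 2 * pot m η y + ‖y‖ ^ 2 with hk
  have hkm : Measurable k := by
    refine Measurable.add (Measurable.const_mul ?_ 2) (by fun_prop)
    exact Measurable.ite (measurableSet_singleton _) measurable_const measurable_const
  have hbound : ∀ U : EuclideanSpace ℝ (Fin (n + 2)) → EuclideanSpace ℝ (Fin (n + 2)),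
      Measurable U → (∀ᵐ x ∂ρ, U x ∈ ({atomA n, atomB n, atomC n η} : Set _)) →
      Integrable (fun x => ‖x - U x‖ ^ 2) ρ ∧ Integrable (fun x => k (U x)) ρ := by
    intro U hU hmem
    have hmemK : ∀ᵐ x ∂ρ, x ∈ cube n := ae_restrict_mem isClosed_cube.measurableSet
    constructor
    · refine Integrable.mono' (integrable_const ((Real.sqrt (n + 2) + 1) ^ 2))
        ((measurable_id.sub hU).norm.pow_const 2).aestronglyMeasurable ?_
      filter_upwards [hmem, hmemK] with x hx hxK
      rw [Real.norm_eq_abs, abs_of_nonneg (by positivity)]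
      gcongr
      refine (norm_sub_le _ _).trans (add_le_add (norm_le_of_mem_cube hxK) ?_)
      rcases hx with h | h | h <;> rw [h] <;> simp [atomA, atomB, atomC, hη]
    · refine Integrable.mono' (integrable_const (2 * |m| + 1))
        (hkm.comp hU).aestronglyMeasurable ?_
      filter_upwards [hmem] with x hx
      have h1 : |pot m η (U x)| ≤ |m| := by unfold pot; split_ifs <;> simp
      have h2 : ‖U x‖ ≤ 1 := by
        rcases hx with h | h | h <;> rw [h] <;> simp [atomA, atomB, atomC, hη]
      have h3 : ‖U x‖ ^ 2 ≤ 1 := by nlinarith [norm_nonneg (U x)]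
      simp only [Real.norm_eq_abs, hk]
      refine (abs_add_le _ _).trans ?_
      rw [abs_mul, abs_two, abs_of_nonneg (sq_nonneg ‖U x‖)]
      linarith
  obtain ⟨iS, iSk⟩ := hbound S hSm hSmem
  obtain ⟨iT, iTk⟩ := hbound T hTm (Eventually.of_forall (cellMap_mem m η))
  have heq : ∫ x, k (S x) ∂ρ = ∫ x, k (T x) ∂ρ := by
    rw [← integral_map hSm.aemeasurable hkm.aestronglyMeasurable, hS,
      integral_map hTm.aemeasurable hkm.aestronglyMeasurable]
  have hle : ∫ x, (‖x - T x‖ ^ 2 - k (T x)) ∂ρ ≤ ∫ x, (‖x - S x‖ ^ 2 - k (S x)) ∂ρ := by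
    refine integral_mono_ae (iT.sub iTk) (iS.sub iSk) ?_
    filter_upwards [hSmem] with x hx
    have := cellMap_max m η x (S x) hx
    simp only [hk, hT, norm_sub_sq_real]
    linarith
  rw [integral_sub iT iTk, integral_sub iS iSk, heq] at hle
  rw [← ofReal_integral_eq_lintegral_ofReal iT (Eventually.of_forall fun _ => sq_nonneg _),
    ← ofReal_integral_eq_lintegral_ofReal iS (Eventually.of_forall fun _ => sq_nonneg _)]
  exact ENNReal.ofReal_le_ofReal (by linarith)

/-- Reflection of the coordinate `1`. -/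
noncomputable def flipOne (n : ℕ) :
    EuclideanSpace ℝ (Fin (n + 2)) ≃ₗᵢ[ℝ] EuclideanSpace ℝ (Fin (n + 2)) :=
  LinearIsometryEquiv.piLpCongrRight 2
    (fun i => if i = 1 then LinearIsometryEquiv.neg ℝ else LinearIsometryEquiv.refl ℝ ℝ)

lemma flipOne_apply (x : EuclideanSpace ℝ (Fin (n + 2))) (i : Fin (n + 2)) :
    flipOne n x i = if i = 1 then -x i else x i := by
  simp only [flipOne, LinearIsometryEquiv.piLpCongrRight_apply, PiLp.toLp_apply]
  split_ifs <;> simp

lemma flipOne_preserving :
    MeasurePreserving (flipOne n) (volume.restrict (cube n)) (volume.restrict (cube n)) := by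
  have hpre : (flipOne n) ⁻¹' (cube n) = cube n := by
    ext x
    simp only [Set.mem_preimage, cube, Set.mem_setOf_eq, flipOne_apply]
    constructor <;> intro h i <;> have := h i <;> split_ifs at this ⊢ <;> simp_all
  have := (flipOne n).measurePreserving.restrict_preimage (s := cube n) isClosed_cube.measurableSet
  rwa [hpre] at this

/-- Moves the small atom from height `m` to height `-m`. -/
noncomputable def moveAtom (n : ℕ) (m : ℝ) (y : EuclideanSpace ℝ (Fin (n + 2))) :
    EuclideanSpace ℝ (Fin (n + 2)) :=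
  if y = atomC n m then atomC n (-m) else y

lemma measurable_moveAtom (m : ℝ) : Measurable (moveAtom n m) :=
  Measurable.ite (measurableSet_singleton _) measurable_const measurable_id

lemma map_moveAtom (m : ℝ) :
    (uniformOn (cube n)).map (cellMap m (-m))
      = (uniformOn (cube n)).map (fun x => moveAtom n m (cellMap m m x)) := by
  rw [uniformOn_cube]
  have h : (fun x => moveAtom n m (cellMap m m x)) ∘ (flipOne n) = cellMap (n := n) m (-m) := by
    funext x
    have e0 : flipOne n x 0 = x 0 := by simp [flipOne_apply]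
    have e1 : flipOne n x 1 = -x 1 := by simp [flipOne_apply]
    simp only [Function.comp, cellMap, e0, e1, mul_neg, neg_mul]
    split_ifs <;> simp [moveAtom, atomA_ne, atomB_ne]
  have hg : Measurable (fun x => moveAtom n m (cellMap m m x)) :=
    (measurable_moveAtom m).comp (measurable_cellMap m m)
  rw [← h, ← Measure.map_map hg (flipOne n).continuous.measurable, flipOne_preserving.map_eq]

lemma W2_le (m : ℝ) (hm : 0 < m) :
    W2 ((uniformOn (cube n)).map (cellMap m m)) ((uniformOn (cube n)).map (cellMap m (-m)))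
      ≤ ENNReal.ofReal (16 * m ^ 3) ^ (1 / 2 : ℝ) := by
  rw [map_moveAtom, uniformOn_cube]
  set ρ := volume.restrict (cube n)
  set T := cellMap (n := n) m m
  have hT : Measurable T := measurable_cellMap m m
  set P := fun x => (T x, moveAtom n m (T x))
  have hP : Measurable P := hT.prodMk ((measurable_moveAtom m).comp hT)
  unfold W2
  refine ENNReal.rpow_le_rpow ?_ (by norm_num)
  have hmarg : (ρ.map P).map Prod.fst = ρ.map T
      ∧ (ρ.map P).map Prod.snd = ρ.map (fun x => moveAtom n m (T x)) :=
    ⟨by rw [Measure.map_map measurable_fst hP]; rfl, by rw [Measure.map_map measurable_snd hP]; rfl⟩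
  refine le_trans (iInf₂_le (ρ.map P) hmarg) ?_
  · rw [lintegral_map (by fun_prop) hP]
    set a : Fin (n + 2) → ℝ := fun i => if i = 0 then -(2 * m) else -(1 / 2) with ha
    set b : Fin (n + 2) → ℝ := fun i => if i = 0 then 2 * m else 1 / 2 with hb
    have hmeas : MeasurableSet (box a b) := by
      simp only [box, Set.setOf_forall]
      exact MeasurableSet.iInter fun i => (measurableSet_Icc).preimage (by fun_prop)
    calc ∫⁻ x, ENNReal.ofReal (‖(P x).1 - (P x).2‖ ^ 2) ∂ρ
        ≤ ∫⁻ x, (box a b).indicator (fun _ => ENNReal.ofReal (4 * m ^ 2)) x ∂ρ := by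
          refine lintegral_mono_ae ?_
          filter_upwards [ae_restrict_mem isClosed_cube.measurableSet] with x hx
          simp only [P, T, cellMap]
          split_ifs with h1 h2
          · rw [Set.indicator_of_mem]
            · refine ENNReal.ofReal_le_ofReal (le_of_eq ?_)
              simp only [moveAtom, if_pos, atomC]
              rw [← PiLp.single_sub, EuclideanSpace.norm_single]
              simp; ring
            · intro i
              have hxi := abs_le.1 (hx i)
              by_cases hi : i = 0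
              · subst hi
                have h1' := abs_le.1 (hx 1)
                have := abs_lt.1 h1
                constructor <;> simp [ha, hb] <;> nlinarith
              · simp [ha, hb, hi]; constructor <;> linarith
          · simp [moveAtom, atomA_ne]
          · simp [moveAtom, atomB_ne]
      _ ≤ ENNReal.ofReal (4 * m ^ 2) * volume (box a b) := by
          rw [lintegral_indicator hmeas, setLIntegral_const]
          gcongr
          exact Measure.restrict_le_self
      _ = ENNReal.ofReal (16 * m ^ 3) := by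
          rw [volume_box, Finset.prod_eq_single 0]
          · rw [← ENNReal.ofReal_mul (by positivity)]; congr 1; simp [ha, hb]; ring
          · intro i _ hi; simp [ha, hb, hi]; norm_num
          · simp

lemma dist_ge (m : ℝ) (hm : 0 < m) (hm' : m ≤ 1 / 4) :
    ENNReal.ofReal (m / 10) ^ (1 / 2 : ℝ)
      ≤ eLpNorm (cellMap (n := n) m m - cellMap m (-m)) 2 (uniformOn (cube n)) := by
  rw [uniformOn_cube]
  set a : Fin (n + 2) → ℝ := fun i =>
    if i = 0 then 4 * m / 5 else if i = 1 then 1 / 4 else -(1 / 2) with ha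
  set b : Fin (n + 2) → ℝ := fun i => if i = 0 then 6 * m / 5 else 1 / 2 with hb
  have hmeas : MeasurableSet (box a b) := by
    simp only [box, Set.setOf_forall]
    exact MeasurableSet.iInter fun i => (measurableSet_Icc).preimage (by fun_prop)
  have hsub : box a b ⊆ cube n := by
    intro x hx i
    obtain ⟨h1, h2⟩ := hx i
    simp only [ha] at h1; simp only [hb] at h2
    rw [abs_le]; constructor <;> split_ifs at h1 h2 <;> linarith
  have hvol : (volume.restrict (cube n)) (box a b) = ENNReal.ofReal (m / 10) := by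
    rw [Measure.restrict_apply hmeas, Set.inter_eq_left.2 hsub, volume_box,
      ← Finset.prod_subset (Finset.subset_univ ({0, 1} : Finset (Fin (n + 2))))]
    · rw [Finset.prod_pair (by simp)]
      simp [ha, hb]
      rw [← ENNReal.ofReal_mul (by linarith)]
      congr 1; ring
    · intro i _ hi
      simp only [Finset.mem_insert, Finset.mem_singleton, not_or] at hi
      simp [ha, hb, hi.1, hi.2]; norm_num
  calc ENNReal.ofReal (m / 10) ^ (1 / 2 : ℝ)
      = eLpNorm ((box a b).indicator fun _ => (1 : ℝ)) 2 (volume.restrict (cube n)) := by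
        rw [eLpNorm_indicator_const hmeas two_ne_zero ENNReal.ofNat_ne_top, hvol]; simp
    _ ≤ _ := by
        refine eLpNorm_mono_ae (Eventually.of_forall fun x => ?_)
        by_cases hx : x ∈ box a b
        · rw [Set.indicator_of_mem hx, norm_one]
          obtain ⟨l0, u0⟩ := hx 0
          obtain ⟨l1, u1⟩ := hx 1
          simp [ha, hb] at l0 u0 l1 u1
          have hx0 : 0 < x 0 := by linarith
          have c1 : |x 0| < m + m * x 1 ∨ |x 0| = m + m * x 1 := by
            rw [abs_of_pos hx0]
            exact lt_or_eq_of_le (by nlinarith)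
          have c2 : ¬ |x 0| < m + -m * x 1 := by
            rw [abs_of_pos hx0]; nlinarith
          have e2 : cellMap m (-m) x = atomB n := by
            rw [cellMap, if_neg c2, if_neg hx0.not_gt]
          rcases c1 with c1 | c1
          · have e1 : cellMap m m x = atomC n m := by rw [cellMap, if_pos c1]
            rw [Pi.sub_apply, e1, e2]
            refine le_trans ?_ (PiLp.norm_apply_le _ 0)
            simp [atomB, atomC]
          · exfalso
            rw [abs_of_pos hx0] at c1
            nlinarith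
        · rw [Set.indicator_of_notMem hx, norm_zero]; exact norm_nonneg _

theorem not_admissible (n : ℕ) (α : ℝ) (hα : 1 / 3 < α) : ¬ Admissible (n + 2) α := by
  intro h
  obtain ⟨C, hC⟩ := h (cube n) isCompact_cube convex_cube interior_cube
    (Metric.closedBall 0 1) (isCompact_closedBall _ _) ⟨0, by simp⟩
  have key : ∀ m : ℝ, 0 < m → m ≤ 1 / 4 →
      (m / 10) ^ (1 / 2 : ℝ) ≤ (C : ℝ) * (16 * m ^ 3) ^ (α / 2) := by
    intro m hm hm'
    have hprob : ∀ η, IsProbabilityMeasure ((uniformOn (cube n)).map (cellMap (n := n) m η)) :=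
      fun η => by
        rw [uniformOn_cube]
        exact Measure.isProbabilityMeasure_map (measurable_cellMap m η).aemeasurable
    have hsupp : ∀ η, |η| ≤ 1 →
        ((uniformOn (cube n)).map (cellMap (n := n) m η)) (Metric.closedBall 0 1)ᶜ = 0 := by
      intro η hη
      rw [Measure.map_apply (measurable_cellMap m η) Metric.isClosed_closedBall.measurableSet.compl]
      have : cellMap (n := n) m η ⁻¹' (Metric.closedBall 0 1)ᶜ = ∅ :=
        Set.eq_empty_of_forall_notMem fun x hx => hx (by simpa using norm_cellMap_le m η hη x)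
      simp [this]
    have hη1 : |m| ≤ 1 := by rw [abs_of_pos hm]; linarith
    have hη2 : |-m| ≤ 1 := by rwa [abs_neg]
    have h1 := hC _ _ (hprob m) (hsupp m hη1) (hprob (-m)) (hsupp (-m) hη2) _ _
      (isOTMap_cellMap m m hη1) (isOTMap_cellMap m (-m) hη2)
    have h2 := (dist_ge m hm hm').trans (h1.trans (mul_le_mul_right
      (ENNReal.rpow_le_rpow (W2_le m hm) (by linarith)) _))
    rw [← ENNReal.rpow_mul, ENNReal.ofReal_rpow_of_pos (by linarith),
      ENNReal.ofReal_rpow_of_pos (by positivity), ← ENNReal.ofReal_coe_nnreal,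
      ← ENNReal.ofReal_mul (NNReal.coe_nonneg _),
      ENNReal.ofReal_le_ofReal_iff (by positivity)] at h2
    rwa [show α / 2 = 1 / 2 * α by ring]
  set γ := 3 * (α / 2) - 1 / 2 with hγ
  have hγ0 : 0 < γ := by rw [hγ]; linarith
  have lim : Tendsto (fun m : ℝ => (C : ℝ) * (16 : ℝ) ^ (α / 2) * (10 : ℝ) ^ (1 / 2 : ℝ) * m ^ γ)
      (𝓝[>] 0) (𝓝 0) := by
    have := ((Real.continuousAt_rpow_const 0 γ (Or.inr hγ0.le)).tendsto).mono_left
      (nhdsWithin_le_nhds (s := Set.Ioi 0))
    rw [Real.zero_rpow hγ0.ne'] at this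
    simpa using this.const_mul ((C : ℝ) * (16 : ℝ) ^ (α / 2) * (10 : ℝ) ^ (1 / 2 : ℝ))
  obtain ⟨m, ⟨hlt, hm'⟩, hm⟩ := ((lim.eventually (Iio_mem_nhds zero_lt_one)).and
    (nhdsWithin_le_nhds (Iio_mem_nhds (by norm_num : (0:ℝ) < 1 / 4)))).and
      self_mem_nhdsWithin |>.exists
  have hk := key m hm hm'.le
  rw [Real.div_rpow hm.le (by norm_num), div_le_iff₀ (by positivity),
    Real.mul_rpow (by norm_num) (by positivity), ← Real.rpow_natCast m 3,
    ← Real.rpow_mul hm.le] at hk
  have e : m ^ (((3 : ℕ) : ℝ) * (α / 2)) = m ^ γ * m ^ (1 / 2 : ℝ) := by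
    rw [← Real.rpow_add hm, hγ]; norm_num
  rw [e] at hk
  have hp : 0 < m ^ (1 / 2 : ℝ) := Real.rpow_pos_of_pos hm _
  have : 1 * m ^ (1 / 2 : ℝ) < 1 * m ^ (1 / 2 : ℝ) := by
    calc 1 * m ^ (1 / 2 : ℝ) ≤ (C : ℝ) * (16 : ℝ) ^ (α / 2) * (10 : ℝ) ^ (1 / 2 : ℝ) * m ^ γ
          * m ^ (1 / 2 : ℝ) := by rw [one_mul]; linarith
      _ < 1 * m ^ (1 / 2 : ℝ) := mul_lt_mul_of_pos_right hlt hp
  exact lt_irrefl _ this

end Vale.Agent.P074
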